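import Vale.Agent.P255.Flow

/-!
# Local flows depend smoothly on the initial point  (TASK)

Induction on `n`, generalising the space `F` and the field.  `n = 0`: `exists_flow` (differentiable ⇒
continuous).  Step: let `φ, Y` be given by `exists_flow` for `V` at `z₀`, and `Φ` by the induction
hypothesis for the extended field `(z, Y) ↦ (V z, (fderiv V z).comp Y)` on `F × (F →L F)` over
`Ω ×ˢ univ` at `(z₀, id)`.  For `z` in the smaller ball and `t` in the smaller interval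
`(φ z t, Y z t) = Φ (z, id) t` by uniqueness of solutions of the ODE on an interval (the field is `C¹`
on an open set: the set of times of agreement is closed, and open by
`ODE_solution_unique_of_eventually` with `ContDiffAt.exists_lipschitzOnWith`).  Hence `Y · t` is `Cⁿ`
and `φ · t` is `Cⁿ⁺¹` (`contDiffOn_succ_iff_fderiv_of_isOpen`).
-/

namespace Vale.Agent.P234

open scoped ContDiff Topology
open Vale.Agent.P255 Set Metric

universe u

theorem FlowN_uniq {F : Type*} [NormedAddCommGroup F] [NormedSpace ℝ F] {W : F → F} {Ω : Set F}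
    (hΩ : IsOpen Ω) (hW : ContDiffOn ℝ ∞ W Ω) {ε : ℝ} (hε : 0 < ε) {f g : ℝ → F}
    (hf : ∀ t ∈ Ioo (-ε) ε, f t ∈ Ω ∧ HasDerivAt f (W (f t)) t)
    (hg : ∀ t ∈ Ioo (-ε) ε, HasDerivAt g (W (g t)) t) (h0 : f 0 = g 0) :
    ∀ t ∈ Ioo (-ε) ε, f t = g t := by
  have loc : ∀ t ∈ Ioo (-ε) ε, f t = g t → f =ᶠ[𝓝 t] g := by
    intro t ht e
    have hc : ContDiffAt ℝ 1 W (f t) :=
      (hW.contDiffAt (hΩ.mem_nhds (hf t ht).1)).of_le (by exact_mod_cast le_top)
    obtain ⟨K, s, hs, hK⟩ := hc.exists_lipschitzOnWith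
    have hI : ∀ᶠ u in 𝓝 t, u ∈ Ioo (-ε) ε := isOpen_Ioo.mem_nhds ht
    refine ODE_solution_unique_of_eventually (v := fun _ => W) (s := fun _ => s) (K := K)
      (Filter.Eventually.of_forall fun _ => hK) ?_ ?_ e
    · filter_upwards [hI, (hf t ht).2.continuousAt.preimage_mem_nhds hs] with u h1 h2
      exact ⟨(hf u h1).2, h2⟩
    · filter_upwards [hI, (hg t ht).continuousAt.preimage_mem_nhds (e ▸ hs)] with u h1 h2
      exact ⟨hg u h1, h2⟩
  have hz : (0 : ℝ) ∈ Ioo (-ε) ε := ⟨by linarith, hε⟩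
  have key : Ioo (-ε) ε ⊆ {t | f =ᶠ[𝓝 t] g} := by
    refine isPreconnected_Ioo.subset_of_closure_inter_subset isOpen_setOfPred_eventually_nhds
      ⟨0, hz, loc 0 hz h0⟩ fun t ht => loc t ht.2 ?_
    exact tendsto_nhds_unique_of_frequently_eq (hf t ht.2).2.continuousAt (hg t ht.2).continuousAt
      ((mem_closure_iff_frequently.1 ht.1).mono fun u hu => Filter.EventuallyEq.eq_of_nhds hu)
  exact fun t ht => Filter.EventuallyEq.eq_of_nhds (key ht)

theorem exists_flowN (n : ℕ) {F : Type u} [NormedAddCommGroup F] [NormedSpace ℝ F]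
    [FiniteDimensional ℝ F] {V : F → F} {Ω : Set F} (hΩ : IsOpen Ω) (hV : ContDiffOn ℝ ∞ V Ω)
    {z₀ : F} (hz : z₀ ∈ Ω) :
    ∃ ε > 0, ∃ r > 0, ∃ φ : F → ℝ → F,
      (∀ z ∈ ball z₀ r, φ z 0 = z ∧ ∀ t ∈ Ioo (-ε) ε, φ z t ∈ Ω ∧ HasDerivAt (φ z) (V (φ z t)) t) ∧
      ∀ t ∈ Ioo (-ε) ε, ContDiffOn ℝ n (fun z => φ z t) (ball z₀ r) := by
  induction n generalizing F with
  | zero =>
    obtain ⟨ε, hε, r, hr, φ, Y, h, -⟩ := exists_flow hΩ hV hz
    refine ⟨ε, hε, r, hr, φ, fun z hz' => ⟨(h z hz').1, fun t ht =>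
      ⟨((h z hz').2.2 t ht).1, ((h z hz').2.2 t ht).2.1⟩⟩, fun t ht => ?_⟩
    rw [Nat.cast_zero, contDiffOn_zero]
    exact fun z hz' => ((h z hz').2.2 t ht).2.2.2.continuousAt.continuousWithinAt
  | succ n ih =>
    obtain ⟨ε, hε, r, hr, φ, Y, h, -⟩ := exists_flow hΩ hV hz
    have hΩ' : IsOpen (Ω ×ˢ (univ : Set (F →L[ℝ] F))) := hΩ.prod isOpen_univ
    have hW : ContDiffOn ℝ ∞ (fun p : F × (F →L[ℝ] F) => (V p.1, (fderiv ℝ V p.1).comp p.2))
        (Ω ×ˢ univ) :=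
      (hV.comp contDiffOn_fst fun p hp => hp.1).prodMk
        (((hV.fderiv_of_isOpen hΩ (by simp)).comp contDiffOn_fst fun p hp => hp.1).clm_comp
          contDiffOn_snd)
    obtain ⟨ε', hε', r', hr', Φ, hΦ, hc⟩ :=
      ih hΩ' hW (z₀ := (z₀, ContinuousLinearMap.id ℝ F)) ⟨hz, trivial⟩
    have hb1 : ball z₀ (min r r') ⊆ ball z₀ r := ball_subset_ball (min_le_left _ _)
    have hb2 : ∀ z ∈ ball z₀ (min r r'),
        (z, ContinuousLinearMap.id ℝ F) ∈ ball (z₀, ContinuousLinearMap.id ℝ F) r' := by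
      intro z hz'
      rw [← ball_prod_same]
      exact ⟨ball_subset_ball (min_le_right _ _) hz', mem_ball_self hr'⟩
    have hI1 : Ioo (-min ε ε') (min ε ε') ⊆ Ioo (-ε) ε :=
      Ioo_subset_Ioo (neg_le_neg (min_le_left _ _)) (min_le_left _ _)
    have hI2 : Ioo (-min ε ε') (min ε ε') ⊆ Ioo (-ε') ε' :=
      Ioo_subset_Ioo (neg_le_neg (min_le_right _ _)) (min_le_right _ _)
    refine ⟨min ε ε', lt_min hε hε', min r r', lt_min hr hr', φ, fun z hz' =>
      ⟨(h z (hb1 hz')).1, fun t ht => ⟨((h z (hb1 hz')).2.2 t (hI1 ht)).1,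
        ((h z (hb1 hz')).2.2 t (hI1 ht)).2.1⟩⟩, fun t ht => ?_⟩
    have e : ∀ z ∈ ball z₀ (min r r'), (φ z t, Y z t) = Φ (z, ContinuousLinearMap.id ℝ F) t := by
      intro z hz'
      obtain ⟨h1, h2, h3⟩ := h z (hb1 hz')
      refine FlowN_uniq hΩ' hW (lt_min hε hε') (f := fun t => (φ z t, Y z t))
        (fun u hu => ⟨⟨(h3 u (hI1 hu)).1, trivial⟩,
          (h3 u (hI1 hu)).2.1.prodMk (h3 u (hI1 hu)).2.2.1⟩)
        (fun u hu => ((hΦ _ (hb2 z hz')).2 u (hI2 hu)).2) ?_ t ht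
      rw [(hΦ _ (hb2 z hz')).1, h1, h2]
    rw [Nat.cast_succ, contDiffOn_succ_iff_fderiv_of_isOpen isOpen_ball]
    refine ⟨fun z hz' =>
      ((h z (hb1 hz')).2.2 t (hI1 ht)).2.2.2.differentiableAt.differentiableWithinAt,
      fun e' => absurd e' (by simp), ?_⟩
    have hc' : ContDiffOn ℝ n (fun z => (Φ (z, ContinuousLinearMap.id ℝ F) t).2)
        (ball z₀ (min r r')) :=
      contDiff_snd.comp_contDiffOn ((hc t (hI2 ht)).comp
        (contDiffOn_id.prodMk contDiffOn_const) hb2)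
    refine hc'.congr fun z hz' => ?_
    rw [((h z (hb1 hz')).2.2 t (hI1 ht)).2.2.2.fderiv, ← e z hz']

end Vale.Agent.P234
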