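import Vale.Agent.P234.HR
import Vale.Agent.P234.Conj

/-!
# Characterisation of the injectivity domain  (TASK)

`inj_uniq`: `Min (a • v)`, `a > 1`, `w'` minimising with the same end point `y`; `nrm w' = nrm v`.  If `v = 0`
then `w' = 0`.  Else `corner` at `y` with `V = -vel (geo x w') 1`, `W = (a-1) • vel (geo x v) 1` (`geo_vel`) gives
equal end velocities, so `geo x w' = geo x v` (`geo_vel` with `c = 1`), so `w' = v` (`vel_geo_zero`).
`conj_setup`: `contDiffAt_bE`, `contDiffAt_pE`, `first_var` with `δ = (0, h)`.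
`inj_nc`: `conj_nc` with `H b' = cost x (e'.symm b')`; `up` is `sc2` with `ζ = 0`; `low`: `cost_split` with `1, a-1`
and `sc_chart` at `b w` for the vector `(a-1) • p` (`geoE_pE`, `pE_speed`).  From `fderiv π w k = 0` and
`fderiv b w k = 0` get `fderiv pE (0,k) = 0` (product rule, positivity), then `state_inj`.
`Reg.inj`, `TC.inj`: `Reg.eventually_min` applied to `(e x', tr e x' (a • u))` for `a > 1` close to `1`.
-/

namespace Vale.Agent.P234

open scoped ContDiff Topology Manifold
open Vale.Agent.P255 Set Filter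

variable {E M : Type*} [NormedAddCommGroup E] [NormedSpace ℝ E] [FiniteDimensional ℝ E]
  [TopologicalSpace M] [ChartedSpace E M] [IsManifold 𝓘(ℝ, E) ∞ M] [T2Space M] [CompactSpace M]
  [ConnectedSpace M] {e e' : OpenPartialHomeomorph M E} {g : Metric E M} {x : M} {v : E}

theorem inj_uniq (h : v ∈ injDom g x) : Uniq g x v := by
  intro w hw hy
  obtain ⟨a, ha, hav⟩ := mem_injDom.1 h
  have hv := min_of_inj h
  have hn : nrm g x w = nrm g x v := by rw [← hw, ← hv, hy]
  by_cases hv0 : v = 0
  · rw [hv0, nrm_zero] at hn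
    rw [hv0]
    exact nrm_eq_zero g hn
  have hn0 : 0 < nrm g x v :=
    lt_of_le_of_ne (nrm_nonneg g x v) fun h0 => hv0 (nrm_eq_zero g h0.symm)
  have hy' : g.geo x w 1 = g.geo x v 1 := hy
  have e1 : g.exp (g.geo x v 1) ((-1 : ℝ) • vel E (g.geo x w) 1) = x := by
    rw [← hy', Metric.exp, geo_vel]
    norm_num [g.geo_zero]
  have e2 : g.exp (g.geo x v 1) ((a - 1) • vel E (g.geo x v) 1) = g.exp x (a • v) := by
    rw [Metric.exp, geo_vel, g.exp_smul]
    congr 1
    ring
  have n1 : nrm g (g.geo x v 1) ((-1 : ℝ) • vel E (g.geo x w) 1) = nrm g x v := by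
    rw [nrm_smul, ← hy', nrm_vel_geo, hn]
    norm_num
  have n2 : nrm g (g.geo x v 1) ((a - 1) • vel E (g.geo x v) 1) = (a - 1) * nrm g x v := by
    rw [nrm_smul, nrm_vel_geo, abs_of_pos (by linarith)]
  have hc := corner g (m := g.geo x v 1) (V := (-1 : ℝ) • vel E (g.geo x w) 1)
    (W := (a - 1) • vel E (g.geo x v) 1) (by
      rw [e1, e2, n1, n2, hav, nrm_smul, abs_of_pos (by linarith)]
      ring)
  rw [n1, n2] at hc
  have hve : vel E (g.geo x w) 1 = vel E (g.geo x v) 1 := by
    have h1 : ((a - 1) * nrm g x v) • (vel E (g.geo x v) 1 - vel E (g.geo x w) 1) = 0 := by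
      rw [← hc]
      module
    have h2 : (a - 1) * nrm g x v ≠ 0 := (mul_pos (by linarith) hn0).ne'
    exact (sub_eq_zero.1 ((smul_eq_zero.1 h1).resolve_left h2)).symm
  have hg : g.geo x w = g.geo x v := by
    funext s
    have h1 := g.geo_add x w 1 (s - 1)
    have h2 := g.geo_add x v 1 (s - 1)
    rw [hy', hve, h2, add_sub_cancel] at h1
    exact h1.symm
  rw [← vel_geo_zero g x w, hg, vel_geo_zero]

omit [FiniteDimensional ℝ E] in
theorem fderiv_slice_cut {f : E × E → E} {a w : E} (hf : DifferentiableAt ℝ f (a, w)) (k : E) :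
    fderiv ℝ (fun u => f (a, u)) w k = fderiv ℝ f (a, w) (0, k) := by
  have h := hf.hasFDerivAt.comp w (hasFDerivAt_prodMk_right a w)
  exact congrArg (fun L : E →L[ℝ] E => L k) h.fderiv

omit [FiniteDimensional ℝ E] in
theorem prod_rule_cut {G : E → E →L[ℝ] E →L[ℝ] ℝ} {b p : E → E} {w k : E}
    (hG : DifferentiableAt ℝ G (b w)) (hb : DifferentiableAt ℝ b w) (hp : DifferentiableAt ℝ p w)
    (hk : fderiv ℝ b w k = 0) :
    fderiv ℝ (fun u => G (b u) (p u)) w k = G (b w) (fderiv ℝ p w k) := by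
  have h0 : HasFDerivAt (fun u => G (b u)) ((fderiv ℝ G (b w)).comp (fderiv ℝ b w)) w :=
    HasFDerivAt.comp (G := E →L[ℝ] E →L[ℝ] ℝ) w hG.hasFDerivAt hb.hasFDerivAt
  rw [(h0.clm_apply hp.hasFDerivAt).fderiv]
  simp [hk]

omit [ConnectedSpace M] in
/-- The hypotheses of the lemmas of `Conj.lean`. -/
theorem conj_setup (g : Metric E M) (x : M) (w : E) (he' : e' ∈ atlas E M)
    (hy : g.exp x w ∈ e'.source) :
    ContDiffAt ℝ 2 (fun u => bE g (chartAt E x) e' (chartAt E x x, u)) w ∧
    ContDiffAt ℝ 1 (fun u => g.g e' (bE g (chartAt E x) e' (chartAt E x x, u))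
      (pE g (chartAt E x) e' (chartAt E x x, u))) w ∧
    ∀ᶠ u in 𝓝 w, ∀ h, g.g e' (bE g (chartAt E x) e' (chartAt E x x, u))
      (pE g (chartAt E x) e' (chartAt E x x, u))
        (fderiv ℝ (fun u => bE g (chartAt E x) e' (chartAt E x x, u)) u h) = g.ip x u h := by
  set e := chartAt E x with hed
  have he : e ∈ atlas E M := chart_mem_atlas E x
  have ha : e x ∈ e.target := e.map_source (mem_chart_source E x)
  have hw : expE g e (e x) w ∈ e'.source := by rwa [hed, expE_self]
  have hsl : ∀ n : ℕ, ContDiffAt ℝ n (fun u : E => (e x, u)) w := fun n =>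
    contDiffAt_const.prodMk contDiffAt_id
  have hb : ∀ n : ℕ, ContDiffAt ℝ n (fun u => bE g e e' (e x, u)) w := fun n =>
    (contDiffAt_bE g n he he' (q := (e x, w)) ha hw).comp w (hsl n)
  have hp : ContDiffAt ℝ (1 : ℕ) (fun u => pE g e e' (e x, u)) w :=
    (contDiffAt_pE g 1 he he' (q := (e x, w)) ha hw).comp w (hsl 1)
  have hG : ContDiffAt ℝ (1 : ℕ) (g.g e') (bE g e e' (e x, w)) :=
    ((g.smooth e' he').contDiffAt (e'.open_target.mem_nhds (e'.map_source hw))).of_le
      (by exact_mod_cast le_top)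
  refine ⟨hb 2, (hG.comp w (hb 1)).clm_apply hp, ?_⟩
  have hc : ContinuousAt (fun u => expE g e (e x) u) w :=
    (continuousAt_expE g he (p := (e x, w)) ha).comp (f := fun u : E => (e x, u))
      (hsl 0).continuousAt
  filter_upwards [hc.eventually (e'.open_source.mem_nhds hw)] with u hu h
  rw [fderiv_slice_cut ((contDiffAt_bE g 1 he he' (q := (e x, u)) ha hu).differentiableAt
    (by norm_num)), first_var g he he' (q := (e x, u)) ha hu]
  simp only [map_zero, zero_apply, zero_div, zero_add]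
  rfl

theorem inj_nc (h : v ∈ injDom g x) : NC g x v := by
  intro k hk
  obtain ⟨a, ha, hav⟩ := mem_injDom.1 h
  set e' := chartAt E (g.exp x v) with he'd
  have he' : e' ∈ atlas E M := chart_mem_atlas E _
  have hy : g.exp x v ∈ e'.source := mem_chart_source E _
  obtain ⟨hb, hπ, fv⟩ := conj_setup g x v he' hy
  obtain ⟨C₁, up⟩ := sc2 g x v he' hy
  rw [fderiv_exp_eq g he' hy] at hk
  have hge : ∀ s, geoE g (chartAt E x) (chartAt E x x) v s = g.geo x v s := fun s => by
    rw [geoE_self]
  have hip : g.g (chartAt E x) (chartAt E x x) v v = g.ip x v v := rfl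
  set e := chartAt E x with hed
  have he : e ∈ atlas E M := chart_mem_atlas E x
  have hx : e x ∈ e.target := e.map_source (mem_chart_source E x)
  have hw : expE g e (e x) v ∈ e'.source := by rwa [hed, expE_self]
  have hbt : bE g e e' (e x, v) ∈ e'.target := e'.map_source hw
  have db := (contDiffAt_bE g 1 he he' (q := (e x, v)) hx hw).differentiableAt (by norm_num)
  have dp := (contDiffAt_pE g 1 he he' (q := (e x, v)) hx hw).differentiableAt (by norm_num)
  have hk' : fderiv ℝ (fun u => bE g e e' (e x, u)) v k = 0 := by rwa [fderiv_slice_cut db]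
  obtain ⟨C₂, ρ, hC₂, hρ, lo⟩ := sc_chart g he' hbt ((a - 1) ^ 2 * g.ip x v v)
  have lo := lo.self_of_nhds ((a - 1) • pE g e e' (e x, v))
  have hsp := pE_speed g he he' (q := (e x, v)) hx hw
  have hend : expE g e' (bE g e e' (e x, v)) ((a - 1) • pE g e e' (e x, v)) = g.exp x (a • v) := by
    rw [expE, geoE_pE g he' (q := (e x, v)) hw, hge, g.exp_smul]
    congr 1
    ring
  have huu : g.g e' (bE g e e' (e x, v)) ((a - 1) • pE g e e' (e x, v))
      ((a - 1) • pE g e e' (e x, v)) = (a - 1) ^ 2 * g.ip x v v := by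
    simp only [map_smul, smul_apply, smul_eq_mul, hsp, hip]
    ring
  have hcost : cost g x (g.exp x (a • v)) = a ^ 2 * g.ip x v v / 2 := by
    rw [(min_iff_cost g).1 hav, g.geo2_ip_smul]
  rw [hend, huu] at lo
  have key := conj_nc (Q := g.ip x) (ip_symm g x) hb hπ fv hk'
    (H := fun b' => cost g x (e'.symm b')) (C := max C₁ (C₂ / (a - 1))) (by
      have ht : Tendsto (fun z : E × E => (z.1, (0 : E), z.2)) (𝓝 (v, 0)) (𝓝 (v, 0, 0)) :=
        Continuous.tendsto' (by fun_prop) _ _ rfl
      filter_upwards [ht.eventually up] with z hz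
      simp only [g.exp_zero, map_zero, sub_zero, norm_zero, ne_eq, OfNat.ofNat_ne_zero,
        not_false_eq_true, zero_pow, zero_add] at hz
      have := mul_le_mul_of_nonneg_right (le_max_left C₁ (C₂ / (a - 1))) (sq_nonneg ‖z.2‖)
      linarith) (by
      filter_upwards [Metric.closedBall_mem_nhds (0 : E) hρ] with β hβ
      have h1 := lo β le_rfl (by simpa using hβ)
      have h2 := cost_split g one_pos (show 0 < a - 1 by linarith) x
        (e'.symm (bE g e e' (e x, v) + β)) (g.exp x (a • v))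
      rw [hcost, div_one, add_sub_cancel] at h2
      have h3 := div_le_div_of_nonneg_right h1 (show 0 ≤ a - 1 by linarith)
      have h4 : ((a - 1) ^ 2 * g.ip x v v / 2 -
          g.g e' (bE g e e' (e x, v)) ((a - 1) • pE g e e' (e x, v)) β + C₂ * ‖β‖ ^ 2) / (a - 1) =
          (a - 1) * g.ip x v v / 2 - g.g e' (bE g e e' (e x, v)) (pE g e e' (e x, v)) β +
            C₂ / (a - 1) * ‖β‖ ^ 2 := by
        have : a - 1 ≠ 0 := by linarith
        rw [map_smul, smul_apply, smul_eq_mul]
        field_simp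
      have h5 : a ^ 2 * g.ip x v v / 2 / a = a * g.ip x v v / 2 := by
        have : a ≠ 0 := by linarith
        field_simp
      have := mul_le_mul_of_nonneg_right (le_max_right C₁ (C₂ / (a - 1))) (sq_nonneg ‖β‖)
      linarith)
  have hG : DifferentiableAt ℝ (g.g e') (bE g e e' (e x, v)) :=
    ((g.smooth e' he').contDiffAt (e'.open_target.mem_nhds hbt)).differentiableAt (by simp)
  have db' : DifferentiableAt ℝ (fun u => bE g e e' (e x, u)) v := hb.differentiableAt (by norm_num)
  have dp' : DifferentiableAt ℝ (fun u => pE g e e' (e x, u)) v :=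
    dp.comp v (f := fun u : E => (e x, u)) (by fun_prop)
  have hz : g.g e' (bE g e e' (e x, v)) (fderiv ℝ (fun u => pE g e e' (e x, u)) v k) = 0 := by
    rw [← prod_rule_cut (b := fun u => bE g e e' (e x, u)) hG db' dp' hk']
    exact key
  have hp0 : fderiv ℝ (fun u => pE g e e' (e x, u)) v k = 0 := by
    by_contra h0
    have := g.pos e' he' _ hbt _ h0
    rw [hz] at this
    simp at this
  rw [fderiv_slice_cut dp] at hp0
  exact state_inj g he he' (q := (e x, v)) hx hw hk hp0

theorem reg_of (h1 : NC g x v) (h2 : Min g x v) (h3 : Uniq g x v) : Reg g x v :=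
  ⟨h1, h2, h3, Eventually.of_forall fun p => hopf_rinow g p.1 p.2⟩

theorem inj_reg (h : v ∈ injDom g x) : Reg g x v := reg_of (inj_nc h) (min_of_inj h) (inj_uniq h)

theorem Reg.inj (h : Reg g x v) : v ∈ injDom g x := by
  have h1 := h.eventually_min (chart_mem_atlas E x) (mem_chart_source E x)
  rw [tr_self] at h1
  have ht : Tendsto (fun a : ℝ => (chartAt E x x, a • v)) (𝓝[>] 1) (𝓝 (chartAt E x x, v)) :=
    (Continuous.tendsto' (by fun_prop) _ _ (by simp)).mono_left nhdsWithin_le_nhds
  obtain ⟨a, ha, ha'⟩ := ((ht.eventually h1).and self_mem_nhdsWithin).exists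
  simp only [(chartAt E x).left_inv (mem_chart_source E x), trI_self] at ha
  exact mem_injDom.2 ⟨a, ha', ha⟩

theorem TC.inj {ι : Type*} {l : Filter ι} {x : ι → M} {u : ι → E} {x₀ : M} {u₀ : E}
    (h : TC l x u x₀ u₀) (h0 : u₀ ∈ injDom g x₀) : ∀ᶠ i in l, u i ∈ injDom g (x i) := by
  obtain ⟨a', ha', hm⟩ := mem_injDom.1 h0
  set a := (1 + a') / 2 with ha
  have h1 : a • u₀ ∈ injDom g x₀ := by
    have := hm.smul_inj (c := a / a') (by positivity) ((div_lt_one (by linarith)).2 (by linarith))
    rwa [smul_smul, div_mul_cancel₀ _ (by linarith)] at this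
  have he := chart_mem_atlas E x₀
  have hx := mem_chart_source E x₀
  have h2 := (inj_reg h1).eventually_min he hx
  rw [tr_self] at h2
  have h3 : TC l x (fun i => a • u i) x₀ (a • u₀) := h.smul tendsto_const_nhds
  have h4 := (((chartAt E x₀).continuousAt hx).tendsto.comp h.1).prodMk_nhds h3.2
  filter_upwards [h4.eventually h2, h.1.eventually ((chartAt E x₀).open_source.mem_nhds hx)]
    with i hi hi'
  simp only [Function.comp_apply, (chartAt E x₀).left_inv hi', trI_tr he hi'] at hi
  exact mem_injDom.2 ⟨a, by linarith, hi⟩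

theorem isOpen_injDom (g : Metric E M) (x : M) : IsOpen (injDom g x) :=
  isOpen_iff_mem_nhds.2 fun u₀ h => TC.inj (l := 𝓝 u₀) (u := id) (TC.const_base.2 tendsto_id) h

end Vale.Agent.P234
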