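import Vale.Agent.P234.Defs
import Vale.Agent.P255.Geo2

/-!
# Tangent vectors in charts; norms; convergence of tangent vectors  (TASK)

`tr e x` sends the components of a tangent vector at `x` in the chart `chartAt x` to its components in
the chart `e`; `trI e x` is the inverse (`fderiv_tr_trans`, `fderiv_tr_self` of `P255.Geo`).
`ip_eq` is `g.compat`.  `TC.chart`: `tr e x u = fderiv (e ∘ e₀.symm) (e₀ x) (tr e₀ x u)` for `x` near
`x₀` (`tr_tr`), and `fderiv (e ∘ e₀.symm)` is continuous at `e₀ x₀` (`tr_contDiffAt`).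
`TC.of_bounded`: `LocMetric.exists_bounds` on a compact neighbourhood of `e₀ x₀` bounds
`‖tr e₀ (x i) (u i)‖`; an ultrafilter on a compact ball converges (`IsCompact.ultrafilter_le_nhds`).
`unif_of_local`: finite subcover (`IsCompact.elim_nhds_subcover`, or `IsCompact.induction_on`).
-/

namespace Vale.Agent.P234

open scoped ContDiff Topology Manifold
open Vale.Agent.P255 Set Filter

variable {E M : Type*} [NormedAddCommGroup E] [NormedSpace ℝ E] [FiniteDimensional ℝ E]
  [TopologicalSpace M] [ChartedSpace E M] [IsManifold 𝓘(ℝ, E) ∞ M]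
  {e e' : OpenPartialHomeomorph M E} (g : Metric E M)

/-- Change of components from `chartAt x` to `e`. -/
noncomputable def tr (e : OpenPartialHomeomorph M E) (x : M) : E →L[ℝ] E :=
  fderiv ℝ (e ∘ (chartAt E x).symm) (chartAt E x x)

/-- Change of components from `e` to `chartAt x`. -/
noncomputable def trI (e : OpenPartialHomeomorph M E) (x : M) : E →L[ℝ] E :=
  fderiv ℝ (chartAt E x ∘ e.symm) (e x)

theorem tr_self (x : M) (u : E) : tr (chartAt E x) x u = u := by
  exact fderiv_tr_self (mem_chart_source E x) u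

theorem trI_self (x : M) (u : E) : trI (chartAt E x) x u = u := by
  exact fderiv_tr_self (mem_chart_source E x) u

theorem tr_trI (he : e ∈ atlas E M) {x : M} (hx : x ∈ e.source) (u : E) :
    tr e x (trI e x u) = u := by
  unfold tr trI
  rw [fderiv_tr_trans he (chart_mem_atlas E x) he hx (mem_chart_source E x) hx, fderiv_tr_self hx]

theorem trI_tr (he : e ∈ atlas E M) {x : M} (hx : x ∈ e.source) (u : E) :
    trI e x (tr e x u) = u := by
  unfold tr trI
  rw [fderiv_tr_trans (chart_mem_atlas E x) he (chart_mem_atlas E x) (mem_chart_source E x) hx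
    (mem_chart_source E x), fderiv_tr_self (mem_chart_source E x)]

theorem tr_tr (he : e ∈ atlas E M) (he' : e' ∈ atlas E M) {x : M} (hx : x ∈ e.source)
    (hx' : x ∈ e'.source) (u : E) : tr e' x u = fderiv ℝ (e' ∘ e.symm) (e x) (tr e x u) := by
  unfold tr
  rw [fderiv_tr_trans (chart_mem_atlas E x) he he' (mem_chart_source E x) hx hx']

theorem ip_eq (he : e ∈ atlas E M) {x : M} (hx : x ∈ e.source) (u v : E) :
    g.ip x u v = g.g e (e x) (tr e x u) (tr e x v) := by
  exact g.compat _ (chart_mem_atlas E x) e he x (mem_chart_source E x) hx u v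

theorem hasDerivAt_tr (he : e ∈ atlas E M) {γ : ℝ → M} {t : ℝ} (hγ : ContinuousAt γ t)
    (hx : γ t ∈ e.source) (hd : DifferentiableAt ℝ (chartAt E (γ t) ∘ γ) t) :
    HasDerivAt (e ∘ γ) (tr e (γ t) (vel E γ t)) t := by
  exact hasDerivAt_chart (chart_mem_atlas E (γ t)) he hγ (mem_chart_source E _) hx hd.hasDerivAt

theorem ipr_eq (x : M) (u v : E) : ipr g x u v = g.ip x u v := rfl

theorem ip_symm (x : M) (u v : E) : g.ip x u v = g.ip x v u := by
  exact g.symm _ (chart_mem_atlas E x) _ (mem_chart_target E x) u v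

theorem ip_pos (x : M) (u : E) (hu : u ≠ 0) : 0 < g.ip x u u := by
  exact g.pos _ (chart_mem_atlas E x) _ (mem_chart_target E x) u hu

theorem ip_nonneg (x : M) (u : E) : 0 ≤ g.ip x u u := by
  exact (g.loc (chart_mem_atlas E x)).nonneg (mem_chart_target E x) u

theorem nrm_nonneg (x : M) (u : E) : 0 ≤ nrm g x u := Real.sqrt_nonneg _

theorem nrm_sq (x : M) (u : E) : nrm g x u ^ 2 = g.ip x u u := by
  exact Real.sq_sqrt (ip_nonneg g x u)

theorem nrm_smul (x : M) (c : ℝ) (u : E) : nrm g x (c • u) = |c| * nrm g x u := by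
  have h : g.ip x (c • u) (c • u) = c ^ 2 * g.ip x u u := by
    simp only [map_smul, smul_apply, smul_eq_mul]
    ring
  rw [nrm, nrm, ipr_eq, ipr_eq, h, Real.sqrt_mul (sq_nonneg c), Real.sqrt_sq_eq_abs]

theorem nrm_zero (x : M) : nrm g x 0 = 0 := by
  simp [nrm, ipr]

theorem nrm_eq_zero {x : M} {u : E} (h : nrm g x u = 0) : u = 0 := by
  by_contra hu
  have h1 := ip_pos g x u hu
  rw [← nrm_sq, h] at h1
  simp at h1

theorem abs_ip_le (x : M) (u v : E) : |g.ip x u v| ≤ nrm g x u * nrm g x v := by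
  refine abs_le_of_sq_le_sq' ?_ (mul_nonneg (nrm_nonneg g x u) (nrm_nonneg g x v)) |> abs_le.2
  rw [mul_pow, nrm_sq, nrm_sq]
  exact (g.loc (chart_mem_atlas E x)).sq_le (mem_chart_target E x) u v

theorem nrm_add_le (x : M) (u v : E) : nrm g x (u + v) ≤ nrm g x u + nrm g x v := by
  refine (abs_le_of_sq_le_sq' ?_ (add_nonneg (nrm_nonneg g x u) (nrm_nonneg g x v))).2
  have h1 := (le_abs_self _).trans (abs_ip_le g x u v)
  have h2 : g.ip x (u + v) (u + v) = g.ip x u u + 2 * g.ip x u v + g.ip x v v := by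
    simp only [map_add, add_apply]
    rw [ip_symm g x v u]
    ring
  rw [add_sq, nrm_sq, nrm_sq, nrm_sq, h2]
  linarith

theorem convex_nrm_le (x : M) (R : ℝ) : Convex ℝ {u | nrm g x u ≤ R} := by
  intro u hu v hv a b ha hb hab
  have hu' : nrm g x u ≤ R := hu
  have hv' : nrm g x v ≤ R := hv
  change nrm g x (a • u + b • v) ≤ R
  refine (nrm_add_le g x _ _).trans ?_
  rw [nrm_smul, nrm_smul, abs_of_nonneg ha, abs_of_nonneg hb]
  calc a * nrm g x u + b * nrm g x v ≤ a * R + b * R :=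
        add_le_add (mul_le_mul_of_nonneg_left hu' ha) (mul_le_mul_of_nonneg_left hv' hb)
    _ = R := by rw [← add_mul, hab, one_mul]

/-- Comparison of `nrm` with the norm of `E` at a fixed point. -/
theorem exists_ip_bounds (x : M) :
    ∃ c C : ℝ, 0 < c ∧ 0 < C ∧ ∀ u, c * ‖u‖ ^ 2 ≤ g.ip x u u ∧ g.ip x u u ≤ C * ‖u‖ ^ 2 := by
  obtain ⟨c, C, hc, hC, h⟩ := (g.loc (chart_mem_atlas E x)).exists_bounds
    (isCompact_singleton (x := chartAt E x x)) (singleton_subset_iff.2 (mem_chart_target E x))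
  exact ⟨c, C, hc, hC, h _ rfl⟩

/-- Comparison of the metric of a chart with the norm of `E` near a point. -/
theorem exists_chart_bounds (he : e ∈ atlas E M) {a₀ : E} (ha : a₀ ∈ e.target) :
    ∃ c C : ℝ, 0 < c ∧ 0 < C ∧ ∀ᶠ a in 𝓝 a₀, a ∈ e.target ∧
      ∀ u, c * ‖u‖ ^ 2 ≤ g.g e a u u ∧ g.g e a u u ≤ C * ‖u‖ ^ 2 := by
  obtain ⟨K, hK, hKt, hKc⟩ := local_compact_nhds (e.open_target.mem_nhds ha)
  obtain ⟨c, C, hc, hC, h⟩ := (g.loc he).exists_bounds hKc hKt
  refine ⟨c, C, hc, hC, ?_⟩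
  filter_upwards [hK] with a h1
  exact ⟨hKt h1, h a h1⟩

/-- Convergence of tangent vectors `u i` at `x i` to the tangent vector `u₀` at `x₀`. -/
def TC {ι : Type*} (l : Filter ι) (x : ι → M) (u : ι → E) (x₀ : M) (u₀ : E) : Prop :=
  Tendsto x l (𝓝 x₀) ∧ Tendsto (fun i => tr (chartAt E x₀) (x i) (u i)) l (𝓝 u₀)

section TC

variable {ι : Type*} {l : Filter ι} {x : ι → M} {u v : ι → E} {x₀ : M} {u₀ v₀ : E}

theorem basic_app {A B : Type*} [NormedAddCommGroup A] [NormedSpace ℝ A] [NormedAddCommGroup B]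
    [NormedSpace ℝ B] {f : ι → A →L[ℝ] B} {a : ι → A} {f₀ : A →L[ℝ] B} {a₀ : A}
    (hf : Tendsto f l (𝓝 f₀)) (ha : Tendsto a l (𝓝 a₀)) :
    Tendsto (fun i => f i (a i)) l (𝓝 (f₀ a₀)) :=
  (isBoundedBilinearMap_apply.continuous.tendsto (f₀, a₀)).comp (hf.prodMk_nhds ha)

theorem basic_tendsto (he : e ∈ atlas E M) (he' : e' ∈ atlas E M) (hx : x₀ ∈ e.source)
    (hx' : x₀ ∈ e'.source) (h1 : Tendsto x l (𝓝 x₀))
    (h2 : Tendsto (fun i => tr e (x i) (u i)) l (𝓝 (tr e x₀ u₀))) :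
    Tendsto (fun i => tr e' (x i) (u i)) l (𝓝 (tr e' x₀ u₀)) := by
  have h3 : ContinuousAt (fderiv ℝ (e' ∘ e.symm)) (e x₀) :=
    ((tr_contDiffAt he he' hx hx').fderiv_right (m := ∞) (by simp)).continuousAt
  have h4 : Tendsto (fun i => e (x i)) l (𝓝 (e x₀)) := (e.continuousAt hx).tendsto.comp h1
  have h5 := basic_app (h3.tendsto.comp h4) h2
  rw [← tr_tr he he' hx hx'] at h5
  refine h5.congr' ?_
  filter_upwards [h1.eventually (e.open_source.mem_nhds hx),
    h1.eventually (e'.open_source.mem_nhds hx')] with i a b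
  exact (tr_tr he he' a b _).symm

theorem TC.chart (h : TC l x u x₀ u₀) (he : e ∈ atlas E M) (hx : x₀ ∈ e.source) :
    Tendsto (fun i => tr e (x i) (u i)) l (𝓝 (tr e x₀ u₀)) := by
  refine basic_tendsto (chart_mem_atlas E x₀) he (mem_chart_source E x₀) hx h.1 ?_
  rw [tr_self]
  exact h.2

theorem TC.of_chart (he : e ∈ atlas E M) (hx : x₀ ∈ e.source) (h1 : Tendsto x l (𝓝 x₀))
    (h2 : Tendsto (fun i => tr e (x i) (u i)) l (𝓝 (tr e x₀ u₀))) : TC l x u x₀ u₀ := by
  refine ⟨h1, ?_⟩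
  have h3 := basic_tendsto he (chart_mem_atlas E x₀) hx (mem_chart_source E x₀) h1 h2
  rwa [tr_self] at h3

theorem TC.mono (h : TC l x u x₀ u₀) {l' : Filter ι} (hl : l' ≤ l) : TC l' x u x₀ u₀ :=
  ⟨h.1.mono_left hl, h.2.mono_left hl⟩

theorem TC.add (h : TC l x u x₀ u₀) (h' : TC l x v x₀ v₀) :
    TC l x (fun i => u i + v i) x₀ (u₀ + v₀) := by
  refine ⟨h.1, ?_⟩
  simp only [map_add]
  exact h.2.add h'.2

theorem TC.smul (h : TC l x u x₀ u₀) {c : ι → ℝ} {c₀ : ℝ} (hc : Tendsto c l (𝓝 c₀)) :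
    TC l x (fun i => c i • u i) x₀ (c₀ • u₀) := by
  refine ⟨h.1, ?_⟩
  simp only [map_smul]
  exact hc.smul h.2

theorem TC.ip (h : TC l x u x₀ u₀) (h' : TC l x v x₀ v₀) :
    Tendsto (fun i => g.ip (x i) (u i) (v i)) l (𝓝 (g.ip x₀ u₀ v₀)) := by
  have he := chart_mem_atlas E x₀
  have hx := mem_chart_source E x₀
  have h3 : ContinuousAt (g.g (chartAt E x₀)) (chartAt E x₀ x₀) :=
    ((g.loc he).loc_contDiffAt (mem_chart_target E x₀)).continuousAt
  have h4 : Tendsto (fun i => chartAt E x₀ (x i)) l (𝓝 (chartAt E x₀ x₀)) :=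
    ((chartAt E x₀).continuousAt hx).tendsto.comp h.1
  have h5 := basic_app (basic_app (h3.tendsto.comp h4) h.2) h'.2
  refine h5.congr' ?_
  filter_upwards [h.1.eventually ((chartAt E x₀).open_source.mem_nhds hx)] with i a
  exact (ip_eq g he a _ _).symm

theorem TC.nrm (h : TC l x u x₀ u₀) :
    Tendsto (fun i => nrm g (x i) (u i)) l (𝓝 (nrm g x₀ u₀)) := by
  exact (h.ip g h).sqrt

theorem TC.const_base : TC l (fun _ => x₀) u x₀ u₀ ↔ Tendsto u l (𝓝 u₀) := by
  simp only [TC, tr_self, tendsto_const_nhds, true_and]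

theorem TC.exists_vec (hx : Tendsto x l (𝓝 x₀)) (u₀ : E) : ∃ u : ι → E, TC l x u x₀ u₀ := by
  refine ⟨fun i => trI (chartAt E x₀) (x i) u₀, hx, tendsto_const_nhds.congr' ?_⟩
  filter_upwards [hx.eventually ((chartAt E x₀).open_source.mem_nhds (mem_chart_source E x₀))] with i a
  exact (tr_trI (chart_mem_atlas E x₀) a u₀).symm

theorem TC.of_bounded {l : Ultrafilter ι} (hx : Tendsto x l (𝓝 x₀)) {R : ℝ}
    (hu : ∀ᶠ i in l, P234.nrm g (x i) (u i) ≤ R) : ∃ u₀, TC (l : Filter ι) x u x₀ u₀ := by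
  have he := chart_mem_atlas E x₀
  have hx0 := mem_chart_source E x₀
  obtain ⟨c, C, hc, -, h⟩ := exists_chart_bounds g he (mem_chart_target E x₀)
  have h4 : Tendsto (fun i => chartAt E x₀ (x i)) l (𝓝 (chartAt E x₀ x₀)) :=
    ((chartAt E x₀).continuousAt hx0).tendsto.comp hx
  have h5 : ∀ᶠ i in l, tr (chartAt E x₀) (x i) (u i) ∈ Metric.closedBall (0 : E) (√(R ^ 2 / c)) := by
    filter_upwards [h4.eventually h, hu, hx.eventually ((chartAt E x₀).open_source.mem_nhds hx0)]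
      with i a b d
    rw [mem_closedBall_zero_iff]
    refine Real.le_sqrt_of_sq_le ?_
    rw [le_div_iff₀ hc, mul_comm]
    refine (a.2 _).1.trans ?_
    rw [← ip_eq g he d, ← nrm_sq]
    exact pow_le_pow_left₀ (nrm_nonneg g _ _) b 2
  obtain ⟨u₀, -, h6⟩ := (isCompact_closedBall (0 : E) (√(R ^ 2 / c))).ultrafilter_le_nhds
    (l.map fun i => tr (chartAt E x₀) (x i) (u i)) (by
      rw [le_principal_iff]
      exact h5)
  exact ⟨u₀, hx, h6⟩

end TC

theorem unif_of_local [CompactSpace M] {P : M → ℝ → Prop}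
    (mono : ∀ x κ κ', 0 < κ' → κ' ≤ κ → P x κ → P x κ')
    (h : ∀ x₀, ∃ κ > 0, ∀ᶠ x in 𝓝 x₀, P x κ) : ∃ κ > 0, ∀ x, P x κ := by
  have key : ∃ κ > 0, ∀ x ∈ (univ : Set M), P x κ := by
    refine isCompact_univ.induction_on (p := fun s => ∃ κ > 0, ∀ x ∈ s, P x κ)
      ⟨1, one_pos, fun x hx => hx.elim⟩ ?_ ?_ ?_
    · rintro s t hst ⟨κ, hκ, h⟩
      exact ⟨κ, hκ, fun x hx => h x (hst hx)⟩
    · rintro s t ⟨κ, hκ, h1⟩ ⟨κ', hκ', h2⟩
      refine ⟨min κ κ', lt_min hκ hκ', fun x hx => ?_⟩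
      rcases hx with hx | hx
      · exact mono x κ _ (lt_min hκ hκ') (min_le_left _ _) (h1 x hx)
      · exact mono x κ' _ (lt_min hκ hκ') (min_le_right _ _) (h2 x hx)
    · intro x₀ _
      obtain ⟨κ, hκ, h1⟩ := h x₀
      exact ⟨_, mem_nhdsWithin_of_mem_nhds h1, κ, hκ, fun x hx => hx⟩
  obtain ⟨κ, hκ, h1⟩ := key
  exact ⟨κ, hκ, fun x => h1 x (mem_univ x)⟩

variable [T2Space M] [CompactSpace M]

theorem expm_eq (x : M) (v : E) : expm g x v = g.exp x v := by
  rw [expm, dif_pos (g.exists_geodesic x v)]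
  rfl

theorem vel_geo_zero (x : M) (u : E) : vel E (g.geo x u) 0 = u := by
  rw [vel, g.geo_zero, g.geo_deriv]

theorem nrm_vel_geo (x : M) (u : E) (t : ℝ) :
    nrm g (g.geo x u t) (vel E (g.geo x u) t) = nrm g x u := by
  rw [nrm, nrm, ipr_eq, ipr_eq, g.geo_speed]

/-- Continuation and reversal of geodesics. -/
theorem geo_vel (x : M) (u : E) (t c s : ℝ) :
    g.geo (g.geo x u t) (c • vel E (g.geo x u) t) s = g.geo x u (t + c * s) := by
  rw [g.geo_smul, g.geo_add]

theorem hasDerivAt_geo (he : e ∈ atlas E M) (x : M) (u : E) {t : ℝ} (h : g.geo x u t ∈ e.source) :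
    HasDerivAt (e ∘ g.geo x u) (tr e (g.geo x u t) (vel E (g.geo x u) t)) t := by
  exact hasDerivAt_tr he (g.continuous_geo x u).continuousAt h
    ((g.geo_isGeodesic x u).2 _ (chart_mem_atlas E _) t (mem_univ t) (mem_chart_source E _)).1

theorem TC.vel_geo (x : M) (u : E) (t₀ : ℝ) :
    TC (𝓝 t₀) (g.geo x u) (vel E (g.geo x u)) (g.geo x u t₀) (vel E (g.geo x u) t₀) := by
  have hc : ContinuousAt (g.geo x u) t₀ := (g.continuous_geo x u).continuousAt
  have he := chart_mem_atlas E (g.geo x u t₀)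
  have hx := mem_chart_source E (g.geo x u t₀)
  refine ⟨hc, ?_⟩
  have h1 := ((g.geo_isGeodesic x u).2 _ he t₀ (mem_univ t₀) hx).2.continuousAt
  refine Tendsto.congr' ?_ h1
  filter_upwards [hc.eventually ((chartAt E (g.geo x u t₀)).open_source.mem_nhds hx)] with t ht
  exact (hasDerivAt_geo g he x u ht).deriv

/-- The geodesic with initial data `(a, w)` in the chart `e`. -/
noncomputable def geoE (e : OpenPartialHomeomorph M E) (a w : E) : ℝ → M :=
  g.geo (e.symm a) (trI e (e.symm a) w)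

/-- The exponential map read in the chart `e`. -/
noncomputable def expE (e : OpenPartialHomeomorph M E) (a w : E) : M := geoE g e a w 1

theorem geoE_tr (he : e ∈ atlas E M) {x : M} (hx : x ∈ e.source) (u : E) :
    geoE g e (e x) (tr e x u) = g.geo x u := by
  rw [geoE, e.left_inv hx, trI_tr he hx]

theorem expE_tr (he : e ∈ atlas E M) {x : M} (hx : x ∈ e.source) (u : E) :
    expE g e (e x) (tr e x u) = g.exp x u := by
  rw [expE, geoE_tr g he hx]; rfl

theorem geoE_self (x : M) (u : E) : geoE g (chartAt E x) (chartAt E x x) u = g.geo x u := by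
  rw [← geoE_tr g (chart_mem_atlas E x) (mem_chart_source E x) u, tr_self]

theorem expE_self (x : M) (u : E) : expE g (chartAt E x) (chartAt E x x) u = g.exp x u := by
  rw [expE, geoE_self]; rfl

theorem geoE_zero (a w : E) : geoE g e a w 0 = e.symm a := g.geo_zero _ _

theorem geoE_smul (a w : E) (c t : ℝ) : geoE g e a (c • w) t = geoE g e a w (c * t) := by
  rw [geoE, map_smul, g.geo_smul]; rfl

theorem expE_zero (a : E) : expE g e a 0 = e.symm a := by
  rw [expE, geoE, map_zero]; exact g.exp_zero _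

theorem geoE_deriv (he : e ∈ atlas E M) {a : E} (ha : a ∈ e.target) (w : E) :
    HasDerivAt (e ∘ geoE g e a w) w 0 := by
  have hx : g.geo (e.symm a) (trI e (e.symm a) w) 0 ∈ e.source := by
    rw [g.geo_zero]; exact e.map_target ha
  have h := hasDerivAt_geo g he (e.symm a) (trI e (e.symm a) w) hx
  rw [vel_geo_zero, g.geo_zero, tr_trI he (e.map_target ha)] at h
  exact h

theorem ip_trI (he : e ∈ atlas E M) {a : E} (ha : a ∈ e.target) (u v : E) :
    g.ip (e.symm a) (trI e (e.symm a) u) (trI e (e.symm a) v) = g.g e a u v := by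
  rw [ip_eq g he (e.map_target ha), tr_trI he (e.map_target ha), tr_trI he (e.map_target ha),
    e.right_inv ha]

end Vale.Agent.P234
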