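import Vale.Agent.P234.Cut
import Vale.Agent.P234.Tilt

/-!
# The Hessian of the cost: convexity, blow-up, first contact points  (TASK)

`conv_chart`: `hess_convex`; `cE e (e x, t • ξ, u') = cost (exp x (t • trI ξ)) (exp x (trI u'))` (`expE_tr`,
`tr_trI`, linearity of `trI`), `expm_eq`, `ip_trI`; smoothness from `inj_reg`, `Reg.contDiffAt_cE`.
`continuousOn_BB`: `contDiffAt_hess`.  `BB_rad`: `Reg.radial`, `tr_self`.
`blow`: first claim from `conj_setup` at `u = w`, `h = k`.  Second: `conj_blow` with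
`H ζ b' = cost (exp x ζ) (e'.symm b')` and `sc2`, along `u = (1-δ) • w → w` within `{w}ᶜ`, `‖u - w‖ = δ ‖w‖`;
`u ∈ injDom` (`Min.smul_inj`), `H ζ (b u) = cE (chartAt x x, ζ, u)` (`expE_self`).
`nc_of_first`: `tilt` with `I = injDom g x`, `J = {u | Min g x u}`, `B = BB g x`, `Q = g.ip x`; if
`w₀ + t • η = 0` use `nc_zero`.
-/

namespace Vale.Agent.P234

open scoped ContDiff Topology Manifold
open Vale.Agent.P255 Set Filter

variable {E M : Type*} [NormedAddCommGroup E] [NormedSpace ℝ E] [FiniteDimensional ℝ E]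
  [TopologicalSpace M] [ChartedSpace E M] [IsManifold 𝓘(ℝ, E) ∞ M] [T2Space M] [CompactSpace M]
  [ConnectedSpace M] {e e' : OpenPartialHomeomorph M E} (g : Metric E M)

/-- Minus the Hessian at `x` of the cost to `exp x u`. -/
noncomputable def BB (x : M) (u : E) : E →L[ℝ] E →L[ℝ] ℝ :=
  -hess (cE g (chartAt E x)) (chartAt E x x) u

variable {g} {x : M}

omit [ConnectedSpace M] in
theorem Blow_cE (ζ u : E) :
    cE g (chartAt E x) (chartAt E x x, ζ, u) = cost g (g.exp x ζ) (g.exp x u) := by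
  rw [← expE_self, ← expE_self]
  rfl

theorem Blow_smooth {u : E} (hu : u ∈ injDom g x) :
    ContDiffAt ℝ 4 (cE g (chartAt E x)) (chartAt E x x, 0, u) := by
  have := (inj_reg hu).contDiffAt_cE (chart_mem_atlas E x) (mem_chart_source E x)
  rwa [tr_self] at this

theorem Blow_smooth2 {u : E} (hu : u ∈ injDom g x) :
    ContDiffAt ℝ 2 (fun ζ => cE g (chartAt E x) (chartAt E x x, ζ, u)) 0 :=
  ContDiffAt.comp (g := cE g (chartAt E x)) (f := fun ζ : E => (chartAt E x x, ζ, u)) 0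
    ((Blow_smooth hu).of_le (by norm_num)) (by fun_prop)

theorem Blow_fderiv {u : E} (hu : u ∈ injDom g x) (ξ : E) :
    fderiv ℝ (fun ζ => cE g (chartAt E x) (chartAt E x x, ζ, u)) 0 ξ = -g.ip x u ξ := by
  have := (inj_reg hu).fderiv_cE (chart_mem_atlas E x) (mem_chart_source E x) ξ
  rwa [tr_self] at this

theorem conv_chart (hM : WeakMTW g) (he : e ∈ atlas E M) (hx : x ∈ e.source) {u η ξ : E}
    (hI : ∀ s ∈ Icc (0 : ℝ) 1, trI e x (u + s • η) ∈ injDom g x) (h : g.g e (e x) ξ η = 0) :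
    ConvexOn ℝ (Icc (0 : ℝ) 1) fun s => -hess (cE g e) (e x) (u + s • η) ξ ξ := by
  have key : ∀ ζ u' : E,
      cE g e (e x, ζ, u') = cost g (g.exp x (trI e x ζ)) (g.exp x (trI e x u')) := by
    intro ζ u'
    rw [← expE_tr g he hx, ← expE_tr g he hx, tr_trI he hx, tr_trI he hx]
    rfl
  refine hess_convex (fun s hs => ?_) fun s hs => ?_
  · have := (inj_reg (hI s hs)).contDiffAt_cE he hx
    rwa [tr_trI he hx] at this
  · have h1 := hM x _ (hI s hs) (trI e x ξ) (trI e x η)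
      (by rw [ipr_eq, ip_eq g he hx, tr_trI he hx, tr_trI he hx]; exact h)
    unfold mtw at h1
    simp only [key, map_add, map_smul, expm_eq] at h1 ⊢
    linarith

theorem BB_conv (hM : WeakMTW g) (u η ξ : E) (hI : ∀ s ∈ Icc (0 : ℝ) 1, u + s • η ∈ injDom g x)
    (h : g.ip x ξ η = 0) : ConvexOn ℝ (Icc (0 : ℝ) 1) fun s => BB g x (u + s • η) ξ ξ := by
  exact conv_chart hM (chart_mem_atlas E x) (mem_chart_source E x)
    (fun s hs => by rw [trI_self]; exact hI s hs) h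

theorem continuousOn_BB : ContinuousOn (BB g x) (injDom g x) := by
  intro u hu
  have h1 := (contDiffAt_hess (Blow_smooth hu)).neg.continuousAt
  have h2 : ContinuousAt (fun u' : E => -hess (cE g (chartAt E x)) (chartAt E x x) u') u :=
    ContinuousAt.comp (g := fun p : E × E => -hess (cE g (chartAt E x)) p.1 p.2)
      (f := fun u' : E => (chartAt E x x, u')) h1 (by fun_prop)
  exact h2.continuousWithinAt

theorem BB_symm {u : E} (hu : u ∈ injDom g x) (ξ η : E) : BB g x u ξ η = BB g x u η ξ := by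
  exact congrArg Neg.neg (hess_symm ((Blow_smooth hu).of_le (by norm_num)) ξ η)

theorem BB_rad {u : E} (hu : u ∈ injDom g x) (ξ : E) : BB g x u u ξ = -g.ip x u ξ := by
  have := (inj_reg hu).radial (chart_mem_atlas E x) (mem_chart_source E x) ξ
  rw [tr_self] at this
  exact congrArg Neg.neg this

/-- Second order expansion of the cost at a point of the injectivity domain. -/
theorem BB_peano {u : E} (hu : u ∈ injDom g x) {κ : ℝ} (hκ : 0 < κ) : ∀ᶠ ζ in 𝓝 (0 : E),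
    |cost g x (g.exp x u) - cost g (g.exp x ζ) (g.exp x u) - g.ip x u ζ - BB g x u ζ ζ / 2| ≤
      κ * ‖ζ‖ ^ 2 := by
  filter_upwards [peano2 (Blow_smooth2 hu) hκ] with ζ h
  rw [Blow_fderiv hu, Blow_cE, Blow_cE, g.exp_zero, ← abs_neg] at h
  refine le_trans (le_of_eq (congrArg abs ?_)) h
  have : BB g x u ζ ζ = -fderiv ℝ (fderiv ℝ fun ζ => cE g (chartAt E x) (chartAt E x x, ζ, u)) 0 ζ ζ :=
    rfl
  rw [this]
  ring

theorem blow {w k : E} (hm : Min g x w) (hw : w ≠ 0)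
    (hk : fderiv ℝ (chartAt E (g.exp x w) ∘ g.exp x) w k = 0) :
    g.ip x k w = 0 ∧ ∃ c > 0, ∃ C : ℝ, ∀ᶠ δ in 𝓝[>] (0 : ℝ), ∀ ξ,
      c * g.ip x k ξ ^ 2 / δ - C * ‖ξ‖ ^ 2 ≤ BB g x ((1 - δ) • w) ξ ξ := by
  have he' := chart_mem_atlas E (g.exp x w)
  have hy := mem_chart_source E (g.exp x w)
  generalize chartAt E (g.exp x w) = e' at hk he' hy
  obtain ⟨h1, h2, h3⟩ := conj_setup g x w he' hy
  have hb : (fun u => bE g (chartAt E x) e' (chartAt E x x, u)) = e' ∘ g.exp x :=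
    funext fun u => congrArg e' (expE_self g x u)
  rw [← hb] at hk
  constructor
  · have := h3.self_of_nhds k
    rw [hk, map_zero] at this
    rw [ip_symm, ← this]
  obtain ⟨C, hC⟩ := sc2 g x w he' hy
  obtain ⟨c, hc, C', h4⟩ := conj_blow (ip_symm g x) h1 h2 h3 hk
    (H := fun ζ b' => cost g (g.exp x ζ) (e'.symm b')) hC
  have hn : 0 < ‖w‖ := norm_pos_iff.2 hw
  have hd : ∀ δ : ℝ, (1 - δ) • w - w = -(δ • w) := fun δ => by rw [sub_smul, one_smul]; abel
  have t1 : Tendsto (fun δ : ℝ => (1 - δ) • w) (𝓝[>] 0) (𝓝 w) := by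
    have : ContinuousAt (fun δ : ℝ => (1 - δ) • w) 0 := by fun_prop
    have := this.tendsto
    rw [sub_zero, one_smul] at this
    exact this.mono_left nhdsWithin_le_nhds
  have t2 : Tendsto (fun δ : ℝ => (1 - δ) • w) (𝓝[>] 0) (𝓝[≠] w) := by
    refine tendsto_nhdsWithin_iff.2 ⟨t1, ?_⟩
    filter_upwards [self_mem_nhdsWithin] with δ hδ h
    have h5 := hd δ
    rw [mem_singleton_iff.1 h, sub_self, eq_comm, neg_eq_zero, smul_eq_zero] at h5
    exact h5.elim (ne_of_gt hδ) hw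
  have t3 : ∀ᶠ u in 𝓝 w, g.exp x u ∈ e'.source :=
    (Branch_fib g (chart_mem_atlas E x) he' (mem_chart_source E x) hy).1.preimage_mem_nhds
      (e'.open_source.mem_nhds hy)
  refine ⟨c / ‖w‖, div_pos hc hn, C', ?_⟩
  filter_upwards [t2.eventually h4, t1.eventually t3, Ioo_mem_nhdsGT (zero_lt_one (α := ℝ))]
    with δ h5 h6 hδ ξ
  have hu : (1 - δ) • w ∈ injDom g x := hm.smul_inj (by linarith [hδ.2]) (by linarith [hδ.1])
  have h7 : ‖(1 - δ) • w - w‖ = δ * ‖w‖ := by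
    rw [hd, norm_neg, norm_smul, Real.norm_of_nonneg hδ.1.le]
  rw [h7] at h5
  generalize (1 - δ) • w = u at h5 h6 hu
  have h8 : e'.symm (bE g (chartAt E x) e' (chartAt E x x, u)) = g.exp x u := by
    rw [congrFun hb u]
    exact e'.left_inv h6
  simp only [h8, ← Blow_cE] at h5
  have h9 := h5 (Blow_smooth2 hu)
    (by rw [Blow_cE, g.exp_zero]; exact (min_iff_cost g).1 (min_of_inj hu)) (Blow_fderiv hu) ξ
  have : BB g x u ξ ξ = -fderiv ℝ (fderiv ℝ fun ζ => cE g (chartAt E x) (chartAt E x x, ζ, u)) 0 ξ ξ :=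
    rfl
  have h10 : c / ‖w‖ * g.ip x k ξ ^ 2 / δ = c * g.ip x k ξ ^ 2 / (δ * ‖w‖) := by
    have := hδ.1.ne'
    field_simp
  rw [this, h10]
  linarith

theorem nc_of_first (hM : WeakMTW g) {w₀ η : E} {t : ℝ} (ht : t ∈ Ioo (0 : ℝ) 1)
    (h0 : ∀ s ∈ Ico 0 t, w₀ + s • η ∈ injDom g x) (h1 : w₀ + η ∈ injDom g x)
    (hJ : ∀ s ∈ Icc (0 : ℝ) 1, Min g x (w₀ + s • η)) : NC g x (w₀ + t • η) := by
  by_cases hw : w₀ + t • η = 0
  · rw [hw]
    exact nc_zero g x
  intro k hk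
  by_contra hk0
  obtain ⟨h2, c, hc, C, h3⟩ := blow (hJ t (Ioo_subset_Icc_self ht)) hw hk
  exact tilt (J := {u | Min g x u}) (ip_symm g x) (ip_pos g x) (isOpen_injDom g x)
    (fun u hu c h0 h1 => Min.smul_inj hu h0 h1) continuousOn_BB (fun u hu => BB_symm hu)
    (fun u hu => BB_rad hu) (BB_conv hM) ht h0 h1 hJ hk0 h2 hc h3

end Vale.Agent.P234
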