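import Vale.Agent.P234.FirstVar

/-!
# Local inverses of the exponential map  (TASK)

`nc_iff`: `fderiv_exp_eq`; for other charts `bE e e' (e x, tr e x u) = e' (exp x u)` (`expE_tr`) and the
chain rule with the invertible maps `tr e x` and the derivative of the transition at `exp x w`.
`exists_br`: inverse function theorem for `Θ q = (q.1, bE q)`, whose derivative
`δ ↦ (δ.1, fderiv bE q δ)` is injective hence a linear equivalence
(`ContDiffAt.toOpenPartialHomeomorph`, `ContDiffAt.to_localInverse`, `eventually_left_inverse`,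
`eventually_right_inverse`); `V r = (Θ⁻¹ r).2`.
`Br.eventually`: `Filter.Eventually.eventually_nhds`, `ContDiffAt.eventually`, continuity of
`q ↦ (q.1, bE q)`.  `Br.inj`: differentiate `left`.
`Br.fderiv_ct`: for `r` near `r₀`, `bE (r.1, V r) = r.2` near `r`; differentiate and insert into
`first_var` with `δ' = (δ.1, fderiv V r δ)`; product rule for `ct`, symmetry of `g.g e`.
-/

namespace Vale.Agent.P234

open scoped ContDiff Topology Manifold
open Vale.Agent.P255 Set Filter

variable {E M : Type*} [NormedAddCommGroup E] [NormedSpace ℝ E] [FiniteDimensional ℝ E]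
  [TopologicalSpace M] [ChartedSpace E M] [IsManifold 𝓘(ℝ, E) ∞ M] [T2Space M] [CompactSpace M]
  {e e' : OpenPartialHomeomorph M E} (g : Metric E M)

/-- `w` is not a conjugate vector at `x`. -/
def NC (x : M) (w : E) : Prop := ∀ k, fderiv ℝ (chartAt E (g.exp x w) ∘ g.exp x) w k = 0 → k = 0

theorem Branch_fib (he : e ∈ atlas E M) (he' : e' ∈ atlas E M) {x : M} {w : E} (hx : x ∈ e.source)
    (hy : g.exp x w ∈ e'.source) : ContinuousAt (g.exp x) w ∧ HasFDerivAt (e' ∘ g.exp x)
      ((fderiv ℝ (bE g e e') (e x, tr e x w)).comp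
        ((ContinuousLinearMap.inr ℝ E E).comp (tr e x))) w := by
  have hl : HasFDerivAt (fun u => (e x, tr e x u))
      ((ContinuousLinearMap.inr ℝ E E).comp (tr e x)) w :=
    (hasFDerivAt_prodMk_right (e x) (tr e x w)).comp w (tr e x).hasFDerivAt
  have h1 : g.exp x = fun u => expE g e (e x) (tr e x u) := funext fun u => (expE_tr g he hx u).symm
  have h2 : e' ∘ g.exp x = bE g e e' ∘ fun u => (e x, tr e x u) := by rw [h1]; rfl
  have hb : expE g e (e x, tr e x w).1 (e x, tr e x w).2 ∈ e'.source := by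
    rwa [← expE_tr g he hx] at hy
  constructor
  · rw [h1]
    exact ContinuousAt.comp (g := fun q : E × E => expE g e q.1 q.2)
      (f := fun u => (e x, tr e x u)) (continuousAt_expE g he (e.map_source hx)) hl.continuousAt
  · rw [h2]
    exact HasFDerivAt.comp (f := fun u => (e x, tr e x u)) w
      ((contDiffAt_bE g 1 he he' (e.map_source hx) hb).differentiableAt (by simp)).hasFDerivAt hl

theorem Branch_tr (he : e ∈ atlas E M) (he' : e' ∈ atlas E M) {x : M} {w : E} (hx : x ∈ e.source)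
    (hy : g.exp x w ∈ e'.source) (k : E) : fderiv ℝ (bE g e e') (e x, tr e x w) (0, tr e x k) =
      tr e' (g.exp x w) (fderiv ℝ (chartAt E (g.exp x w) ∘ g.exp x) w k) := by
  have hc := chart_mem_atlas E (g.exp x w)
  have hs := mem_chart_source E (g.exp x w)
  obtain ⟨h1, h2⟩ := Branch_fib g he he' hx hy
  have h3 := (Branch_fib g he hc hx hs).2.differentiableAt
  have h4 : e' ∘ g.exp x =ᶠ[𝓝 w]
      (e' ∘ (chartAt E (g.exp x w)).symm) ∘ (chartAt E (g.exp x w) ∘ g.exp x) := by
    filter_upwards [h1.preimage_mem_nhds ((chartAt E (g.exp x w)).open_source.mem_nhds hs)]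
      with u hu
    simp only [Function.comp_apply, (chartAt E (g.exp x w)).left_inv hu]
  have h5 := ((tr_contDiffAt hc he' hs hy).differentiableAt (by simp)).hasFDerivAt.comp w
    h3.hasFDerivAt
  have h6 := h2.unique (h5.congr_of_eventuallyEq h4)
  exact congrArg (fun L : E →L[ℝ] E => L k) h6

theorem nc_iff (he : e ∈ atlas E M) (he' : e' ∈ atlas E M) {x : M} {w : E} (hx : x ∈ e.source)
    (hy : g.exp x w ∈ e'.source) :
    NC g x w ↔ ∀ k, fderiv ℝ (bE g e e') (e x, tr e x w) (0, k) = 0 → k = 0 := by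
  constructor
  · intro h k hk
    have h1 := Branch_tr g he he' hx hy (trI e x k)
    rw [tr_trI he hx, hk] at h1
    have h2 := congrArg (trI e' (g.exp x w)) h1
    rw [trI_tr he' hy, map_zero] at h2
    rw [← tr_trI he hx k, h _ h2.symm, map_zero]
  · intro h k hk
    have h1 := Branch_tr g he he' hx hy k
    rw [hk, map_zero] at h1
    rw [← trI_tr he hx k, h _ h1, map_zero]

theorem nc_zero (x : M) : NC g x 0 := by
  have hc := chart_mem_atlas E x
  have hs := mem_chart_source E x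
  refine (nc_iff g hc hc hs (by rw [g.exp_zero]; exact hs)).2 fun k hk => ?_
  rwa [map_zero, fderiv_bE_zero g hc ((chartAt E x).map_source hs), zero_add] at hk

/-- `V` is a smooth local inverse of `q ↦ (q.1, bE q)` near `q₀`. -/
structure Br (e e' : OpenPartialHomeomorph M E) (q₀ : E × E) (V : E × E → E) : Prop where
  he : e ∈ atlas E M
  he' : e' ∈ atlas E M
  ha : q₀.1 ∈ e.target
  hb : expE g e q₀.1 q₀.2 ∈ e'.source
  smooth : ContDiffAt ℝ 4 V (q₀.1, bE g e e' q₀)
  left : ∀ᶠ q in 𝓝 q₀, V (q.1, bE g e e' q) = q.2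
  right : ∀ᶠ r in 𝓝 (q₀.1, bE g e e' q₀), expE g e r.1 (V r) = e'.symm r.2

/-- The energy of the branch. -/
noncomputable def ct (e : OpenPartialHomeomorph M E) (V : E × E → E) (r : E × E) : ℝ :=
  g.g e r.1 (V r) (V r) / 2

variable {g} {q₀ : E × E} {V : E × E → E}

theorem NC.exists_br {x : M} {w : E} (h : NC g x w) (he : e ∈ atlas E M) (he' : e' ∈ atlas E M)
    (hx : x ∈ e.source) (hy : g.exp x w ∈ e'.source) : ∃ V, Br g e e' (e x, tr e x w) V := by
  have : CompleteSpace E := FiniteDimensional.complete ℝ E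
  have hi := (nc_iff g he he' hx hy).1 h
  have hb : expE g e (e x, tr e x w).1 (e x, tr e x w).2 ∈ e'.source := by
    rwa [← expE_tr g he hx] at hy
  have ha : (e x, tr e x w).1 ∈ e.target := e.map_source hx
  generalize (e x, tr e x w) = q₀ at hi hb ha ⊢
  have hB : ContDiffAt ℝ 4 (bE g e e') q₀ := contDiffAt_bE g 4 he he' ha hb
  have hΘ : ContDiffAt ℝ 4 (fun q : E × E => (q.1, bE g e e' q)) q₀ := contDiffAt_fst.prodMk hB
  set D : (E × E) →L[ℝ] E × E :=
    (ContinuousLinearMap.fst ℝ E E).prod (fderiv ℝ (bE g e e') q₀) with hD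
  have hinj : Function.Injective (D : (E × E) →ₗ[ℝ] E × E) := by
    refine (injective_iff_map_eq_zero _).2 fun δ hδ => ?_
    obtain ⟨a, k⟩ := δ
    have h1 : a = 0 := congrArg Prod.fst hδ
    subst h1
    rw [hi k (congrArg Prod.snd hδ)]
    rfl
  have hd : HasFDerivAt (fun q : E × E => (q.1, bE g e e' q))
      ((LinearEquiv.ofInjectiveEndo _ hinj).toContinuousLinearEquiv : (E × E) →L[ℝ] E × E) q₀ :=
    hasFDerivAt_fst.prodMk (hB.differentiableAt (by simp)).hasFDerivAt
  have hs := hΘ.to_localInverse hd (by simp)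
  have h0 := hΘ.localInverse_apply_image hd (by simp)
  have hl := (hΘ.hasStrictFDerivAt' hd (by simp)).eventually_left_inverse
  have hr := (hΘ.hasStrictFDerivAt' hd (by simp)).eventually_right_inverse
  refine ⟨fun r => (hΘ.localInverse hd (by simp) r).2, he, he', ha, hb, hs.snd,
    hl.mono fun q hq => congrArg Prod.snd hq, ?_⟩
  have ht : Tendsto (hΘ.localInverse hd (by simp)) (𝓝 (q₀.1, bE g e e' q₀)) (𝓝 q₀) := by
    have := hs.continuousAt.tendsto
    rwa [h0] at this
  filter_upwards [hr, ht.eventually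
    ((continuousAt_expE g he ha).preimage_mem_nhds (e'.open_source.mem_nhds hb))] with r h1 h2
  have h3 : (hΘ.localInverse hd (by simp) r).1 = r.1 := (Prod.ext_iff.1 h1).1
  have h4 : bE g e e' (hΘ.localInverse hd (by simp) r) = r.2 := (Prod.ext_iff.1 h1).2
  rw [← h3, ← h4, bE, e'.left_inv h2]

theorem Br.apply (h : Br g e e' q₀ V) : V (q₀.1, bE g e e' q₀) = q₀.2 := h.left.self_of_nhds

theorem Br.eventually (h : Br g e e' q₀ V) : ∀ᶠ q in 𝓝 q₀, Br g e e' q V := by
  have ht : Tendsto (fun q : E × E => (q.1, bE g e e' q)) (𝓝 q₀) (𝓝 (q₀.1, bE g e e' q₀)) :=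
    continuousAt_fst.prodMk (contDiffAt_bE g 0 h.he h.he' h.ha h.hb).continuousAt
  filter_upwards [continuousAt_fst.preimage_mem_nhds (e.open_target.mem_nhds h.ha),
    (continuousAt_expE g h.he h.ha).preimage_mem_nhds (e'.open_source.mem_nhds h.hb),
    ht.eventually (h.smooth.eventually (by simp)), h.left.eventually_nhds,
    ht.eventually h.right.eventually_nhds] with q h1 h2 h3 h4 h5
  exact ⟨h.he, h.he', h1, h2, h3, h4, h5⟩

theorem Br.inj (h : Br g e e' q₀ V) {k : E} (hk : fderiv ℝ (bE g e e') q₀ (0, k) = 0) : k = 0 := by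
  have h1 := (h.smooth.differentiableAt (by simp)).hasFDerivAt.comp q₀
    (f := fun q : E × E => (q.1, bE g e e' q)) (hasFDerivAt_fst.prodMk
      ((contDiffAt_bE g 1 h.he h.he' h.ha h.hb).differentiableAt (by simp)).hasFDerivAt)
  have h2 : HasFDerivAt (V ∘ fun q : E × E => (q.1, bE g e e' q))
      (ContinuousLinearMap.snd ℝ E E) q₀ := hasFDerivAt_snd.congr_of_eventuallyEq h.left
  have h3 := congrArg (fun L : (E × E) →L[ℝ] E => L (0, k)) (h2.unique h1)
  simp only [ContinuousLinearMap.comp_apply, ContinuousLinearMap.prod_apply, hk,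
    ContinuousLinearMap.coe_fst', ContinuousLinearMap.coe_snd'] at h3
  rw [h3]
  exact map_zero _

theorem Br.contDiffAt_ct (h : Br g e e' q₀ V) :
    ContDiffAt ℝ 4 (ct g e V) (q₀.1, bE g e e' q₀) := by
  have h1 : ContDiffAt ℝ 4 (g.g e) q₀.1 :=
    ((g.smooth e h.he).contDiffAt (e.open_target.mem_nhds h.ha)).of_le
      (WithTop.coe_le_coe.2 (le_top : (4 : ℕ∞) ≤ ⊤))
  have h2 : ContDiffAt ℝ 4 (fun r : E × E => g.g e r.1) (q₀.1, bE g e e' q₀) :=
    ContDiffAt.comp (g := g.g e) (f := Prod.fst) _ h1 contDiffAt_fst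
  exact ((h2.clm_apply h.smooth).clm_apply h.smooth).div_const 2

theorem Br.fderiv_ct (h : Br g e e' q₀ V) : ∀ᶠ r in 𝓝 (q₀.1, bE g e e' q₀), ∀ δ : E × E,
    fderiv ℝ (ct g e V) r δ = -g.g e r.1 (V r) δ.1 + g.g e' r.2 (pE g e e' (r.1, V r)) δ.2 := by
  have hb : ∀ᶠ r : E × E in 𝓝 (q₀.1, bE g e e' q₀), r.2 ∈ e'.target :=
    continuousAt_snd.preimage_mem_nhds (e'.open_target.mem_nhds (e'.map_source h.hb))
  have ha : ∀ᶠ r : E × E in 𝓝 (q₀.1, bE g e e' q₀), r.1 ∈ e.target :=
    continuousAt_fst.preimage_mem_nhds (e.open_target.mem_nhds h.ha)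
  filter_upwards [ha, h.smooth.eventually (by simp), (hb.and h.right).eventually_nhds]
    with r h1 h2 h3 δ
  have hV := (h2.differentiableAt (by simp)).hasFDerivAt
  have h4 : expE g e (r.1, V r).1 (r.1, V r).2 ∈ e'.source := by
    rw [h3.self_of_nhds.2]
    exact e'.map_target h3.self_of_nhds.1
  have h5 : ∀ᶠ r' in 𝓝 r, bE g e e' (r'.1, V r') = r'.2 :=
    h3.mono fun r' hr' => by rw [bE, hr'.2, e'.right_inv hr'.1]
  have h6 := ((contDiffAt_bE g 1 h.he h.he' (q := (r.1, V r)) h1 h4).differentiableAt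
    (by simp)).hasFDerivAt.comp r (f := fun r' : E × E => (r'.1, V r')) (hasFDerivAt_fst.prodMk hV)
  have h7 : HasFDerivAt (bE g e e' ∘ fun r' : E × E => (r'.1, V r'))
      (ContinuousLinearMap.snd ℝ E E) r := hasFDerivAt_snd.congr_of_eventuallyEq h5
  have h8 : fderiv ℝ (bE g e e') (r.1, V r) (δ.1, fderiv ℝ V r δ) = δ.2 :=
    congrArg (fun L : (E × E) →L[ℝ] E => L δ) (h6.unique h7)
  have h9 := first_var g h.he h.he' (q := (r.1, V r)) h1 h4 (δ.1, fderiv ℝ V r δ)
  rw [h8, h5.self_of_nhds] at h9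
  have hG : HasFDerivAt (fun r' : E × E => g.g e r'.1)
      ((fderiv ℝ (g.g e) r.1).comp (ContinuousLinearMap.fst ℝ E E)) r :=
    HasFDerivAt.comp (f := Prod.fst) r ((((g.smooth e h.he).contDiffAt
      (e.open_target.mem_nhds h1)).differentiableAt (by simp)).hasFDerivAt) hasFDerivAt_fst
  have h10 := ((hG.clm_apply hV).clm_apply hV).mul_const (2⁻¹ : ℝ)
  have h11 : ct g e V = fun r' => g.g e r'.1 (V r') (V r') * 2⁻¹ := rfl
  rw [h11, h10.fderiv, h9]
  have h12 := g.symm e h.he r.1 h1 (fderiv ℝ V r δ) (V r)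
  simp [h12]
  ring

end Vale.Agent.P234
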