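import Vale.Agent.P234.Pers

/-!
# The convexity step at a fixed time  (TASK)

Let `f ζ = τ * (phi (exp x ζ) - phi x)` and `𝒢 = {v ∈ Lam x | τ • v ∈ injDom ∧ GoodB (ip x) f (τ • v) (BB x (τ • v))}`.
`good_of_Sx`: `Min.smul_inj`; `gap` with `τ₁ = τ`, `le_phi`, `BB_peano`, and `rdist x (exp x ζ) ^ 2 = ip ζ ζ ≥ c ‖ζ‖²`
for small `ζ` (`short`, `exists_ip_bounds`).
`seg_ineq`: for `c < 1` the segment `c • w₀ + s • (c • η)` lies in `injDom`; `BB_conv` at `s = t`; let `c → 1⁻`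
(`continuousOn_BB`, `isOpen_injDom`).
`conv`: `convexHull_min`.  For `v₀, v₁ ∈ 𝒢`, `w₀ = τ • v₀`, `η = τ • (v₁ - v₀)`: if some `w₀ + s • η ∉ injDom`, let `t` be the
infimum of such `s ∈ [0,1]` (closed set), `t ∈ (0,1)`; `nc_of_first`, `exists_limit`, `seg_ineq`, `GoodB.seg`, `hdbl`,
`reg_of`, `Reg.inj` give a contradiction.  Then for every `s ∈ (0,1)` use `seg_ineq` with
`B = BB x (w₀ + s • η)` (continuity) and `GoodB.seg`.
-/

namespace Vale.Agent.P234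

open scoped ContDiff Topology Manifold
open Vale.Agent.P255 Set Filter

variable {E M : Type*} [NormedAddCommGroup E] [NormedSpace ℝ E] [FiniteDimensional ℝ E]
  [TopologicalSpace M] [ChartedSpace E M] [IsManifold 𝓘(ℝ, E) ∞ M] [T2Space M] [CompactSpace M]
  [ConnectedSpace M] {e e' : OpenPartialHomeomorph M E} {g : Metric E M} {y : Bool → M} {α : Bool → ℝ} {x : M}

theorem tendsto_BB_of_inj {w : E} (hw : w ∈ injDom g x) :
    Tendsto (fun c : ℝ => BB g x (c • w)) (𝓝[<] 1) (𝓝 (BB g x w)) := by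
  have h1 : Tendsto (fun c : ℝ => c • w) (𝓝[<] 1) (𝓝 w) := by
    have h : Tendsto (fun c : ℝ => c • w) (𝓝 1) (𝓝 ((1 : ℝ) • w)) :=
      (continuous_id.smul continuous_const).tendsto 1
    rw [one_smul] at h
    exact h.mono_left nhdsWithin_le_nhds
  exact (continuousOn_BB.continuousAt ((isOpen_injDom g x).mem_nhds hw)).tendsto.comp h1
theorem good_of_Sx {τ : ℝ} (h0 : 0 ≤ τ) (h1 : τ < 1) {s : E} (hs : s ∈ Sx g y α x) :
    τ • s ∈ injDom g x ∧ GoodB (g.ip x) (fun ζ => τ * (phi g y α (g.exp x ζ) - phi g y α x))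
      (τ • s) (BB g x (τ • s)) := by
  obtain ⟨hm, i, hi, hp⟩ := hs
  have hI := hm.smul_inj h0 h1
  refine ⟨hI, ?_⟩
  obtain ⟨δ, hδ, hg⟩ := gap (g := g) h1
  obtain ⟨c, C, hc, -, hb⟩ := exists_ip_bounds g x
  obtain ⟨ε, hε, hsh⟩ := short g
  have hn : Tendsto (nrm g x) (𝓝 0) (𝓝 0) := by
    have := (TC.const_base.2 tendsto_id : TC (𝓝 (0 : E)) (fun _ => x) id x (0 : E)).nrm g
    rwa [nrm_zero] at this
  refine ⟨δ * c / 2, by positivity, ?_⟩
  filter_upwards [BB_peano hI (κ := δ * c / 2) (by positivity), hn.eventually (gt_mem_nhds hε)]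
    with ζ a b
  have e1 : rdist g x (g.exp x ζ) ^ 2 = g.ip x ζ ζ := by
    rw [← nrm_sq]
    exact congrArg (· ^ 2) ((hsh x).1 ζ b).2.1
  have e2 := hg τ ⟨h0, le_rfl⟩ x s (g.exp x ζ) hm
  have e3 := le_phi g y α (g.exp x ζ) i
  have e4 := mul_le_mul_of_nonneg_left (hb ζ).1 hδ.le
  have e5 := (abs_le.1 a).1
  rw [e1, hi] at e2
  have e6 : τ * (cost g x (y i) - cost g (g.exp x ζ) (y i)) ≤
      τ * (phi g y α (g.exp x ζ) - phi g y α x) := mul_le_mul_of_nonneg_left (by linarith) h0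
  linarith
theorem seg_ineq (hM : WeakMTW g) {w₀ η : E} (h0 : w₀ ∈ injDom g x) (h1 : w₀ + η ∈ injDom g x)
    (hJ : ∀ s ∈ Icc (0 : ℝ) 1, Min g x (w₀ + s • η)) {t : ℝ} (ht : t ∈ Icc (0 : ℝ) 1)
    {B : E →L[ℝ] E →L[ℝ] ℝ} (hB : Tendsto (fun c : ℝ => BB g x (c • (w₀ + t • η))) (𝓝[<] 1) (𝓝 B))
    (ξ : E) (h : g.ip x ξ η = 0) :
    B ξ ξ ≤ (1 - t) * BB g x w₀ ξ ξ + t * BB g x (w₀ + η) ξ ξ := by
  have ap : ∀ {B' : E →L[ℝ] E →L[ℝ] ℝ} {w : E},
      Tendsto (fun c : ℝ => BB g x (c • w)) (𝓝[<] 1) (𝓝 B') →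
      Tendsto (fun c : ℝ => BB g x (c • w) ξ ξ) (𝓝[<] 1) (𝓝 (B' ξ ξ)) := fun hB' =>
    basic_app (basic_app hB' tendsto_const_nhds) tendsto_const_nhds
  refine le_of_tendsto_of_tendsto (ap hB) (((ap (tendsto_BB_of_inj h0)).const_mul (1 - t)).add
    ((ap (tendsto_BB_of_inj h1)).const_mul t)) ?_
  filter_upwards [Ioo_mem_nhdsLT (show (0 : ℝ) < 1 by norm_num)] with c hc
  have e : ∀ s : ℝ, c • w₀ + s • c • η = c • (w₀ + s • η) := fun s => by
    rw [smul_add, smul_comm s c]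
  have hcv := BB_conv hM (c • w₀) (c • η) ξ
    (fun s hs => by rw [e]; exact (hJ s hs).smul_inj hc.1.le hc.2) (by rw [map_smul, h, smul_zero])
  have := hcv.2 (left_mem_Icc.2 zero_le_one) (right_mem_Icc.2 zero_le_one) (sub_nonneg.2 ht.2) ht.1
    (by ring)
  simp only [e, smul_eq_mul, mul_zero, mul_one, zero_add, zero_smul, add_zero, one_smul] at this
  rw [← smul_add] at this
  exact this
theorem conv (hM : WeakMTW g) {τ : ℝ} (h0 : 0 ≤ τ) (h1 : τ < 1)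
    (hmin : ∀ v ∈ Lam g y α x, Min g x (τ • v))
    (hdbl : ∀ v ∈ Lam g y α x, NC g x (τ • v) → ∀ B,
      Tendsto (fun c : ℝ => BB g x (c • τ • v)) (𝓝[<] 1) (𝓝 B) →
      GoodB (g.ip x) (fun ζ => τ * (phi g y α (g.exp x ζ) - phi g y α x)) (τ • v) B →
      Uniq g x (τ • v)) :
    ∀ v ∈ Lam g y α x, τ • v ∈ injDom g x ∧
      GoodB (g.ip x) (fun ζ => τ * (phi g y α (g.exp x ζ) - phi g y α x)) (τ • v)
        (BB g x (τ • v)) := by
  set f : E → ℝ := fun ζ => τ * (phi g y α (g.exp x ζ) - phi g y α x) with hf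
  have hL : Convex ℝ (Lam g y α x) := convex_convexHull ℝ _
  have key : Lam g y α x ⊆ {v | v ∈ Lam g y α x ∧ τ • v ∈ injDom g x ∧
      GoodB (g.ip x) f (τ • v) (BB g x (τ • v))} := by
    refine convexHull_min (fun s hs => ⟨subset_convexHull ℝ _ hs, good_of_Sx h0 h1 hs⟩) ?_
    rw [convex_iff_openSegment_subset]
    rintro v₀ ⟨m0, i0, g0⟩ v₁ ⟨m1, i1, g1⟩
    have e : ∀ s : ℝ, τ • v₀ + s • (τ • (v₁ - v₀)) = τ • (v₀ + s • (v₁ - v₀)) := fun s => by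
      rw [smul_add, smul_comm s τ]
    have e1 : τ • v₀ + τ • (v₁ - v₀) = τ • v₁ := by rw [← smul_add, add_sub_cancel]
    have hm : ∀ s ∈ Icc (0 : ℝ) 1, v₀ + s • (v₁ - v₀) ∈ Lam g y α x := fun s hs =>
      hL.add_smul_sub_mem m0 m1 hs
    have hJ : ∀ s ∈ Icc (0 : ℝ) 1, Min g x (τ • v₀ + s • (τ • (v₁ - v₀))) := fun s hs => by
      rw [e]; exact hmin _ (hm s hs)
    rw [← e1] at i1 g1
    have hG : ∀ t ∈ Ioo (0 : ℝ) 1, ∀ B,
        Tendsto (fun c : ℝ => BB g x (c • (τ • v₀ + t • (τ • (v₁ - v₀))))) (𝓝[<] 1) (𝓝 B) →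
        GoodB (g.ip x) f (τ • v₀ + t • (τ • (v₁ - v₀))) B := fun t ht B hB =>
      GoodB.seg (ip_symm g x) (ip_pos g x) g0 g1 ht fun ξ hξ =>
        seg_ineq hM i0 i1 hJ (Ioo_subset_Icc_self ht) hB ξ hξ
    have hI : ∀ s ∈ Icc (0 : ℝ) 1, τ • v₀ + s • (τ • (v₁ - v₀)) ∈ injDom g x := by
      by_contra hne
      set T : Set ℝ := Icc (0 : ℝ) 1 ∩ {s | τ • v₀ + s • (τ • (v₁ - v₀)) ∉ injDom g x} with hT
      have hTc : IsCompact T := isCompact_Icc.inter_right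
        ((isOpen_injDom g x).isClosed_compl.preimage
          (continuous_const.add (continuous_id.smul continuous_const)))
      have hTn : T.Nonempty := by
        push Not at hne
        obtain ⟨s, hs, hs'⟩ := hne
        exact ⟨s, hs, hs'⟩
      obtain ⟨t, ⟨ht, htn⟩, hle⟩ := hTc.exists_isLeast hTn
      have ht' : t ∈ Ioo (0 : ℝ) 1 := by
        refine ⟨ht.1.lt_of_ne ?_, ht.2.lt_of_ne ?_⟩
        · rintro rfl
          exact htn (by simpa using i0)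
        · rintro rfl
          exact htn (by simpa using i1)
      have hb : ∀ s ∈ Ico 0 t, τ • v₀ + s • (τ • (v₁ - v₀)) ∈ injDom g x := by
        intro s hs
        by_contra hn
        exact absurd (hle ⟨⟨hs.1, hs.2.le.trans ht.2⟩, hn⟩) (not_le.2 hs.2)
      have hnc := nc_of_first hM ht' hb i1 hJ
      obtain ⟨B, hB⟩ := exists_limit hnc (hJ t ht)
      have hg := hG t ht' B hB
      have hmt := hJ t ht
      rw [e] at hnc hB hg hmt
      have hin := (reg_of hnc hmt (hdbl _ (hm t ht) hnc B hB hg)).inj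
      rw [← e] at hin
      exact htn hin
    rw [openSegment_eq_image']
    rintro _ ⟨t, ht, rfl⟩
    have ht' := Ioo_subset_Icc_self ht
    refine ⟨hm t ht', ?_⟩
    rw [← e]
    exact ⟨hI t ht', hG t ht _ (tendsto_BB_of_inj (hI t ht'))⟩
  exact fun v hv => (key hv).2
end Vale.Agent.P234
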