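import Vale.Agent.P234.Basic

/-!
# `C¹` curves and their lengths  (TASK)

`c1_iff`: `contMDiffAt_iff` and `simp with mfld_simps` (`extChartAt` of the model spaces).
`c1_chart`, `c1_of_charts`: compose with the smooth transition maps (`tr_contDiffAt`).
`spd_chart`: `ip_eq`, `hasDerivAt_tr`.  `continuous_spd`: near `t` use `spd_chart` in the fixed chart at
`γ t`.  `c1_geo`: `deriv (e ∘ γ)` is differentiable near `t` (`IsGeodesic.eventually`).
`spd_comp`: chain rule in the chart at `γ (σ t)`.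
`exists_sub`: `γ' r = γ (s + r (t - s))`, `intervalIntegral.integral_comp_mul_add`-type lemmas.
`exists_concat`: with `S = Real.smoothTransition`, `σ₁ t = S (3 t)`, `σ₂ t = S (3 t - 2)` put
`γ t = if t ≤ 1/2 then γ₁ (σ₁ t) else γ₂ (σ₂ t)`; near every `t` it coincides with `γ₁ ∘ σ₁` or
`γ₂ ∘ σ₂` (both are constant `= γ₁ 1` on `(1/3, 2/3)`); split the integral at `1/2` and use
`intervalIntegral.integral_comp_mul_deriv` (`σᵢ' ≥ 0` since `S` is monotone).
`exists_curve`: the set of end points of `C¹` curves from `x` is clopen: points `y, y'` of a chart ball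
are joined by `t ↦ e.symm (e y + S t • (e y' - e y))`; use `exists_concat`.
-/

namespace Vale.Agent.P234

open scoped ContDiff Topology Manifold
open Vale.Agent.P255 Set Filter

variable {E M : Type*} [NormedAddCommGroup E] [NormedSpace ℝ E] [FiniteDimensional ℝ E]
  [TopologicalSpace M] [ChartedSpace E M] [IsManifold 𝓘(ℝ, E) ∞ M]
  {e : OpenPartialHomeomorph M E} (g : Metric E M) {γ : ℝ → M}

/-- `C¹` curves. -/
abbrev C1 (E : Type*) [NormedAddCommGroup E] [NormedSpace ℝ E] [ChartedSpace E M] (γ : ℝ → M) :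
    Prop := ContMDiff 𝓘(ℝ, ℝ) 𝓘(ℝ, E) 1 γ

theorem c1_iff : C1 E γ ↔ Continuous γ ∧ ∀ t, ContDiffAt ℝ 1 (chartAt E (γ t) ∘ γ) t := by
  have key : ∀ t, ContMDiffAt 𝓘(ℝ, ℝ) 𝓘(ℝ, E) 1 γ t ↔
      ContinuousAt γ t ∧ ContDiffAt ℝ 1 (chartAt E (γ t) ∘ γ) t := by
    intro t
    rw [contMDiffAt_iff]
    simp only [mfld_simps, contDiffWithinAt_univ]
    rfl
  constructor
  · intro h
    exact ⟨h.continuous, fun t => ((key t).1 (h t)).2⟩
  · intro h t
    exact (key t).2 ⟨h.1.continuousAt, h.2 t⟩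

theorem chart_change_curve {e' : OpenPartialHomeomorph M E} (he : e ∈ atlas E M)
    (he' : e' ∈ atlas E M) {t : ℝ} (hc : ContinuousAt γ t) (ht : γ t ∈ e.source)
    (ht' : γ t ∈ e'.source) (h : ContDiffAt ℝ 1 (e ∘ γ) t) : ContDiffAt ℝ 1 (e' ∘ γ) t := by
  have h1 : ContDiffAt ℝ 1 (e' ∘ e.symm) ((e ∘ γ) t) :=
    (tr_contDiffAt he he' ht ht').of_le (by exact_mod_cast le_top)
  refine (h1.comp t h).congr_of_eventuallyEq ?_
  filter_upwards [hc.eventually (e.open_source.mem_nhds ht)] with r hr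
  simp only [Function.comp_apply, e.left_inv hr]

theorem c1_chart (hγ : C1 E γ) (he : e ∈ atlas E M) {t : ℝ} (ht : γ t ∈ e.source) :
    ContDiffAt ℝ 1 (e ∘ γ) t :=
  chart_change_curve (chart_mem_atlas E _) he hγ.continuous.continuousAt (mem_chart_source E _) ht
    ((c1_iff.1 hγ).2 t)

theorem c1_of_charts (hc : Continuous γ)
    (h : ∀ t, ∃ e ∈ atlas E M, γ t ∈ e.source ∧ ContDiffAt ℝ 1 (e ∘ γ) t) : C1 E γ := by
  refine c1_iff.2 ⟨hc, fun t => ?_⟩
  obtain ⟨e, he, ht, h⟩ := h t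
  exact chart_change_curve he (chart_mem_atlas E _) hc.continuousAt ht (mem_chart_source E _) h

theorem c1_comp (hγ : C1 E γ) {σ : ℝ → ℝ} (hσ : ContDiff ℝ 1 σ) : C1 E (γ ∘ σ) :=
  ContMDiff.comp hγ hσ.contMDiff

/-- The speed of a curve. -/
noncomputable def spd (γ : ℝ → M) (t : ℝ) : ℝ := nrm g (γ t) (vel E γ t)

theorem length_eq (γ : ℝ → M) : length g γ = ∫ t in (0 : ℝ)..1, spd g γ t := rfl

theorem spd_nonneg (γ : ℝ → M) (t : ℝ) : 0 ≤ spd g γ t := nrm_nonneg g _ _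

theorem spd_chart (hγ : C1 E γ) (he : e ∈ atlas E M) {t : ℝ} (ht : γ t ∈ e.source) :
    spd g γ t = √(g.g e (e (γ t)) (deriv (e ∘ γ) t) (deriv (e ∘ γ) t)) := by
  have h := hasDerivAt_tr he hγ.continuous.continuousAt ht
    (((c1_iff.1 hγ).2 t).differentiableAt one_ne_zero)
  rw [h.deriv, ← ip_eq g he ht]
  rfl

theorem continuous_spd (hγ : C1 E γ) : Continuous (spd g γ) := by
  refine continuous_iff_continuousAt.2 fun t => ?_
  set e := chartAt E (γ t)
  have he : e ∈ atlas E M := chart_mem_atlas E _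
  have ht : γ t ∈ e.source := mem_chart_source E _
  have h1 : ContDiffAt ℝ 1 (e ∘ γ) t := c1_chart hγ he ht
  have h2 : ContinuousAt (deriv (e ∘ γ)) t :=
    (h1.derivWithin (m := 0) (by norm_num)).continuousAt
  have h3 : ContinuousAt (g.g e) ((e ∘ γ) t) :=
    (g.smooth e he).continuousOn.continuousAt (e.open_target.mem_nhds (e.map_source ht))
  have h4 : ContinuousAt (fun r => g.g e (e (γ r))) t := h3.comp h1.continuousAt
  have h5 : ContinuousAt
      (fun r => √(g.g e (e (γ r)) (deriv (e ∘ γ) r) (deriv (e ∘ γ) r))) t :=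
    ((h4.clm_apply h2).clm_apply h2).sqrt
  refine h5.congr ?_
  filter_upwards [hγ.continuous.continuousAt.eventually (e.open_source.mem_nhds ht)] with r hr
  exact (spd_chart g hγ he hr).symm

theorem spd_comp (hγ : C1 E γ) {σ : ℝ → ℝ} {t σ' : ℝ} (hσ : HasDerivAt σ σ' t) :
    spd g (γ ∘ σ) t = |σ'| * spd g γ (σ t) := by
  have h1 : DifferentiableAt ℝ (chartAt E (γ (σ t)) ∘ γ) (σ t) :=
    ((c1_iff.1 hγ).2 (σ t)).differentiableAt one_ne_zero
  have h2 : vel E (γ ∘ σ) t = σ' • vel E γ (σ t) := (h1.hasDerivAt.scomp t hσ).deriv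
  rw [spd, h2, nrm_smul]
  rfl

omit [FiniteDimensional ℝ E] [IsManifold 𝓘(ℝ, E) ∞ M] in
theorem spd_congr_curve {γ' : ℝ → M} {t : ℝ} (h : γ =ᶠ[𝓝 t] γ') : spd g γ t = spd g γ' t := by
  have h0 : γ t = γ' t := h.eq_of_nhds
  have h1 : chartAt E (γ' t) ∘ γ =ᶠ[𝓝 t] chartAt E (γ' t) ∘ γ' := h.fun_comp _
  rw [spd, spd, vel, vel, h0, h1.deriv_eq]

theorem length_nonneg (γ : ℝ → M) : 0 ≤ length g γ :=
  intervalIntegral.integral_nonneg zero_le_one fun t _ => spd_nonneg g γ t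

theorem exists_sub (hγ : C1 E γ) (s t : ℝ) : ∃ γ' : ℝ → M, C1 E γ' ∧ γ' 0 = γ s ∧ γ' 1 = γ t ∧
    length g γ' = |∫ r in s..t, spd g γ r| := by
  have hd : ∀ r : ℝ, HasDerivAt (fun r : ℝ => s + (t - s) * r) (t - s) r := fun r => by
    simpa using ((hasDerivAt_id r).const_mul (t - s)).const_add s
  refine ⟨γ ∘ fun r => s + (t - s) * r, c1_comp hγ (by fun_prop), by simp, by simp, ?_⟩
  have h1 := intervalIntegral.smul_integral_comp_add_mul (a := 0) (b := 1) (spd g γ) (t - s) s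
  have e1 : s + (t - s) * 0 = s := by ring
  have e2 : s + (t - s) * 1 = t := by ring
  rw [e1, e2] at h1
  have h2 : 0 ≤ ∫ r in (0 : ℝ)..1, spd g γ (s + (t - s) * r) :=
    intervalIntegral.integral_nonneg zero_le_one fun r _ => spd_nonneg g γ _
  rw [← h1, smul_eq_mul, abs_mul, abs_of_nonneg h2, length_eq,
    ← intervalIntegral.integral_const_mul]
  exact intervalIntegral.integral_congr fun r _ => spd_comp g hγ (hd r)

theorem int_reparam_curve (hγ : C1 E γ) {σ : ℝ → ℝ} (hσ : ContDiff ℝ 1 σ) (hm : Monotone σ)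
    (a b : ℝ) : ∫ t in a..b, spd g (γ ∘ σ) t = ∫ t in σ a..σ b, spd g γ t := by
  have hd : ∀ t, HasDerivAt σ (deriv σ t) t := fun t =>
    (hσ.differentiable one_ne_zero t).hasDerivAt
  rw [← intervalIntegral.integral_comp_mul_deriv (fun t _ => hd t)
    (hσ.continuous_deriv le_rfl).continuousOn (continuous_spd g hγ)]
  refine intervalIntegral.integral_congr fun t _ => ?_
  simp only [Function.comp_apply]
  rw [spd_comp g hγ (hd t), abs_of_nonneg hm.deriv_nonneg, mul_comm]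

theorem exists_concat {γ₁ γ₂ : ℝ → M} (h₁ : C1 E γ₁) (h₂ : C1 E γ₂) (h : γ₁ 1 = γ₂ 0) :
    ∃ γ : ℝ → M, C1 E γ ∧ γ 0 = γ₁ 0 ∧ γ 1 = γ₂ 1 ∧ length g γ = length g γ₁ + length g γ₂ := by
  set σ₁ : ℝ → ℝ := fun t => Real.smoothTransition (3 * t) with hσ₁
  set σ₂ : ℝ → ℝ := fun t => Real.smoothTransition (3 * t - 2) with hσ₂
  have c₁ : ContDiff ℝ 1 σ₁ := (Real.smoothTransition.contDiff (n := 1)).comp (by fun_prop)
  have c₂ : ContDiff ℝ 1 σ₂ := (Real.smoothTransition.contDiff (n := 1)).comp (by fun_prop)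
  have m₁ : Monotone σ₁ := fun a b hab => Real.smoothTransition.monotone (by linarith)
  have m₂ : Monotone σ₂ := fun a b hab => Real.smoothTransition.monotone (by linarith)
  have o₁ : ∀ t, 1 / 3 ≤ t → σ₁ t = 1 := fun t ht =>
    Real.smoothTransition.one_of_one_le (by linarith)
  have z₂ : ∀ t, t ≤ 2 / 3 → σ₂ t = 0 := fun t ht =>
    Real.smoothTransition.zero_of_nonpos (by linarith)
  have z₁ : σ₁ 0 = 0 := Real.smoothTransition.zero_of_nonpos (by norm_num)
  have o₂ : σ₂ 1 = 1 := Real.smoothTransition.one_of_one_le (by norm_num)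
  set γ : ℝ → M := fun t => if t ≤ 1 / 2 then γ₁ (σ₁ t) else γ₂ (σ₂ t) with hγ
  have a₁ : ∀ t, t < 2 / 3 → γ =ᶠ[𝓝 t] γ₁ ∘ σ₁ := by
    intro t ht
    filter_upwards [Iio_mem_nhds ht] with r hr
    have hr' : r < 2 / 3 := hr
    simp only [hγ, Function.comp_apply]
    split_ifs with h'
    · rfl
    · rw [z₂ r hr'.le, o₁ r (by linarith), h]
  have a₂ : ∀ t, 1 / 3 < t → γ =ᶠ[𝓝 t] γ₂ ∘ σ₂ := by
    intro t ht
    filter_upwards [Ioi_mem_nhds ht] with r hr
    have hr' : 1 / 3 < r := hr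
    simp only [hγ, Function.comp_apply]
    split_ifs with h'
    · rw [z₂ r (by linarith), o₁ r hr'.le, h]
    · rfl
  have hC : C1 E γ := by
    intro t
    rcases lt_or_ge t (2 / 3) with ht | ht
    · exact (c1_comp h₁ c₁ t).congr_of_eventuallyEq (a₁ t ht)
    · exact (c1_comp h₂ c₂ t).congr_of_eventuallyEq (a₂ t (by linarith))
  refine ⟨γ, hC, ?_, ?_, ?_⟩
  · rw [(a₁ 0 (by norm_num)).eq_of_nhds, Function.comp_apply, z₁]
  · rw [(a₂ 1 (by norm_num)).eq_of_nhds, Function.comp_apply, o₂]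
  have hs := continuous_spd g hC
  have i₁ : ∫ t in (0 : ℝ)..(1 / 2), spd g γ t = length g γ₁ := by
    have := int_reparam_curve g h₁ c₁ m₁ 0 (1 / 2)
    rw [z₁, o₁ _ (by norm_num)] at this
    rw [length_eq, ← this]
    refine intervalIntegral.integral_congr fun t ht => spd_congr_curve g (a₁ t ?_)
    rw [uIcc_of_le (by norm_num)] at ht
    linarith [ht.2]
  have i₂ : ∫ t in (1 / 2 : ℝ)..1, spd g γ t = length g γ₂ := by
    have := int_reparam_curve g h₂ c₂ m₂ (1 / 2) 1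
    rw [o₂, z₂ _ (by norm_num)] at this
    rw [length_eq, ← this]
    refine intervalIntegral.integral_congr fun t ht => spd_congr_curve g (a₂ t ?_)
    rw [uIcc_of_le (by norm_num)] at ht
    linarith [ht.1]
  rw [length_eq, ← i₁, ← i₂, intervalIntegral.integral_add_adjacent_intervals
    (hs.intervalIntegrable _ _) (hs.intervalIntegrable _ _)]

theorem chart_seg_curve (he : e ∈ atlas E M) {U : Set E} (hU : Convex ℝ U) (hUt : U ⊆ e.target)
    {x y : M} (hx : x ∈ e.source) (hy : y ∈ e.source) (hx' : e x ∈ U) (hy' : e y ∈ U) :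
    ∃ γ : ℝ → M, C1 E γ ∧ γ 0 = x ∧ γ 1 = y := by
  set c : ℝ → E := fun t => e x + Real.smoothTransition t • (e y - e x) with hc
  have hcd : ContDiff ℝ 1 c :=
    contDiff_const.add ((Real.smoothTransition.contDiff (n := 1)).smul contDiff_const)
  have hcU : ∀ t, c t ∈ e.target := fun t => hUt (hU.add_smul_sub_mem hx' hy'
    ⟨Real.smoothTransition.nonneg t, Real.smoothTransition.le_one t⟩)
  refine ⟨e.symm ∘ c, c1_of_charts (e.continuousOn_symm.comp_continuous hcd.continuous hcU)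
    fun t => ⟨e, he, e.map_target (hcU t), ?_⟩, ?_, ?_⟩
  · have : e ∘ e.symm ∘ c = c := funext fun r => e.right_inv (hcU r)
    rw [this]
    exact hcd.contDiffAt
  · simp [hc, e.left_inv hx]
  · simp [hc, e.left_inv hy]

include g in
theorem exists_curve [ConnectedSpace M] (x y : M) : ∃ γ : ℝ → M, C1 E γ ∧ γ 0 = x ∧ γ 1 = y := by
  refine PreconnectedSpace.induction₂' (fun x y => ∃ γ : ℝ → M, C1 E γ ∧ γ 0 = x ∧ γ 1 = y)
    (fun x => ?_) ?_ x y
  · set e := chartAt E x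
    have he : e ∈ atlas E M := chart_mem_atlas E _
    have hx : x ∈ e.source := mem_chart_source E _
    obtain ⟨r, hr, hb⟩ := Metric.isOpen_iff.1 e.open_target _ (e.map_source hx)
    filter_upwards [e.open_source.mem_nhds hx,
      (e.continuousAt hx).eventually (Metric.ball_mem_nhds _ hr)] with y hy hy'
    exact ⟨chart_seg_curve he (convex_ball _ _) hb hx hy (Metric.mem_ball_self hr) hy',
      chart_seg_curve he (convex_ball _ _) hb hy hx hy' (Metric.mem_ball_self hr)⟩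
  · refine ⟨?_⟩
    rintro a b c ⟨γ₁, h₁, rfl, rfl⟩ ⟨γ₂, h₂, h, rfl⟩
    obtain ⟨γ, h1, h2, h3, -⟩ := exists_concat g h₁ h₂ h.symm
    exact ⟨γ, h1, h2, h3⟩

variable [T2Space M] [CompactSpace M]

theorem c1_geo (x : M) (u : E) : C1 E (g.geo x u) := by
  refine c1_iff.2 ⟨g.continuous_geo x u, fun t => ?_⟩
  have h := (g.geo_isGeodesic x u).eventually isOpen_univ (chart_mem_atlas E _) (mem_univ t)
    (mem_chart_source E _)
  refine contDiffAt_one_iff.2 ⟨fun r => ContinuousLinearMap.toSpanSingleton ℝ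
    (deriv (chartAt E (g.geo x u t) ∘ g.geo x u) r), _, h, fun r hr => ?_,
    fun r hr => hr.2.2.1.hasFDerivAt⟩
  exact ((ContinuousLinearMap.toSpanSingletonCLE (𝕜 := ℝ) (E := E)).continuous.continuousAt.comp
    hr.2.2.2.continuousAt).continuousWithinAt

theorem spd_geo (x : M) (u : E) (t : ℝ) : spd g (g.geo x u) t = nrm g x u := nrm_vel_geo g x u t

end Vale.Agent.P234
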