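import Vale.Agent.P255.Defs

/-!
Riemannian distance, exponential map, tangent injectivity domain and the Ma-Trudinger-Wang tensor.
The tangent space at `x` is identified with the model space through the preferred chart at `x`.
-/

namespace Vale.Agent.P234

open scoped ContDiff Manifold
open Vale.Agent.P255 Set

variable {E M : Type*} [NormedAddCommGroup E] [NormedSpace ℝ E] [TopologicalSpace M]
  [ChartedSpace E M] (g : Metric E M)

/-- The inner product at `x`. -/
noncomputable def ipr (x : M) (u v : E) : ℝ := g.g (chartAt E x) (chartAt E x x) u v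

/-- The norm at `x`. -/
noncomputable def nrm (x : M) (v : E) : ℝ := √(ipr g x v v)

/-- The length of a curve on `[0, 1]`. -/
noncomputable def length (γ : ℝ → M) : ℝ :=
  ∫ t in (0 : ℝ)..1, nrm g (γ t) (deriv (chartAt E (γ t) ∘ γ) t)

/-- The Riemannian distance: the infimum of the lengths of `C¹` curves from `x` to `y`. -/
noncomputable def rdist (x y : M) : ℝ :=
  sInf {L | ∃ γ : ℝ → M, ContMDiff 𝓘(ℝ, ℝ) 𝓘(ℝ, E) 1 γ ∧ γ 0 = x ∧ γ 1 = y ∧ L = length g γ}

open Classical in
/-- The exponential map: the value at time `1` of the geodesic with initial data `(x, v)`. -/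
noncomputable def expm (x : M) (v : E) : M :=
  if h : ∃ γ, g.IsGeodesic γ univ ∧ γ 0 = x ∧ deriv (chartAt E x ∘ γ) 0 = v then h.choose 1 else x

/-- The tangent injectivity domain `I(x)`. -/
def injDom (x : M) : Set E := {v | ∃ a > 1, rdist g x (expm g x (a • v)) = a * nrm g x v}

/-- The cost `d² / 2`. -/
noncomputable def cost (x y : M) : ℝ := rdist g x y ^ 2 / 2

/-- The Ma-Trudinger-Wang tensor. -/
noncomputable def mtw (x : M) (v ξ η : E) : ℝ :=
  -(3 / 2) * iteratedDeriv 2 (fun s : ℝ => iteratedDeriv 2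
    (fun t : ℝ => cost g (expm g x (t • ξ)) (expm g x (v + s • η))) 0) 0

/-- The weak MTW condition. -/
def WeakMTW : Prop := ∀ x, ∀ v ∈ injDom g x, ∀ ξ η, ipr g x ξ η = 0 → 0 ≤ mtw g x v ξ η

end Vale.Agent.P234
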