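import Vale.Agent.P234.Curve

/-!
# Elementary properties of the distance  (TASK; short)

The set in `rdist` is nonempty (`exists_curve`) and bounded below by `0` (`length_nonneg`).
`rdist_comm`: `exists_sub` with `s = 1`, `t = 0`.  `rdist_triangle`: `exists_concat`.
`cost_split`: `(p + q)² / (a + b) ≤ p² / a + q² / b`.
`Min.geo`: triangle inequality `|u| = d(γ 0, γ 1) ≤ d(γ 0, γ s) + d(γ s, γ t) + d(γ t, γ 1)`.
-/

namespace Vale.Agent.P234

open scoped ContDiff Topology Manifold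
open Vale.Agent.P255 Set Filter

variable {E M : Type*} [NormedAddCommGroup E] [NormedSpace ℝ E] [FiniteDimensional ℝ E]
  [TopologicalSpace M] [ChartedSpace E M] [IsManifold 𝓘(ℝ, E) ∞ M] [T2Space M] [CompactSpace M]
  [ConnectedSpace M] (g : Metric E M) {γ : ℝ → M}

theorem dist_bdd (x y : M) : BddBelow {L | ∃ γ : ℝ → M, ContMDiff 𝓘(ℝ, ℝ) 𝓘(ℝ, E) 1 γ ∧ γ 0 = x ∧
    γ 1 = y ∧ L = length g γ} :=
  ⟨0, by rintro L ⟨γ, -, -, -, rfl⟩; exact length_nonneg g γ⟩

theorem dist_ne (x y : M) : Set.Nonempty {L | ∃ γ : ℝ → M, ContMDiff 𝓘(ℝ, ℝ) 𝓘(ℝ, E) 1 γ ∧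
    γ 0 = x ∧ γ 1 = y ∧ L = length g γ} := by
  obtain ⟨γ, h, h0, h1⟩ := exists_curve g x y
  exact ⟨_, γ, h, h0, h1, rfl⟩

theorem rdist_nonneg (x y : M) : 0 ≤ rdist g x y := by
  refine le_csInf (dist_ne g x y) ?_
  rintro L ⟨γ, -, -, -, rfl⟩
  exact length_nonneg g γ

theorem rdist_le_length (hγ : C1 E γ) : rdist g (γ 0) (γ 1) ≤ length g γ := by
  exact csInf_le (dist_bdd g _ _) ⟨γ, hγ, rfl, rfl, rfl⟩

theorem rdist_le_integral (hγ : C1 E γ) (s t : ℝ) :
    rdist g (γ s) (γ t) ≤ |∫ r in s..t, spd g γ r| := by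
  obtain ⟨γ', h, h0, h1, hl⟩ := exists_sub g hγ s t
  rw [← h0, ← h1, ← hl]
  exact rdist_le_length g h

theorem exists_curve_lt {x y : M} {L : ℝ} (h : rdist g x y < L) :
    ∃ γ : ℝ → M, C1 E γ ∧ γ 0 = x ∧ γ 1 = y ∧ length g γ < L := by
  obtain ⟨L', ⟨γ, hγ, h0, h1, rfl⟩, hL⟩ := exists_lt_of_csInf_lt (dist_ne g x y) h
  exact ⟨γ, hγ, h0, h1, hL⟩

theorem rdist_self (x : M) : rdist g x x = 0 := by
  obtain ⟨γ, h, h0, -⟩ := exists_curve g x x
  have := rdist_le_integral g h 0 0
  rw [h0] at this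
  simp only [intervalIntegral.integral_same, abs_zero] at this
  exact le_antisymm this (rdist_nonneg g x x)

theorem rdist_comm_le (x y : M) : rdist g x y ≤ rdist g y x := by
  refine le_of_forall_gt_imp_ge_of_dense fun L hL => ?_
  obtain ⟨γ, hγ, h0, h1, hl⟩ := exists_curve_lt g hL
  have := rdist_le_integral g hγ 1 0
  rw [h0, h1, intervalIntegral.integral_symm, abs_neg, ← length_eq,
    abs_of_nonneg (length_nonneg g γ)] at this
  exact this.trans hl.le

theorem rdist_comm (x y : M) : rdist g x y = rdist g y x := by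
  exact le_antisymm (rdist_comm_le g x y) (rdist_comm_le g y x)

theorem rdist_triangle (x y z : M) : rdist g x z ≤ rdist g x y + rdist g y z := by
  refine le_of_forall_pos_le_add fun ε hε => ?_
  obtain ⟨γ₁, h₁, a0, a1, l1⟩ := exists_curve_lt g (x := x) (y := y) (L := rdist g x y + ε / 2)
    (by linarith)
  obtain ⟨γ₂, h₂, b0, b1, l2⟩ := exists_curve_lt g (x := y) (y := z) (L := rdist g y z + ε / 2)
    (by linarith)
  obtain ⟨γ, h, c0, c1, l⟩ := exists_concat g h₁ h₂ (a1.trans b0.symm)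
  have := rdist_le_length g h
  rw [c0, c1, a0, b1, l] at this
  linarith

theorem rdist_geo_le (x : M) (u : E) (s t : ℝ) :
    rdist g (g.geo x u s) (g.geo x u t) ≤ |t - s| * nrm g x u := by
  have := rdist_le_integral g (c1_geo g x u) s t
  simp only [spd_geo, intervalIntegral.integral_const, smul_eq_mul, abs_mul,
    abs_of_nonneg (nrm_nonneg g x u)] at this
  exact this

theorem rdist_exp_le (x : M) (u : E) : rdist g x (g.exp x u) ≤ nrm g x u := by
  have := rdist_geo_le g x u 0 1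
  rw [g.geo_zero] at this
  simpa [Metric.exp] using this

theorem cost_nonneg (x y : M) : 0 ≤ cost g x y := by
  unfold cost; positivity

theorem cost_comm (x y : M) : cost g x y = cost g y x := by
  rw [cost, cost, rdist_comm]

theorem cost_self (x : M) : cost g x x = 0 := by
  simp [cost, rdist_self]

theorem cost_exp_le (x : M) (u : E) : cost g x (g.exp x u) ≤ g.ip x u u / 2 := by
  rw [cost, ← nrm_sq]
  have := pow_le_pow_left₀ (rdist_nonneg g _ _) (rdist_exp_le g x u) 2
  linarith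

theorem cost_geo_le (x : M) (u : E) (s t : ℝ) :
    cost g (g.geo x u s) (g.geo x u t) ≤ (t - s) ^ 2 * g.ip x u u / 2 := by
  rw [cost, ← nrm_sq]
  have := pow_le_pow_left₀ (rdist_nonneg g _ _) (rdist_geo_le g x u s t) 2
  rw [mul_pow, sq_abs] at this
  linarith

theorem cost_split {a b : ℝ} (ha : 0 < a) (hb : 0 < b) (x y z : M) :
    cost g x z / (a + b) ≤ cost g x y / a + cost g y z / b := by
  have h1 := pow_le_pow_left₀ (rdist_nonneg g _ _) (rdist_triangle g x y z) 2
  unfold cost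
  set p := rdist g x y
  set q := rdist g y z
  have h2 : (p + q) ^ 2 / 2 / (a + b) ≤ p ^ 2 / 2 / a + q ^ 2 / 2 / b := by
    rw [div_add_div _ _ ha.ne' hb.ne', div_le_div_iff₀ (by linarith) (by positivity)]
    nlinarith [sq_nonneg (p * b - q * a)]
  refine le_trans ?_ h2
  gcongr

/-- The geodesic with initial velocity `u` is minimising on `[0, 1]`. -/
def Min (x : M) (u : E) : Prop := rdist g x (g.exp x u) = nrm g x u

/-- `u` is the only minimising vector with the given end point. -/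
def Uniq (x : M) (u : E) : Prop := ∀ u', Min g x u' → g.exp x u' = g.exp x u → u' = u

/-- There is a minimising geodesic from `x` to `y`. -/
def Ex (x y : M) : Prop := ∃ u, g.exp x u = y ∧ Min g x u

theorem min_iff_cost {x : M} {u : E} : Min g x u ↔ cost g x (g.exp x u) = g.ip x u u / 2 := by
  rw [Min, cost, ← nrm_sq]
  constructor
  · intro h; rw [h]
  · intro h
    exact (pow_left_inj₀ (rdist_nonneg g _ _) (nrm_nonneg g x u) two_ne_zero).1 (by linarith)

variable {g}

theorem Min.geo {x : M} {u : E} (h : Min g x u) {s t : ℝ} (hs : 0 ≤ s) (hst : s ≤ t) (ht : t ≤ 1) :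
    rdist g (g.geo x u s) (g.geo x u t) = (t - s) * nrm g x u := by
  have h1 := rdist_geo_le g x u 0 s
  have h2 := rdist_geo_le g x u s t
  have h3 := rdist_geo_le g x u t 1
  have h4 := rdist_triangle g (g.geo x u 0) (g.geo x u s) (g.geo x u 1)
  have h5 := rdist_triangle g (g.geo x u s) (g.geo x u t) (g.geo x u 1)
  have h6 : rdist g (g.geo x u 0) (g.geo x u 1) = nrm g x u := by
    rw [g.geo_zero]; exact h
  rw [abs_of_nonneg (by linarith)] at h1 h2 h3
  linarith

theorem Min.smul {x : M} {u : E} (h : Min g x u) {c : ℝ} (h0 : 0 ≤ c) (h1 : c ≤ 1) :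
    Min g x (c • u) := by
  have := h.geo le_rfl h0 h1
  rw [g.geo_zero] at this
  rw [Min, g.exp_smul, nrm_smul, abs_of_nonneg h0, this, sub_zero]

theorem mem_injDom {x : M} {v : E} : v ∈ injDom g x ↔ ∃ a > (1 : ℝ), Min g x (a • v) := by
  refine exists_congr fun a => and_congr_right fun ha => ?_
  rw [Min, expm_eq, nrm_smul, abs_of_pos (by linarith)]

theorem min_of_inj {x : M} {v : E} (h : v ∈ injDom g x) : Min g x v := by
  obtain ⟨a, ha, hm⟩ := mem_injDom.1 h
  have ha0 : 0 < a := by linarith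
  have := hm.smul (c := a⁻¹) (by positivity) (inv_le_one_of_one_le₀ ha.le)
  rwa [smul_smul, inv_mul_cancel₀ ha0.ne', one_smul] at this

theorem Min.smul_inj {x : M} {u : E} (h : Min g x u) {c : ℝ} (h0 : 0 ≤ c) (h1 : c < 1) :
    c • u ∈ injDom g x := by
  refine mem_injDom.2 ⟨2 / (1 + c), ?_, ?_⟩
  · rw [gt_iff_lt, lt_div_iff₀ (by linarith)]; linarith
  · rw [smul_smul]
    refine h.smul (by positivity) ?_
    rw [div_mul_eq_mul_div, div_le_one (by linarith)]
    linarith

theorem inj_smul {x : M} {v : E} (h : v ∈ injDom g x) {c : ℝ} (h0 : 0 ≤ c) (h1 : c ≤ 1) :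
    c • v ∈ injDom g x := by
  obtain ⟨a, ha, hm⟩ := mem_injDom.1 h
  refine mem_injDom.2 ⟨a, ha, ?_⟩
  rw [smul_comm]
  exact hm.smul h0 h1

end Vale.Agent.P234
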