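import Vale.Agent.P234.HR
import Vale.Agent.P234.Sigma

/-!
# The potential and its subdifferential  (TASK)

`TC.mem_S`: one of the two indices occurs frequently; pass to that (`Filter.frequently_or_distrib`, or an
ultrafilter), `TC.min`, `TC.exp`, continuity of `phi` and `cost`.
`isCompact_S`: closed (`TC.const_base`) and bounded (`exists_diam`, `exists_ip_bounds`).
`TC.mem_Lam`: pass to `Ultrafilter.of l`; for `ζ` take `ζ i` by `TC.exists_vec`, `s i ∈ S (x i)` by `mem_Lam_iff`,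
a limit `s₀` by `TC.of_bounded`; `TC.ip`.
`SubG.mem_Lam`: fix `ζ`, `γ = geo x ζ`, `s t ∈ S (γ t)` with index `i`; `x = exp (γ t) (-t • vel γ t)` (`geo_vel`);
`sc` at `γ t` gives `phi (γ t) - phi x ≤ t ip (s t) (vel γ t) + C t² ip ζ ζ`.  Along an ultrafilter `≤ 𝓝[>] 0`,
`s t → s₀ ∈ S x`, `vel γ t → ζ` (`TC.vel_geo`), so `ip u ζ - κ ≤ ip s₀ ζ` for all `κ`.
`subG_of_min`: `sc` at `x` with `μ = t • ζ`.
-/

namespace Vale.Agent.P234

open scoped ContDiff Topology Manifold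
open Vale.Agent.P255 Set Filter

variable {E M : Type*} [NormedAddCommGroup E] [NormedSpace ℝ E] [FiniteDimensional ℝ E]
  [TopologicalSpace M] [ChartedSpace E M] [IsManifold 𝓘(ℝ, E) ∞ M] [T2Space M] [CompactSpace M]
  [ConnectedSpace M] {e e' : OpenPartialHomeomorph M E} (g : Metric E M) (y : Bool → M) (α : Bool → ℝ)

/-- The potential. -/
noncomputable def phi (z : M) : ℝ := max (α false - cost g z (y false)) (α true - cost g z (y true))

/-- Minimising vectors towards the active targets. -/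
def Sx (x : M) : Set E :=
  {s | Min g x s ∧ ∃ i, g.exp x s = y i ∧ phi g y α x = α i - cost g x (y i)}

/-- The subdifferential. -/
def Lam (x : M) : Set E := convexHull ℝ (Sx g y α x)

/-- `u` is a subgradient of `f` at `x`. -/
def SubG (f : M → ℝ) (x : M) (u : E) : Prop :=
  ∀ ζ, ∀ κ > 0, ∀ᶠ t in 𝓝[>] (0 : ℝ), t * g.ip x u ζ - κ * t ≤ f (g.exp x (t • ζ)) - f x

theorem continuous_phi : Continuous (phi g y α) := by
  have h : ∀ i, Continuous fun z => α i - cost g z (y i) := fun i =>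
    continuous_const.sub ((continuous_cost g).comp (continuous_id.prodMk continuous_const))
  exact (h false).max (h true)

omit [FiniteDimensional ℝ E] [IsManifold 𝓘(ℝ, E) ∞ M] [T2Space M] [CompactSpace M]
  [ConnectedSpace M] in
theorem le_phi (z : M) (i : Bool) : α i - cost g z (y i) ≤ phi g y α z := by
  cases i
  · exact le_max_left _ _
  · exact le_max_right _ _

theorem Sx_nonempty (x : M) : (Sx g y α x).Nonempty := by
  obtain ⟨i, hi⟩ : ∃ i, phi g y α x = α i - cost g x (y i) := by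
    rcases max_choice (α false - cost g x (y false)) (α true - cost g x (y true)) with h | h
    · exact ⟨false, h⟩
    · exact ⟨true, h⟩
  obtain ⟨u, h1, h2⟩ := hopf_rinow g x (y i)
  exact ⟨u, h2, i, h1, hi⟩

theorem Lam_bound : ∃ D > 0, ∀ x, ∀ v ∈ Lam g y α x, nrm g x v ≤ D := by
  obtain ⟨D, hD, h⟩ := exists_diam g
  refine ⟨D, hD, fun x v hv => convexHull_min (fun s hs => ?_) (convex_nrm_le g x D) hv⟩
  have h1 : rdist g x (g.exp x s) = nrm g x s := hs.1
  change nrm g x s ≤ D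
  rw [← h1]
  exact h _ _

theorem sub_mem_Sx {ι : Type*} {l : Filter ι} [l.NeBot] {x : ι → M} {u : ι → E} {x₀ : M} {u₀ : E}
    (h : TC l x u x₀ u₀) (hu : ∀ᶠ i in l, u i ∈ Sx g y α (x i)) : u₀ ∈ Sx g y α x₀ := by
  refine ⟨TC.min g h (hu.mono fun i hi => hi.1), ?_⟩
  obtain ⟨b, hb⟩ : ∃ b, ∃ᶠ i in l, g.exp (x i) (u i) = y b ∧
      phi g y α (x i) = α b - cost g (x i) (y b) := by
    by_contra hn
    have h1 : ∀ b, ∀ᶠ i in l, ¬ (g.exp (x i) (u i) = y b ∧
        phi g y α (x i) = α b - cost g (x i) (y b)) := fun b =>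
      not_frequently.1 fun h2 => hn ⟨b, h2⟩
    obtain ⟨i, ⟨-, b, hb⟩, hi⟩ := (hu.and (eventually_all.2 h1)).exists
    exact hi b hb
  refine ⟨b, tendsto_nhds_unique_of_frequently_eq (TC.exp g h) tendsto_const_nhds
    (hb.mono fun i hi => hi.1), ?_⟩
  have h2 : Continuous fun z => α b - cost g z (y b) :=
    continuous_const.sub ((continuous_cost g).comp (continuous_id.prodMk continuous_const))
  exact tendsto_nhds_unique_of_frequently_eq (((continuous_phi g y α).tendsto x₀).comp h.1)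
    ((h2.tendsto x₀).comp h.1) (hb.mono fun i hi => hi.2)

theorem isCompact_Sx (x : M) : IsCompact (Sx g y α x) := by
  refine Metric.isCompact_of_isClosed_isBounded ?_ ?_
  · refine isClosed_of_closure_subset fun u₀ hu => ?_
    have := mem_closure_iff_nhdsWithin_neBot.1 hu
    exact sub_mem_Sx g y α (l := 𝓝[Sx g y α x] u₀) (x := fun _ => x) (u := id)
      (TC.const_base.2 (tendsto_id.mono_left nhdsWithin_le_nhds)) self_mem_nhdsWithin
  · obtain ⟨D, -, hD⟩ := Lam_bound g y α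
    obtain ⟨c, C, hc, -, h⟩ := exists_ip_bounds g x
    refine (Metric.isBounded_closedBall (x := (0 : E)) (r := √(D ^ 2 / c))).subset fun s hs => ?_
    rw [mem_closedBall_zero_iff]
    refine Real.le_sqrt_of_sq_le ?_
    rw [le_div_iff₀ hc, mul_comm]
    refine (h s).1.trans ?_
    rw [← nrm_sq]
    exact pow_le_pow_left₀ (nrm_nonneg g _ _) (hD x s (subset_convexHull ℝ _ hs)) 2

variable {g y α}

theorem TC.mem_Sx {ι : Type*} {l : Filter ι} [l.NeBot] {x : ι → M} {u : ι → E} {x₀ : M} {u₀ : E}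
    (h : TC l x u x₀ u₀) (hu : ∀ᶠ i in l, u i ∈ Sx g y α (x i)) : u₀ ∈ Sx g y α x₀ := by
  exact sub_mem_Sx g y α h hu

theorem mem_Lam_iff {x : M} {u : E} :
    u ∈ Lam g y α x ↔ ∀ ζ, ∃ s ∈ Sx g y α x, g.ip x u ζ ≤ g.ip x s ζ :=
  mem_convexHull_iff_support (ip_pos g x) (isCompact_Sx g y α x)

theorem TC.mem_Lam {ι : Type*} {l : Filter ι} [l.NeBot] {x : ι → M} {u : ι → E} {x₀ : M} {u₀ : E}
    (h : TC l x u x₀ u₀) (hu : ∀ᶠ i in l, u i ∈ Lam g y α (x i)) : u₀ ∈ Lam g y α x₀ := by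
  refine mem_Lam_iff.2 fun ζ => ?_
  have hL : (Ultrafilter.of l : Filter ι) ≤ l := Ultrafilter.of_le l
  obtain ⟨ζ', hζ⟩ := TC.exists_vec h.1 ζ
  have H : ∀ i, ∃ s, u i ∈ Lam g y α (x i) →
      s ∈ Sx g y α (x i) ∧ g.ip (x i) (u i) (ζ' i) ≤ g.ip (x i) s (ζ' i) := by
    intro i
    by_cases hi : u i ∈ Lam g y α (x i)
    · obtain ⟨s, hs⟩ := mem_Lam_iff.1 hi (ζ' i)
      exact ⟨s, fun _ => hs⟩
    · exact ⟨0, fun h1 => absurd h1 hi⟩
  choose s hs using H
  have h1 := (hu.mono hs).filter_mono hL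
  obtain ⟨D, -, hD⟩ := Lam_bound g y α
  obtain ⟨s₀, h2⟩ := TC.of_bounded g (l := Ultrafilter.of l) (u := s) (h.1.mono_left hL) (R := D)
    (h1.mono fun i hi => hD _ _ (subset_convexHull ℝ _ hi.1))
  exact ⟨s₀, h2.mem_Sx (h1.mono fun i hi => hi.1),
    le_of_tendsto_of_tendsto ((h.mono hL).ip g (hζ.mono hL)) (h2.ip g (hζ.mono hL))
      (h1.mono fun i hi => hi.2)⟩

theorem sub_small (a : ℝ) {ρ : ℝ} (hρ : 0 < ρ) : ∀ᶠ t in 𝓝[>] (0 : ℝ), t * a < ρ := by
  have h : Tendsto (fun t : ℝ => t * a) (𝓝[>] 0) (𝓝 (0 * a)) :=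
    (tendsto_id.mono_left nhdsWithin_le_nhds).mul_const a
  rw [zero_mul] at h
  exact h.eventually (gt_mem_nhds hρ)

theorem SubG.mem_Lam {x : M} {u : E} (h : SubG g (phi g y α) x u) : u ∈ Lam g y α x := by
  refine mem_Lam_iff.2 fun ζ => ?_
  obtain ⟨D, -, hD⟩ := Lam_bound g y α
  obtain ⟨C, ρ, -, hρ, hsc⟩ := sc g D
  choose s hs using fun t : ℝ => Sx_nonempty g y α (g.geo x ζ t)
  have hL : (Ultrafilter.of (𝓝[>] (0 : ℝ)) : Filter ℝ) ≤ 𝓝[>] 0 := Ultrafilter.of_le _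
  have hL' := hL.trans nhdsWithin_le_nhds
  have hv := TC.vel_geo g x ζ 0
  rw [vel_geo_zero, g.geo_zero] at hv
  obtain ⟨s₀, h2⟩ := TC.of_bounded g (l := Ultrafilter.of (𝓝[>] (0 : ℝ))) (u := s)
    (hv.1.mono_left hL') (R := D)
    (Eventually.of_forall fun t => hD _ _ (subset_convexHull ℝ _ (hs t)))
  refine ⟨s₀, h2.mem_Sx (Eventually.of_forall hs), le_of_forall_pos_le_add fun κ hκ => ?_⟩
  have h3 : Tendsto (fun t : ℝ => g.ip (g.geo x ζ t) (s t) (vel E (g.geo x ζ) t) +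
      C * t * g.ip x ζ ζ + κ) (Ultrafilter.of (𝓝[>] (0 : ℝ)))
      (𝓝 (g.ip x s₀ ζ + C * 0 * g.ip x ζ ζ + κ)) :=
    ((h2.ip g (hv.mono hL')).add
      (((tendsto_id.mono_left hL').const_mul C).mul_const _)).add_const κ
  rw [mul_zero, zero_mul, add_zero] at h3
  refine ge_of_tendsto h3 (Eventually.filter_mono hL ?_)
  filter_upwards [h ζ κ hκ, sub_small (nrm g x ζ) hρ, self_mem_nhdsWithin] with t h4 h5 ht
  have ht' : 0 < t := ht
  obtain ⟨hm, i, hi, hp⟩ := hs t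
  have e1 : g.exp (g.geo x ζ t) ((-t) • vel E (g.geo x ζ) t) = x := by
    have := geo_vel g x ζ t (-t) 1
    rwa [mul_one, add_neg_cancel, g.geo_zero] at this
  have e2 : g.ip (g.geo x ζ t) (vel E (g.geo x ζ) t) (vel E (g.geo x ζ) t) = g.ip x ζ ζ := by
    rw [← nrm_sq, ← nrm_sq, nrm_vel_geo]
  have h6 := hsc (g.geo x ζ t) (s t) ((-t) • vel E (g.geo x ζ) t)
    (hD _ _ (subset_convexHull ℝ _ (hs t)))
    (by rw [nrm_smul, nrm_vel_geo, abs_neg, abs_of_pos ht']; exact h5.le)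
  rw [e1, ← (min_iff_cost g).1 hm, hi] at h6
  simp only [map_smul, smul_apply, smul_eq_mul, e2] at h6
  rw [g.exp_smul, hp] at h4
  have h7 := le_phi g y α x i
  refine le_of_mul_le_mul_left ?_ ht'
  nlinarith

/-- A global minimum of `τ f + cost (·, exp x w)` at `x` gives a subgradient. -/
theorem subG_of_min {f : M → ℝ} {τ : ℝ} (hτ : 0 < τ) {x : M} {w : E} (hw : Min g x w)
    (h : ∀ z, τ * f x + cost g x (g.exp x w) ≤ τ * f z + cost g z (g.exp x w)) :
    SubG g f x (τ⁻¹ • w) := by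
  intro ζ κ hκ
  obtain ⟨C, ρ, -, hρ, hsc⟩ := sc g (nrm g x w)
  filter_upwards [sub_small (nrm g x ζ) hρ, sub_small (C * g.ip x ζ ζ) (mul_pos hκ hτ),
    self_mem_nhdsWithin] with t h1 h2 ht
  have ht' : 0 < t := ht
  have h3 := hsc x w (t • ζ) le_rfl (by rw [nrm_smul, abs_of_pos ht']; exact h1.le)
  have h4 := h (g.exp x (t • ζ))
  rw [(min_iff_cost g).1 hw] at h4
  simp only [map_smul, smul_apply, smul_eq_mul] at h3 ⊢
  refine le_of_mul_le_mul_left ?_ hτ
  have e : τ * (t * (τ⁻¹ * g.ip x w ζ) - κ * t) = t * g.ip x w ζ - t * (κ * τ) := by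
    field_simp
  rw [e]
  nlinarith [mul_le_mul_of_nonneg_left h2.le ht'.le]

end Vale.Agent.P234
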