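import Vale.Agent.P234.Blow
import Vale.Agent.P234.Sub
import Vale.Agent.P234.Quasi

/-!
# Uniform strict local minimality  (TASK)

By `unif_of_local` it suffices to work near `x₀`; `e = chartAt x₀`, `closedBall (e x₀) r ⊆ e.target`,
`K = {(a, tr e (e.symm a) (τ • v)) | a ∈ closedBall (e x₀) r, τ ∈ [0, τ₁], v ∈ Lam (e.symm a)}`.  `K` is compact
(`isCompact_iff_ultrafilter_le_nhds'`: choose `τ, v` along the ultrafilter, `Lam_bound`, `TC.of_bounded`,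
`TC.mem_Lam`, `TC.smul`, `TC.chart`).  On `K` the vectors are in `injDom` (`inj_smul`), so `quasi` applies to
`cE g e` (`inj_reg`, `Reg.contDiffAt_cE`, `Min.cE_zero`, `Reg.fderiv_cE`, `conv_chart`).  For `x` near `x₀`,
`z = exp x ζ` with `ζ` minimising (`hopf_rinow`), `S = (fun s => tr e x (τ • s)) '' Sx x` (its convex hull is the image of
`Lam x`: `LinearMap.image_convexHull`/`IsLinearMap.image_convexHull`), `m = τ (phi z - phi x) - δ d²` (`gap`, `le_phi`);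
`d² = G ζ' ζ' ≥ c ‖ζ'‖²` for `ζ' = tr e x ζ` (`exists_chart_bounds`), so `C ‖ζ'‖³ < δ d²` if `0 < d` is small
(`eq_of_rdist`).
-/

namespace Vale.Agent.P234

open scoped ContDiff Topology Manifold
open Vale.Agent.P255 Set Filter

variable {E M : Type*} [NormedAddCommGroup E] [NormedSpace ℝ E] [FiniteDimensional ℝ E]
  [TopologicalSpace M] [ChartedSpace E M] [IsManifold 𝓘(ℝ, E) ∞ M] [T2Space M] [CompactSpace M]
  [ConnectedSpace M] {e e' : OpenPartialHomeomorph M E} (g : Metric E M) (y : Bool → M) (α : Bool → ℝ)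

/-- `τ • Lam x ⊆ I(x)` for all `x`. -/
def Alw (τ : ℝ) : Prop := ∀ x, ∀ v ∈ Lam g y α x, τ • v ∈ injDom g x

variable {g y α}

theorem Alw.mono {τ τ' : ℝ} (h : Alw g y α τ) (h0 : 0 ≤ τ') (h1 : τ' ≤ τ) : Alw g y α τ' := by
  intro x v hv
  rcases (h0.trans h1).eq_or_lt with h2 | h2
  · have : τ' = τ := le_antisymm h1 (h2 ▸ h0)
    rw [this]; exact h x v hv
  · have := inj_smul (h x v hv) (c := τ' / τ) (div_nonneg h0 h2.le) ((div_le_one h2).2 h1)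
    rwa [smul_smul, div_mul_cancel₀ _ h2.ne'] at this

/-- The compact set of pairs (point, scaled subgradient) read in a chart. -/
def unifK (g : Metric E M) (y : Bool → M) (α : Bool → ℝ) (e : OpenPartialHomeomorph M E)
    (A : Set E) (τ₁ : ℝ) : Set (E × E) :=
  {p | p.1 ∈ A ∧ ∃ τ ∈ Icc 0 τ₁, ∃ v ∈ Lam g y α (e.symm p.1), p.2 = tr e (e.symm p.1) (τ • v)}

theorem isCompact_unifK (he : e ∈ atlas E M) {A : Set E} (hA : IsCompact A) (hAe : A ⊆ e.target)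
    (τ₁ : ℝ) : IsCompact (unifK g y α e A τ₁) := by
  rw [isCompact_iff_ultrafilter_le_nhds']
  intro f hf
  have hch : ∀ p ∈ unifK g y α e A τ₁, ∃ τ ∈ Icc 0 τ₁, ∃ v ∈ Lam g y α (e.symm p.1),
      p.2 = tr e (e.symm p.1) (τ • v) := fun p hp => hp.2
  choose! τ hτ v hv heq using hch
  obtain ⟨a₀, ha₀, t1⟩ := hA.ultrafilter_le_nhds' (f.map Prod.fst)
    (Ultrafilter.mem_map.2 (mem_of_superset hf fun p hp => hp.1))
  obtain ⟨τ₀, hτ₀, t2⟩ := (isCompact_Icc (a := 0) (b := τ₁)).ultrafilter_le_nhds' (f.map τ)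
    (Ultrafilter.mem_map.2 (mem_of_superset hf fun p hp => hτ p hp))
  have t1' : Tendsto Prod.fst (f : Filter (E × E)) (𝓝 a₀) := t1
  have t2' : Tendsto τ (f : Filter (E × E)) (𝓝 τ₀) := t2
  have t3 : Tendsto (fun p : E × E => e.symm p.1) (f : Filter (E × E)) (𝓝 (e.symm a₀)) :=
    (e.continuousAt_symm (hAe ha₀)).tendsto.comp t1'
  obtain ⟨D, -, hD⟩ := Lam_bound g y α
  obtain ⟨v₀, hv₀⟩ := TC.of_bounded g t3 (u := v) (R := D)
    (mem_of_superset hf fun p hp => hD _ _ (hv p hp))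
  have t4 := (hv₀.smul t2').chart he (e.map_target (hAe ha₀))
  have t5 : Tendsto Prod.snd (f : Filter (E × E)) (𝓝 (tr e (e.symm a₀) (τ₀ • v₀))) :=
    t4.congr' (mem_of_superset hf fun p hp => (heq p hp).symm)
  exact ⟨(a₀, tr e (e.symm a₀) (τ₀ • v₀)), ⟨ha₀, τ₀, hτ₀, v₀,
    hv₀.mem_Lam (mem_of_superset hf fun p hp => hv p hp), rfl⟩, tendsto_id'.1 (t1'.prodMk_nhds t5)⟩

theorem unif_quasi (hM : WeakMTW g) {τ₁ : ℝ} (hA : Alw g y α τ₁) (he : e ∈ atlas E M) {A : Set E}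
    (hAc : IsCompact A) (hAe : A ⊆ e.target) :
    ∃ C ρ : ℝ, 0 < C ∧ 0 < ρ ∧ ∀ (a : E) (S : Set E),
      (∀ u ∈ convexHull ℝ S, (a, u) ∈ unifK g y α e A τ₁) →
      ∀ ζ : E, ‖ζ‖ ≤ ρ → ∀ m : ℝ, (∀ s ∈ S, g.g e a s s / 2 - cE g e (a, ζ, s) ≤ m) →
        ∀ w ∈ convexHull ℝ S, g.g e a w w / 2 - cE g e (a, ζ, w) ≤ m + C * ‖ζ‖ ^ 3 := by
  have key : ∀ p ∈ unifK g y α e A τ₁, ∃ x ∈ e.source, ∃ w ∈ injDom g x,
      p = (e x, tr e x w) := by
    rintro p ⟨hp, τ, hτ, v, hv, h⟩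
    exact ⟨e.symm p.1, e.map_target (hAe hp), τ • v, hA.mono hτ.1 hτ.2 _ v hv,
      Prod.ext (e.right_inv (hAe hp)).symm h⟩
  refine quasi (isCompact_unifK he hAc hAe τ₁) ((g.smooth e he).continuousOn.mono ?_)
    (fun p hp => g.symm e he _ (hAe hp.1)) (fun p hp => g.pos e he _ (hAe hp.1)) ?_ ?_ ?_ ?_
  · rintro _ ⟨p, hp, rfl⟩
    exact hAe hp.1
  · intro p hp
    obtain ⟨x, hx, w, hw, rfl⟩ := key p hp
    exact (inj_reg hw).contDiffAt_cE he hx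
  · intro p hp
    obtain ⟨x, hx, w, hw, rfl⟩ := key p hp
    exact (min_of_inj hw).cE_zero he hx
  · intro p hp
    obtain ⟨x, hx, w, hw, rfl⟩ := key p hp
    exact (inj_reg hw).fderiv_cE he hx
  · intro a u η ξ h hξ
    have ha : a ∈ e.target := hAe (h 0 (left_mem_Icc.2 zero_le_one)).1
    have hx := e.map_target ha
    have := conv_chart hM he hx (u := u) (η := η) (ξ := ξ) (fun s hs => ?_)
      (by rwa [e.right_inv ha])
    · rwa [e.right_inv ha] at this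
    · obtain ⟨-, τ, hτ, v, hv, h2⟩ := h s hs
      dsimp only at h2 hv
      rw [h2, trI_tr he hx]
      exact hA.mono hτ.1 hτ.2 _ v hv

theorem unif_real {c C δ ρ₀ d n : ℝ} (hc : 0 < c) (hC : 0 < C) (hδ : 0 < δ) (hρ : 0 < ρ₀)
    (hd : 0 < d) (hn : 0 ≤ n) (h1 : c * n ^ 2 ≤ d ^ 2) (h2 : d ≤ √c * min ρ₀ (δ * c / (2 * C))) :
    n ≤ ρ₀ ∧ C * n ^ 3 < δ * d ^ 2 := by
  have hm : 0 < min ρ₀ (δ * c / (2 * C)) := by positivity
  have h3 : d ^ 2 ≤ c * min ρ₀ (δ * c / (2 * C)) ^ 2 := by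
    have := pow_le_pow_left₀ hd.le h2 2
    rwa [mul_pow, Real.sq_sqrt hc.le] at this
  have h4 : n ≤ min ρ₀ (δ * c / (2 * C)) :=
    (pow_le_pow_iff_left₀ hn hm.le two_ne_zero).1 (le_of_mul_le_mul_left (h1.trans h3) hc)
  rw [le_min_iff, le_div_iff₀ (by positivity)] at h4
  refine ⟨h4.1, ?_⟩
  have h5 : n * (2 * C) * n ^ 2 ≤ δ * c * n ^ 2 :=
    mul_le_mul_of_nonneg_right h4.2 (sq_nonneg n)
  have h6 : δ * (c * n ^ 2) ≤ δ * d ^ 2 := by gcongr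
  have h7 : 0 < δ * d ^ 2 := by positivity
  nlinarith

theorem unif (hM : WeakMTW g) {τ₁ : ℝ} (h1 : τ₁ < 1) (hA : Alw g y α τ₁) :
    ∃ ρ > 0, ∀ x, ∀ τ ∈ Icc 0 τ₁, ∀ v ∈ Lam g y α x, ∀ z, rdist g x z ≤ ρ → z ≠ x →
      τ * phi g y α x + cost g x (g.exp x (τ • v)) <
        τ * phi g y α z + cost g z (g.exp x (τ • v)) := by
  refine unif_of_local (P := fun x ρ => ∀ τ ∈ Icc 0 τ₁, ∀ v ∈ Lam g y α x, ∀ z,
    rdist g x z ≤ ρ → z ≠ x → τ * phi g y α x + cost g x (g.exp x (τ • v)) <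
      τ * phi g y α z + cost g z (g.exp x (τ • v)))
    (fun x κ κ' _ hκ h τ hτ v hv z hz => h τ hτ v hv z (hz.trans hκ)) fun x₀ => ?_
  have he := chart_mem_atlas E x₀
  have hx₀ := mem_chart_source E x₀
  generalize chartAt E x₀ = e at he hx₀
  have := FiniteDimensional.proper_real E
  obtain ⟨r, hr, hre⟩ := Metric.nhds_basis_closedBall.mem_iff.1
    (e.open_target.mem_nhds (e.map_source hx₀))
  obtain ⟨C, ρ₀, hC, hρ₀, hq⟩ := unif_quasi hM hA he (isCompact_closedBall _ _) hre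
  obtain ⟨δ, hδ, hgap⟩ := gap g h1
  obtain ⟨c, C', hc, -, hcb⟩ := exists_chart_bounds g he (e.map_source hx₀)
  have hce := (e.continuousAt hx₀).tendsto
  refine ⟨√c * min ρ₀ (δ * c / (2 * C)), by positivity, ?_⟩
  filter_upwards [e.open_source.mem_nhds hx₀, hce.eventually hcb,
    hce.eventually (Metric.closedBall_mem_nhds _ hr)] with x hx hb hxr τ hτ v hv z hz hzx
  obtain ⟨ζ, rfl, hζ⟩ := hopf_rinow g x z
  have hd : 0 < rdist g x (g.exp x ζ) :=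
    (rdist_nonneg g _ _).lt_of_ne fun h => hzx (eq_of_rdist g h.symm).symm
  have hd2 : c * ‖tr e x ζ‖ ^ 2 ≤ rdist g x (g.exp x ζ) ^ 2 := by
    rw [show rdist g x (g.exp x ζ) = nrm g x ζ from hζ, nrm_sq, ip_eq g he hx]
    exact (hb.2 _).1
  obtain ⟨k1, k2⟩ := unif_real hc hC hδ hρ₀ hd (norm_nonneg _) hd2 hz
  have hval : ∀ w, Min g x w → g.g e (e x) (tr e x w) (tr e x w) / 2 -
      cE g e (e x, tr e x ζ, tr e x w) = cost g x (g.exp x w) - cost g (g.exp x ζ) (g.exp x w) := by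
    intro w hw
    rw [(min_iff_cost g).1 hw, ip_eq g he hx, cE, expE_tr g he hx, expE_tr g he hx]
  let L : E →ₗ[ℝ] E := (tr e x : E →ₗ[ℝ] E) ∘ₗ (τ • LinearMap.id)
  have hL : ∀ u, L u = tr e x (τ • u) := fun u => rfl
  have hhull : convexHull ℝ (L '' Sx g y α x) = L '' Lam g y α x := (L.image_convexHull _).symm
  have := hq (e x) (L '' Sx g y α x) ?_ (tr e x ζ) k1
    (τ * (phi g y α (g.exp x ζ) - phi g y α x) - δ * rdist g x (g.exp x ζ) ^ 2) ?_ (L v)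
    (by rw [hhull]; exact mem_image_of_mem _ hv)
  · rw [hL, hval _ (min_of_inj (hA.mono hτ.1 hτ.2 x v hv))] at this
    linarith
  · rw [hhull]
    rintro _ ⟨u, hu, rfl⟩
    refine ⟨hxr, τ, hτ, u, ?_, ?_⟩
    · rwa [e.left_inv hx]
    · rw [e.left_inv hx]; rfl
  · rintro _ ⟨s, ⟨hs, i, hi, hφ⟩, rfl⟩
    rw [hL, hval _ (hs.smul hτ.1 (hτ.2.trans h1.le))]
    have h2 := hgap τ hτ x s (g.exp x ζ) hs
    rw [hi] at h2
    have h3 : τ * (cost g x (y i) - cost g (g.exp x ζ) (y i)) ≤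
        τ * (phi g y α (g.exp x ζ) - phi g y α x) := by
      refine mul_le_mul_of_nonneg_left ?_ hτ.1
      linarith [le_phi g y α (g.exp x ζ) i]
    linarith

end Vale.Agent.P234
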