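import Vale.Agent.P234.Conv
import Vale.Agent.P234.Unif

/-!
# The continuity argument
-/

namespace Vale.Agent.P234

open scoped ContDiff Topology Manifold
open Vale.Agent.P255 Set Filter

variable {E M : Type*} [NormedAddCommGroup E] [NormedSpace ℝ E] [FiniteDimensional ℝ E]
  [TopologicalSpace M] [ChartedSpace E M] [IsManifold 𝓘(ℝ, E) ∞ M] [T2Space M] [CompactSpace M]
  [ConnectedSpace M] {e e' : OpenPartialHomeomorph M E} {g : Metric E M} {y : Bool → M} {α : Bool → ℝ}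

/-- The time `τ` map separates base points. -/
def Sep (g : Metric E M) (y : Bool → M) (α : Bool → ℝ) (τ : ℝ) : Prop :=
  ∀ x x', ∀ v ∈ Lam g y α x, ∀ v' ∈ Lam g y α x', g.exp x (τ • v) = g.exp x' (τ • v') → x = x'

theorem sep_open (hM : WeakMTW g) {τ : ℝ} (h0 : 0 < τ) (h1 : τ < 1) (hA : Alw g y α τ)
    (h : ¬ Sep g y α τ) : ∀ᶠ τ' in 𝓝 τ, ¬ Sep g y α τ' := by
  simp only [Sep, not_forall] at h
  obtain ⟨x, x', v, hv, v', hv', he, hne⟩ := h
  obtain ⟨U, U', hU, hU', hx, hx', hd⟩ := t2_separation hne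
  have key : ∀ (x : M) (v : E) (U : Set M), v ∈ Lam g y α x → IsOpen U → x ∈ U →
      ∀ᶠ τ' in 𝓝 τ, ∃ z ∈ U, ∃ u ∈ Lam g y α z, g.exp z (τ' • u) = g.exp x (τ • v) := by
    intro x v U hv hU hx
    obtain ⟨hI, hg⟩ := conv hM h0.le h1 (fun v hv => min_of_inj (hA x v hv))
      (fun v hv _ _ _ _ => inj_uniq (hA x v hv)) v hv
    have hN : Prod.fst ⁻¹' ((chartAt E x).symm ⁻¹' U) ∈ 𝓝 (chartAt E x x, τ • v) := by
      refine continuousAt_fst.preimage_mem_nhds (ContinuousAt.preimage_mem_nhds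
        ((chartAt E x).continuousAt_symm (mem_chart_target E x)) ?_)
      rw [(chartAt E x).left_inv (mem_chart_source E x)]
      exact hU.mem_nhds hx
    have h2 := pers (inj_nc hI) (min_of_inj hI) (tendsto_BB_of_inj hI) hg hN
    have h3 : Tendsto (fun τ' : ℝ => (τ', g.exp x (τ • v))) (𝓝 τ) (𝓝 (τ, g.exp x (τ • v))) :=
      (continuous_id.prodMk continuous_const).tendsto τ
    filter_upwards [h3.eventually h2, lt_mem_nhds h0] with τ' a b
    obtain ⟨z, hz, u, hu, c, d⟩ := a b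
    refine ⟨z, ?_, u, hu, d⟩
    rw [← (chartAt E x).left_inv hz]
    exact c
  filter_upwards [key x v U hv hU hx, key x' v' U' hv' hU' hx'] with τ' a b hs
  obtain ⟨z, hz, u, hu, c⟩ := a
  obtain ⟨z', hz', u', hu', c'⟩ := b
  have := hs z z' u hu u' hu' (by rw [c, c', he])
  exact Set.disjoint_left.1 hd hz (this ▸ hz')

theorem exists_lim {ι : Type*} (l : Ultrafilter ι) (x : ι → M) (v : ι → E)
    (hv : ∀ᶠ i in l, v i ∈ Lam g y α (x i)) :
    ∃ x₀, ∃ v₀ ∈ Lam g y α x₀, TC (l : Filter ι) x v x₀ v₀ := by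
  obtain ⟨x₀, -, hx⟩ := isCompact_univ.ultrafilter_le_nhds (l.map x) (by simp)
  obtain ⟨D, -, hD⟩ := Lam_bound g y α
  obtain ⟨v₀, h⟩ := TC.of_bounded g (l := l) (x := x) (u := v) hx (hv.mono fun i hi => hD _ _ hi)
  exact ⟨x₀, v₀, h.mem_Lam hv, h⟩

theorem sep_closed (hM : WeakMTW g) {τ₁ : ℝ} (h1 : τ₁ < 1) (hA : Alw g y α τ₁) :
    IsClosed {τ | τ ∈ Icc 0 τ₁ ∧ ¬ Sep g y α τ} := by
  obtain ⟨ρ, hρ, H⟩ := unif hM h1 hA
  rw [isClosed_iff_ultrafilter]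
  intro τ₀ l hl hF
  have hch : ∀ τ : ℝ, ∃ x x' v v', τ ∈ Icc 0 τ₁ ∧ ¬ Sep g y α τ → v ∈ Lam g y α x ∧
      v' ∈ Lam g y α x' ∧ g.exp x (τ • v) = g.exp x' (τ • v') ∧ ρ ≤ rdist g x x' := by
    intro τ
    by_cases h : τ ∈ Icc 0 τ₁ ∧ ¬ Sep g y α τ
    · obtain ⟨hτ, h'⟩ := h
      simp only [Sep, not_forall] at h'
      obtain ⟨x, x', v, hv, v', hv', he, hne⟩ := h'
      refine ⟨x, x', v, v', fun _ => ⟨hv, hv', he, ?_⟩⟩
      by_contra hlt
      have a := H x τ hτ v hv x' (not_le.1 hlt).le (Ne.symm hne)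
      have b := H x' τ hτ v' hv' x (by rw [rdist_comm]; exact (not_le.1 hlt).le) hne
      rw [he] at a
      linarith
    · exact ⟨y true, y true, 0, 0, fun h' => absurd h' h⟩
  choose x x' v v' hc using hch
  have hF' : ∀ᶠ τ in l, τ ∈ Icc 0 τ₁ ∧ ¬ Sep g y α τ := hF
  obtain ⟨x₀, v₀, hv₀, h₀⟩ := exists_lim l x v (hF'.mono fun τ h => (hc τ h).1)
  obtain ⟨x₀', v₀', hv₀', h₀'⟩ := exists_lim l x' v' (hF'.mono fun τ h => (hc τ h).2.1)
  have hτ : Tendsto (fun τ : ℝ => τ) l (𝓝 τ₀) := hl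
  refine ⟨isClosed_Icc.mem_of_tendsto hτ (hF'.mono fun τ h => h.1), fun hs => ?_⟩
  have he := tendsto_nhds_unique_of_eventuallyEq (TC.exp g (h₀.smul hτ)) (TC.exp g (h₀'.smul hτ))
    (hF'.mono fun τ h => (hc τ h).2.2.1)
  have hx := hs x₀ x₀' v₀ hv₀ v₀' hv₀' he
  have hd := ge_of_tendsto (((continuous_rdist g).tendsto (x₀, x₀')).comp (h₀.1.prodMk_nhds h₀'.1))
    (hF'.mono fun τ h => (hc τ h).2.2.2)
  rw [hx, rdist_self] at hd
  linarith

theorem sep_all (hM : WeakMTW g) {τ₁ : ℝ} (h0 : 0 ≤ τ₁) (h1 : τ₁ < 1) (hA : Alw g y α τ₁) :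
    Sep g y α τ₁ := by
  by_contra h
  set F := {τ | τ ∈ Icc 0 τ₁ ∧ ¬ Sep g y α τ} with hF
  have hne : F.Nonempty := ⟨τ₁, ⟨h0, le_rfl⟩, h⟩
  have hb : BddBelow F := ⟨0, fun τ hτ => hτ.1.1⟩
  obtain ⟨⟨a, b⟩, c⟩ := (sep_closed hM h1 hA).csInf_mem hne hb
  rcases a.eq_or_lt with a | a
  · refine c fun x x' v _ v' _ he => ?_
    rwa [← a, zero_smul, zero_smul, g.exp_zero, g.exp_zero] at he
  · have h2 := (sep_open hM a (b.trans_lt h1) (hA.mono a.le b) c).filter_mono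
      (nhdsWithin_le_nhds (s := Iio (sInf F)))
    obtain ⟨τ, h3, h4⟩ := (h2.and (Ioo_mem_nhdsLT a)).exists
    exact absurd (csInf_le hb ⟨⟨h4.1.le, h4.2.le.trans b⟩, h3⟩) (not_le.2 h4.2)

theorem min_of_sep {τ : ℝ} (h0 : 0 < τ) (h : Sep g y α τ) {x : M} {v : E} (hv : v ∈ Lam g y α x)
    (z : M) : τ * phi g y α x + cost g x (g.exp x (τ • v)) ≤
      τ * phi g y α z + cost g z (g.exp x (τ • v)) := by
  have hc : Continuous fun z => τ * phi g y α z + cost g z (g.exp x (τ • v)) :=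
    (continuous_const.mul (continuous_phi g y α)).add
      ((continuous_cost g).comp (continuous_id.prodMk continuous_const))
  obtain ⟨z₀, -, hz⟩ := isCompact_univ.exists_isMinOn ⟨x, mem_univ x⟩ hc.continuousOn
  obtain ⟨w, hw, hm⟩ := hopf_rinow g z₀ (g.exp x (τ • v))
  have h1 := (subG_of_min (f := phi g y α) h0 hm fun z => by
    rw [hw]; exact hz (mem_univ z)).mem_Lam
  have h2 := h x z₀ v hv _ h1 (by rw [smul_inv_smul₀ h0.ne', hw])
  subst h2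
  exact hz (mem_univ z)

theorem min_of_lt {τ : ℝ} (h0 : 0 < τ) (h : ∀ τ' ∈ Ico 0 τ, Alw g y α τ') {x : M} {v : E}
    (hv : v ∈ Lam g y α x) : Min g x (τ • v) := by
  have h1 : Tendsto (fun τ' : ℝ => τ' • v) (𝓝[<] τ) (𝓝 (τ • v)) :=
    ((continuous_id.smul continuous_const).tendsto τ).mono_left nhdsWithin_le_nhds
  refine TC.min g (TC.const_base.2 h1) ?_
  filter_upwards [Ioo_mem_nhdsLT h0] with τ' a
  exact min_of_inj (h τ' ⟨a.1.le, a.2⟩ x v hv)

theorem alw_closed (hM : WeakMTW g) {τ : ℝ} (h0 : 0 < τ) (h1 : τ < 1)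
    (h : ∀ τ' ∈ Ico 0 τ, Alw g y α τ') : Alw g y α τ := by
  have hS : ∀ τ' ∈ Ioo 0 τ, Sep g y α τ' := fun τ' a =>
    sep_all hM a.1.le (a.2.trans h1) (h τ' ⟨a.1.le, a.2⟩)
  intro x v hv
  refine (conv hM h0.le h1 (fun v hv => min_of_lt h0 h hv) ?_ v hv).1
  intro v hv hnc B hB hg w hw he
  have hexp : ∀ u : E, Continuous fun τ' : ℝ => g.exp x (τ' • u) := fun u =>
    (g.continuous_exp x).comp (continuous_id.smul continuous_const)
  have hmin : ∀ z, τ * phi g y α x + cost g x (g.exp x (τ • v)) ≤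
      τ * phi g y α z + cost g z (g.exp x (τ • v)) := fun z => by
    have hc : ∀ z, Tendsto (fun τ' : ℝ => τ' * phi g y α z + cost g z (g.exp x (τ' • v))) (𝓝[<] τ)
        (𝓝 (τ * phi g y α z + cost g z (g.exp x (τ • v)))) := fun z =>
      (((continuous_id.mul continuous_const).add ((continuous_cost g).comp
        (continuous_const.prodMk (hexp v)))).tendsto τ).mono_left nhdsWithin_le_nhds
    refine le_of_tendsto_of_tendsto (hc x) (hc z) ?_
    filter_upwards [Ioo_mem_nhdsLT h0] with τ' a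
    exact min_of_sep a.1 (hS τ' a) hv z
  have hv' := (subG_of_min (f := phi g y α) h0 hw (by rw [he]; exact hmin)).mem_Lam
  by_contra hne
  obtain ⟨U, U', hU, hU', hw', hv'', hd⟩ := t2_separation hne
  have hN : Prod.snd ⁻¹' U' ∈ 𝓝 (chartAt E x x, τ • v) :=
    continuousAt_snd.preimage_mem_nhds (hU'.mem_nhds hv'')
  have h2 := pers hnc (min_of_lt h0 h hv) hB hg hN
  have h3 : Tendsto (fun τ' : ℝ => (τ', g.exp x (τ' • τ⁻¹ • w))) (𝓝 τ)
      (𝓝 (τ, g.exp x (τ • v))) := by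
    have := (continuous_id.prodMk (hexp (τ⁻¹ • w))).tendsto τ
    rwa [smul_inv_smul₀ h0.ne', he] at this
  have h4 : Tendsto (fun τ' : ℝ => τ' • τ⁻¹ • w) (𝓝 τ) (𝓝 w) := by
    have : Tendsto (fun τ' : ℝ => τ' • τ⁻¹ • w) (𝓝 τ) (𝓝 (τ • τ⁻¹ • w)) :=
      (continuous_id.smul continuous_const).tendsto τ
    rwa [smul_inv_smul₀ h0.ne'] at this
  obtain ⟨τ', ⟨a, b⟩, c⟩ := ((((h3.eventually h2).and (h4.eventually (hU.mem_nhds hw'))).filter_mono
    (nhdsWithin_le_nhds (s := Iio τ))).and (Ioo_mem_nhdsLT h0)).exists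
  obtain ⟨z, -, u, hu, d, f⟩ := a c.1
  have hz := hS τ' c z x u hu _ hv' f
  subst hz
  have h5 := inj_uniq (h τ' ⟨c.1.le, c.2⟩ z _ hv') _ (min_of_inj (h τ' ⟨c.1.le, c.2⟩ z u hu)) f
  rw [mem_preimage, tr_self, h5] at d
  exact Set.disjoint_left.1 hd b d

theorem alw_open {τ : ℝ} (h : Alw g y α τ) : ∀ᶠ τ' in 𝓝 τ, Alw g y α τ' := by
  by_contra hn
  rw [not_eventually] at hn
  haveI := frequently_iff_neBot.1 hn
  obtain ⟨l, hl'⟩ := Ultrafilter.exists_le (𝓝 τ ⊓ 𝓟 {τ' | ¬ Alw g y α τ'})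
  have hl := hl'.trans inf_le_left
  have hF : ∀ᶠ τ' in l, ¬ Alw g y α τ' := le_principal_iff.1 (hl'.trans inf_le_right)
  have hch : ∀ τ' : ℝ, ∃ x v, ¬ Alw g y α τ' → v ∈ Lam g y α x ∧ τ' • v ∉ injDom g x := by
    intro τ'
    by_cases h' : Alw g y α τ'
    · exact ⟨y true, 0, fun a => absurd h' a⟩
    · simp only [Alw, not_forall] at h'
      obtain ⟨x, v, hv, h''⟩ := h'
      exact ⟨x, v, fun _ => ⟨hv, h''⟩⟩
  choose x v hc using hch
  obtain ⟨x₀, v₀, hv₀, h₀⟩ := exists_lim l x v (hF.mono fun τ h => (hc τ h).1)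
  have hτ : Tendsto (fun τ : ℝ => τ) l (𝓝 τ) := hl
  obtain ⟨τ', a, b⟩ := (hF.and ((h₀.smul hτ).inj (h x₀ v₀ hv₀))).exists
  exact (hc τ' a).2 b

theorem alw_all (hM : WeakMTW g) {τ : ℝ} (hτ : τ ∈ Ico (0 : ℝ) 1) : Alw g y α τ := by
  by_contra h
  set T := {τ | τ ∈ Ico (0 : ℝ) 1 ∧ ¬ Alw g y α τ} with hT
  have hne : T.Nonempty := ⟨τ, hτ, h⟩
  have hb : BddBelow T := ⟨0, fun τ hτ => hτ.1.1⟩
  have h0 : 0 ≤ sInf T := le_csInf hne fun τ hτ => hτ.1.1
  have h1 : sInf T < 1 := (csInf_le hb ⟨hτ, h⟩).trans_lt hτ.2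
  have hA : Alw g y α (sInf T) := by
    rcases h0.eq_or_lt with a | a
    · intro x v _
      have hm : Min g x 0 := by rw [Min, g.exp_zero, rdist_self, nrm_zero]
      rw [← a, zero_smul, ← zero_smul ℝ (0 : E)]
      exact hm.smul_inj le_rfl one_pos
    · refine alw_closed hM a h1 fun τ' b => ?_
      by_contra c
      exact absurd (csInf_le hb ⟨⟨b.1, b.2.trans h1⟩, c⟩) (not_le.2 b.2)
  obtain ⟨τ', a, b⟩ := ((mem_closure_iff_frequently.1 (csInf_mem_closure hne hb)).and_eventually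
    (alw_open hA)).exists
  exact a.2 b

theorem villani (hM : WeakMTW g) (x : M) : Convex ℝ (injDom g x) := by
  intro v₀ h₀ v₁ h₁ s t hs ht hst
  obtain ⟨a₀, ha₀, m₀⟩ := mem_injDom.1 h₀
  obtain ⟨a₁, ha₁, m₁⟩ := mem_injDom.1 h₁
  have key : ∀ {a c : ℝ} {v : E}, 1 < c → c ≤ a → Min g x (a • v) → Min g x (c • v) :=
    fun {a c v} h1 h2 m => by
      have := m.smul (c := c / a) (div_nonneg (by linarith) (by linarith))
        ((div_le_one (by linarith)).2 h2)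
      rwa [smul_smul, div_mul_cancel₀ _ (by linarith)] at this
  have hc : 1 < min a₀ a₁ := lt_min ha₀ ha₁
  set c := min a₀ a₁
  set u : Bool → E := fun b => if b then c • v₁ else c • v₀ with hu
  have hm : ∀ b, Min g x (u b) := fun b => by
    cases b
    · exact key hc (min_le_left _ _) m₀
    · exact key hc (min_le_right _ _) m₁
  have hS : ∀ b, u b ∈ Lam g (fun b => g.exp x (u b)) (fun b => cost g x (g.exp x (u b))) x :=
    fun b => subset_convexHull ℝ _ ⟨hm b, b, rfl, by simp [phi]⟩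
  have h2 := convex_convexHull ℝ _ (hS false) (hS true) hs ht hst
  have h3 := min_of_lt one_pos (fun τ' hτ => alw_all hM hτ) h2
  refine mem_injDom.2 ⟨c, hc, ?_⟩
  convert h3 using 1
  simp only [hu, one_smul, smul_add, smul_comm c]
  rfl

end Vale.Agent.P234
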