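import Vale.Agent.P234.DepN
import Vale.Agent.P255.Jac

/-!
# First variation formula  (TASK)

`gauss2`: the proof of `IsJacobi.gauss` in `P255/Jac.lean` without the assumption `J 0 = 0`.
`first_var`: `gauss2` for `varE` at `t = 1`; in the chart `e` at time `0` one has `J = δ.1`,
`deriv J = δ.2` (`varE_eq`, `varE_hasDerivAt`, `stE_zero` near `q`), velocity `q.2`, and
`G (chr w δ.1) w = fderiv G δ.1 w w / 2` (`LocMetric.fderiv_eq`, `chr_symm`).
`state_inj`: `IsJacobi.eq_zero` from time `1`, so all components of `J` vanish (first clause of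
`IsJacobi`), in particular `varE .. e = 0` near `0`, whose derivative at `0` is `k`.
`fderiv_bE_zero`: `bE (a, 0) = a` near `a`, and `s ↦ bE (a, s • h) = e (geoE a h s)` has derivative `h`.
`geoE_pE`: `pE q = tr e' _ (vel ..)` (`hasDerivAt_geo`), `geo_vel`.
-/

namespace Vale.Agent.P234

open scoped ContDiff Topology Manifold
open Vale.Agent.P255 Set Filter

variable {E M : Type*} [NormedAddCommGroup E] [NormedSpace ℝ E] [FiniteDimensional ℝ E]
  [TopologicalSpace M] [ChartedSpace E M] [IsManifold 𝓘(ℝ, E) ∞ M] [T2Space M] [CompactSpace M]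
  {e e' : OpenPartialHomeomorph M E} (g : Metric E M)

omit [T2Space M] [CompactSpace M] in
theorem gauss2 {γ : ℝ → M} {J : OpenPartialHomeomorph M E → ℝ → E} (hJ : g.IsJacobi γ univ J)
    (hγ : g.IsGeodesic γ univ) (he : e ∈ atlas E M) (h0 : γ 0 ∈ e.source) (he' : e' ∈ atlas E M)
    {t : ℝ} (ht : γ t ∈ e'.source) :
    g.g e' (e' (γ t)) (J e' t) (deriv (e' ∘ γ) t) = g.g e (e (γ 0)) (J e 0) (deriv (e ∘ γ) 0) +
      t * g.g e (e (γ 0)) (g.cov γ e (J e) 0) (deriv (e ∘ γ) 0) := by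
  have hc : ∀ t, γ t ∈ (chartAt E (γ t)).source := fun t => mem_chart_source E _
  have ha : ∀ t, chartAt E (γ t) ∈ atlas E M := fun t => chart_mem_atlas E _
  set m : ℝ → ℝ := fun t => g.ip (γ t) (J (chartAt E (γ t)) t) (vel E γ t) with hm
  have e0 : ∀ {e}, e ∈ atlas E M → ∀ {t}, γ t ∈ e.source →
      m t = g.g e (e (γ t)) (J e t) (deriv (e ∘ γ) t) := fun {e} he {t} hx => by
    rw [g.compat e he _ (ha t) _ hx (hc t), ← hJ.1 e he _ (ha t) t trivial hx (hc t),
      ← (hasDerivAt_chart he (ha t) (hγ.1.continuousAt Filter.univ_mem) hx (hc t)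
        (hγ.2 e he t trivial hx).1.hasDerivAt).deriv]
    rfl
  have d1 : ∀ {e}, e ∈ atlas E M → ∀ {t}, γ t ∈ e.source →
      HasDerivAt m (g.g e (e (γ t)) (g.cov γ e (J e) t) (deriv (e ∘ γ) t)) t :=
    fun {e} he {t} hx => by
    have hev := hγ.eventually isOpen_univ he trivial hx
    have := (g.loc he).hasDerivAt_inner (x := e ∘ γ) (e.map_source hx) hev.self_of_nhds.2.2.1
      (hJ.2 e he t trivial hx).1.hasDerivAt hev.self_of_nhds.2.2.2
    refine (this.congr_of_eventuallyEq (hev.mono fun t' h => e0 he h.2.1)).congr_deriv ?_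
    simp [Metric.cov]
  have d2 : ∀ t, HasDerivAt (deriv m) 0 t := fun t => by
    have hev := hγ.eventually isOpen_univ (ha t) trivial (hc t)
    have := (g.loc (ha t)).hasDerivAt_inner (x := chartAt E (γ t) ∘ γ)
      ((chartAt E (γ t)).map_source (hc t)) hev.self_of_nhds.2.2.1
      (hJ.hasDerivAt_cov_jac (ha t) trivial (hc t)) hev.self_of_nhds.2.2.2
    refine (this.congr_of_eventuallyEq (hev.mono fun t' h => (d1 (ha t) h.2.1).deriv)).congr_deriv ?_
    simp only [Function.comp_apply, Metric.sub_add_cancel_jac, map_neg, neg_add_cancel, map_zero,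
      add_zero, neg_apply, neg_eq_zero]
    exact (g.loc (ha t)).riem_skew ((chartAt E (γ t)).map_source (hc t)) _ _ _
  have c1 : ∀ t, deriv m t = deriv m 0 := fun t =>
    is_const_of_deriv_eq_zero (fun t => (d2 t).differentiableAt) (fun t => (d2 t).deriv) t 0
  have d3 : ∀ t, HasDerivAt (fun t => m t - t * deriv m 0) 0 t := fun t => by
    have := (d1 (ha t) (hc t)).differentiableAt.hasDerivAt.fun_sub
      ((hasDerivAt_id t).mul_const (deriv m 0))
    simpa [c1 t] using this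
  have c2 := is_const_of_deriv_eq_zero (fun t => (d3 t).differentiableAt) (fun t => (d3 t).deriv) t 0
  rw [← e0 he' ht, ← e0 he h0, ← (d1 he h0).deriv]
  simp only [zero_mul, sub_zero] at c2
  linarith

/-- End point in the chart `e'`. -/
noncomputable def bE (e e' : OpenPartialHomeomorph M E) (q : E × E) : E := e' (expE g e q.1 q.2)

/-- End velocity in the chart `e'`. -/
noncomputable def pE (e e' : OpenPartialHomeomorph M E) (q : E × E) : E :=
  deriv (e' ∘ geoE g e q.1 q.2) 1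

variable {q : E × E}

theorem contDiffAt_bE (n : ℕ) (he : e ∈ atlas E M) (he' : e' ∈ atlas E M) (hq : q.1 ∈ e.target)
    (h : expE g e q.1 q.2 ∈ e'.source) : ContDiffAt ℝ n (bE g e e') q :=
  (depN g n he he' hq h).2.fst

theorem contDiffAt_pE (n : ℕ) (he : e ∈ atlas E M) (he' : e' ∈ atlas E M) (hq : q.1 ∈ e.target)
    (h : expE g e q.1 q.2 ∈ e'.source) : ContDiffAt ℝ n (pE g e e') q :=
  (depN g n he he' hq h).2.snd

theorem fv_st_zero (he : e ∈ atlas E M) (hq : q.1 ∈ e.target) (δ : E × E) :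
    fderiv ℝ (fun p => stE g e e p 0) q δ = δ := by
  have h : (fun p => stE g e e p 0) =ᶠ[𝓝 q] id := by
    filter_upwards [continuous_fst.continuousAt.preimage_mem_nhds (e.open_target.mem_nhds hq)]
      with p hp
    exact stE_zero g he hp
  rw [h.fderiv_eq, fderiv_id]
  rfl

theorem fv_st_snd (he : e ∈ atlas E M) (he' : e' ∈ atlas E M) (hq : q.1 ∈ e.target)
    (h : expE g e q.1 q.2 ∈ e'.source) (δ : E × E) :
    (fderiv ℝ (fun p => stE g e e' p 1) q δ).2 = fderiv ℝ (pE g e e') q δ := by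
  have hA := ((depN g 1 he he' hq (t := 1) h).2.differentiableAt (by simp)).hasFDerivAt
  have h1 : fderiv ℝ (pE g e e') q = _ := hA.snd.fderiv
  rw [h1]
  rfl

theorem first_var (he : e ∈ atlas E M) (he' : e' ∈ atlas E M) (hq : q.1 ∈ e.target)
    (h : expE g e q.1 q.2 ∈ e'.source) (δ : E × E) :
    g.g e' (bE g e e' q) (pE g e e' q) (fderiv ℝ (bE g e e') q δ) =
      g.g e q.1 q.2 δ.1 + (fderiv ℝ (g.g e) q.1 δ.1 q.2 q.2 / 2 + g.g e q.1 q.2 δ.2) := by
  have hγ0 : geoE g e q.1 q.2 0 = e.symm q.1 := geoE_zero g _ _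
  have h0 : geoE g e q.1 q.2 0 ∈ e.source := by rw [hγ0]; exact e.map_target hq
  have key := gauss2 g (varE_isJacobi g he hq δ) (g.geo_isGeodesic _ _) he h0 he' (t := 1) h
  have h1 : e (geoE g e q.1 q.2 0) = q.1 := by rw [hγ0, e.right_inv hq]
  have h2 : deriv (e ∘ geoE g e q.1 q.2) 0 = q.2 := (geoE_deriv g he hq _).deriv
  have h3 : varE g e q δ e 0 = δ.1 := by rw [varE_eq g he he hq h0, fv_st_zero g he hq]
  have h4 : deriv (varE g e q δ e) 0 = δ.2 := by
    rw [(varE_hasDerivAt g he he hq h0 δ).deriv, fv_st_zero g he hq]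
  rw [Metric.cov, h1, h2, h3, h4, one_mul, map_add, add_apply] at key
  have hl := g.loc he
  have h5 := hl.fderiv_eq hq δ.1 q.2 q.2
  rw [hl.symm _ hq q.2 (chr _ _ _ _), hl.chr_symm hq δ.1 q.2] at h5
  have hb : bE g e e' q ∈ e'.target := e'.map_source h
  rw [(g.loc he').symm _ hb, hl.symm _ hq q.2 δ.1, hl.symm _ hq q.2 δ.2, h5]
  refine Eq.trans key ?_
  ring

theorem state_inj (he : e ∈ atlas E M) (he' : e' ∈ atlas E M) (hq : q.1 ∈ e.target)
    (h : expE g e q.1 q.2 ∈ e'.source) {k : E} (h1 : fderiv ℝ (bE g e e') q (0, k) = 0)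
    (h2 : fderiv ℝ (pE g e e') q (0, k) = 0) : k = 0 := by
  have hJ := varE_isJacobi g he hq (0, k)
  have hγ0 : geoE g e q.1 q.2 0 = e.symm q.1 := geoE_zero g _ _
  have h0 : geoE g e q.1 q.2 0 ∈ e.source := by rw [hγ0]; exact e.map_target hq
  have h3 : deriv (varE g e q (0, k) e') 1 = 0 := by
    rw [(varE_hasDerivAt g he he' hq (t := 1) h (0, k)).deriv, fv_st_snd g he he' hq h, h2]
  have h4 : ∀ t, varE g e q (0, k) (chartAt E (geoE g e q.1 q.2 t)) t = 0 := fun t =>
    hJ.eq_zero (g.geo_isGeodesic _ _) isOpen_univ isPreconnected_univ he' (mem_univ 1) h h1 h3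
      (mem_univ t)
  have h5 : varE g e q (0, k) e =ᶠ[𝓝 0] fun _ => 0 := by
    have hc : ContinuousAt (geoE g e q.1 q.2) 0 := (g.continuous_geo _ _).continuousAt
    filter_upwards [hc.preimage_mem_nhds (e.open_source.mem_nhds h0)] with t ht
    rw [hJ.1 _ (chart_mem_atlas E _) e he t trivial (mem_chart_source E _) ht, h4 t, map_zero]
  have h6 := (varE_hasDerivAt g he he hq h0 (0, k)).deriv
  rw [fv_st_zero g he hq, h5.deriv_eq, deriv_const] at h6
  exact h6.symm

theorem bE_zero {a : E} (ha : a ∈ e.target) : bE g e e (a, 0) = a := by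
  rw [bE, expE_zero, e.right_inv ha]

theorem fderiv_bE_zero (he : e ∈ atlas E M) {a : E} (ha : a ∈ e.target) (δ : E × E) :
    fderiv ℝ (bE g e e) (a, 0) δ = δ.1 + δ.2 := by
  have hs : expE g e a 0 ∈ e.source := by rw [expE_zero]; exact e.map_target ha
  have hd : HasFDerivAt (bE g e e) (fderiv ℝ (bE g e e) (a, 0)) (a, 0) :=
    ((contDiffAt_bE g (q := (a, 0)) 1 he he ha hs).differentiableAt (by simp)).hasFDerivAt
  have h1 : fderiv ℝ (bE g e e) (a, 0) (δ.1, 0) = δ.1 := by
    have k1 := hd.comp a (hasFDerivAt_prodMk_left (𝕜 := ℝ) a (0 : E))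
    have k2 : HasFDerivAt (bE g e e ∘ fun x : E => (x, (0 : E))) (ContinuousLinearMap.id ℝ E) a := by
      refine (hasFDerivAt_id a).congr_of_eventuallyEq ?_
      filter_upwards [e.open_target.mem_nhds ha] with x hx
      exact bE_zero g hx
    exact congrArg (fun L : E →L[ℝ] E => L δ.1) (k1.unique k2)
  have h2 : fderiv ℝ (bE g e e) (a, 0) (0, δ.2) = δ.2 := by
    have k0 : HasDerivAt (fun s : ℝ => (a, s • δ.2)) ((0 : E), δ.2) 0 := by
      simpa using (hasDerivAt_const (0 : ℝ) a).prodMk ((hasDerivAt_id (0 : ℝ)).smul_const δ.2)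
    have hd' : HasFDerivAt (bE g e e) (fderiv ℝ (bE g e e) (a, 0)) (a, (0 : ℝ) • δ.2) := by
      rwa [zero_smul]
    have k1 := hd'.comp_hasDerivAt (0 : ℝ) k0
    have k2 : (bE g e e ∘ fun s : ℝ => (a, s • δ.2)) = e ∘ geoE g e a δ.2 := by
      funext s
      simp only [Function.comp_apply, bE, expE, geoE_smul, mul_one]
    rw [k2] at k1
    exact k1.unique (geoE_deriv g he ha _)
  have h3 : δ = (δ.1, 0) + (0, δ.2) := by simp
  conv_lhs => rw [h3, map_add, h1, h2]

theorem pE_speed (he : e ∈ atlas E M) (he' : e' ∈ atlas E M) (hq : q.1 ∈ e.target)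
    (h : expE g e q.1 q.2 ∈ e'.source) :
    g.g e' (bE g e e' q) (pE g e e' q) (pE g e e' q) = g.g e q.1 q.2 q.2 := by
  have h1 := (g.geo_isGeodesic (e.symm q.1) (trI e (e.symm q.1) q.2)).speed_chart isOpen_univ he'
    (mem_univ 1) h
  rw [g.geo_speed, ip_trI g he hq] at h1
  exact h1

theorem geoE_pE (he' : e' ∈ atlas E M) (h : expE g e q.1 q.2 ∈ e'.source) (c s : ℝ) :
    geoE g e' (bE g e e' q) (c • pE g e e' q) s = geoE g e q.1 q.2 (1 + c * s) := by
  have h1 : pE g e e' q = tr e' (expE g e q.1 q.2) (vel E (geoE g e q.1 q.2) 1) :=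
    (hasDerivAt_geo g he' _ _ (t := 1) h).deriv
  rw [h1, ← map_smul, bE, geoE_tr g he' h]
  exact geo_vel g _ _ 1 c s

/-- The end velocity of a rescaled geodesic. -/
theorem pE_smul (a w : E) (t : ℝ) :
    pE g e e' (a, t • w) = t • deriv (e' ∘ geoE g e a w) t := by
  have h1 := Metric.geo2_deriv_affine (e' ∘ geoE g e a w) t 0 1
  rw [mul_one, add_zero] at h1
  rw [← h1, pE]
  congr 1
  funext s
  simp only [Function.comp_apply, geoE_smul, add_zero]

/-- The fibre derivative of `exp` in terms of `bE`. -/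
theorem fderiv_exp_eq (he' : e' ∈ atlas E M) {x : M} {w : E} (h : g.exp x w ∈ e'.source) (k : E) :
    fderiv ℝ (e' ∘ g.exp x) w k = fderiv ℝ (bE g (chartAt E x) e') (chartAt E x x, w) (0, k) := by
  have hx : chartAt E x x ∈ (chartAt E x).target := mem_chart_target E x
  have hs : expE g (chartAt E x) (chartAt E x x) w ∈ e'.source := by rwa [expE_self]
  have hd := ((contDiffAt_bE g (q := (chartAt E x x, w)) 1 (chart_mem_atlas E x) he' hx
    hs).differentiableAt (by simp)).hasFDerivAt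
  have k1 := hd.comp w (hasFDerivAt_prodMk_right (𝕜 := ℝ) (chartAt E x x) w)
  have k2 : (bE g (chartAt E x) e' ∘ fun v : E => (chartAt E x x, v)) = e' ∘ g.exp x := by
    funext v
    simp only [Function.comp_apply, bE, expE_self]
  rw [k2] at k1
  rw [k1.fderiv]
  rfl

end Vale.Agent.P234
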