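import Vale.Agent.P234.Dist
import Vale.Agent.P234.FirstVar

/-!
# The exponential maps are uniformly Lipschitz on balls  (TASK; short)

`lip_deriv`: otherwise there are `x n, u n, h n` with `nrm (h n) = 1` and unbounded left side; take an
ultrafilter `l ≤ atTop`, limits `x, u, h` (`TC.of_bounded`), `e = chartAt x`, `e' = chartAt (exp x u)`; the left
side is chart independent (`g.compat`, chain rule) and equals
`G' (bE q) (fderiv bE q (0,k)) (fderiv bE q (0,k))` with `q = (e (x n), tr e _ (u n))`, `k = tr e _ (h n)`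
(`expE_tr`), which converges (`contDiffAt_bE 1`).
`lip`: the curve `s ↦ exp x (b + s • (a - b))` is `C¹` (`c1_of_charts`, `contDiffAt_exp`), its speed is at most
`L * nrm (a - b)` on `[0,1]` (`spd_chart`, `convex_nrm_le`); `rdist_le_length`.
-/

namespace Vale.Agent.P234

open scoped ContDiff Topology Manifold
open Vale.Agent.P255 Set Filter

variable {E M : Type*} [NormedAddCommGroup E] [NormedSpace ℝ E] [FiniteDimensional ℝ E]
  [TopologicalSpace M] [ChartedSpace E M] [IsManifold 𝓘(ℝ, E) ∞ M] [T2Space M] [CompactSpace M]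
  [ConnectedSpace M] {e e' : OpenPartialHomeomorph M E} (g : Metric E M)

omit [ConnectedSpace M] in
theorem lip_tr (he' : e' ∈ atlas E M) {x : M} {u : E} (hy : g.exp x u ∈ e'.source) (h : E) :
    tr e' (g.exp x u) (fderiv ℝ (chartAt E (g.exp x u) ∘ g.exp x) u h) =
      fderiv ℝ (e' ∘ g.exp x) u h := by
  have hc : g.exp x u ∈ (chartAt E (g.exp x u)).source := mem_chart_source E _
  have ha : chartAt E (g.exp x u) ∈ atlas E M := chart_mem_atlas E _
  have h1 := ((g.contDiffAt_exp x u ha hc).differentiableAt (by simp)).hasFDerivAt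
  have h2 := ((tr_contDiffAt ha he' hc hy).differentiableAt (by simp)).hasFDerivAt
  have h3 := h2.comp u h1
  have h4 : e' ∘ g.exp x =ᶠ[𝓝 u] (e' ∘ (chartAt E (g.exp x u)).symm) ∘
      (chartAt E (g.exp x u) ∘ g.exp x) := by
    filter_upwards [(g.continuous_exp x).continuousAt.preimage_mem_nhds
      ((chartAt E (g.exp x u)).open_source.mem_nhds hc)] with v hv
    simp only [Function.comp_apply]
    rw [(chartAt E (g.exp x u)).left_inv hv]
  rw [(h3.congr_of_eventuallyEq h4).fderiv]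
  rfl

omit [ConnectedSpace M] in
theorem lip_bE (he : e ∈ atlas E M) (he' : e' ∈ atlas E M) {x : M} (hx : x ∈ e.source) {u : E}
    (hy : g.exp x u ∈ e'.source) (h : E) :
    fderiv ℝ (e' ∘ g.exp x) u h = fderiv ℝ (bE g e e') (e x, tr e x u) (0, tr e x h) := by
  have hs : expE g e (e x) (tr e x u) ∈ e'.source := by rwa [expE_tr g he hx]
  have hd := ((contDiffAt_bE g (q := (e x, tr e x u)) 1 he he' (e.map_source hx)
    hs).differentiableAt (by simp)).hasFDerivAt
  have k0 : HasFDerivAt (fun v : E => (e x, tr e x v))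
      ((0 : E →L[ℝ] E).prod (tr e x)) u :=
    (hasFDerivAt_const (e x) u).prodMk (tr e x).hasFDerivAt
  have k1 := hd.comp u k0
  have k2 : (bE g e e' ∘ fun v : E => (e x, tr e x v)) = e' ∘ g.exp x := by
    funext v
    simp only [Function.comp_apply, bE, expE_tr g he hx]
  rw [k2] at k1
  rw [k1.fderiv]
  rfl

omit [ConnectedSpace M] in
theorem lip_chart (he : e ∈ atlas E M) (he' : e' ∈ atlas E M) {x : M} (hx : x ∈ e.source) {u : E}
    (hy : g.exp x u ∈ e'.source) (h : E) :
    nrm g (g.exp x u) (fderiv ℝ (chartAt E (g.exp x u) ∘ g.exp x) u h) =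
      √(g.g e' (bE g e e' (e x, tr e x u))
        (fderiv ℝ (bE g e e') (e x, tr e x u) (0, tr e x h))
        (fderiv ℝ (bE g e e') (e x, tr e x u) (0, tr e x h))) := by
  rw [nrm, ipr_eq, ip_eq g he' hy, lip_tr g he' hy, lip_bE g he he' hx hy, bE, expE_tr g he hx]

omit [ConnectedSpace M] in
theorem lip_tendsto {ι : Type*} {l : Filter ι} {x : ι → M} {u h : ι → E} {x₀ : M} {u₀ h₀ : E}
    (hu : TC l x u x₀ u₀) (hh : TC l x h x₀ h₀) : ∃ c, Tendsto (fun i => nrm g (g.exp (x i) (u i))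
      (fderiv ℝ (chartAt E (g.exp (x i) (u i)) ∘ g.exp (x i)) (u i) (h i))) l (𝓝 c) := by
  set e := chartAt E x₀ with hed
  set e' := chartAt E (g.exp x₀ u₀) with hed'
  have he : e ∈ atlas E M := chart_mem_atlas E _
  have he' : e' ∈ atlas E M := chart_mem_atlas E _
  have hx : x₀ ∈ e.source := mem_chart_source E _
  have hy : g.exp x₀ u₀ ∈ e'.source := mem_chart_source E _
  have hs : expE g e (e x₀) u₀ ∈ e'.source := by rwa [hed, expE_self]
  have hb := contDiffAt_bE g (q := (e x₀, u₀)) 1 he he' (e.map_source hx) hs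
  have hq : Tendsto (fun i => (e (x i), tr e (x i) (u i))) l (𝓝 (e x₀, u₀)) :=
    ((e.continuousAt hx).tendsto.comp hu.1).prodMk_nhds hu.2
  have hk : Tendsto (fun i => ((0 : E), tr e (x i) (h i))) l (𝓝 (0, h₀)) :=
    tendsto_const_nhds.prodMk_nhds hh.2
  have hD : Tendsto (fun i => fderiv ℝ (bE g e e') (e (x i), tr e (x i) (u i))) l
      (𝓝 (fderiv ℝ (bE g e e') (e x₀, u₀))) :=
    (hb.continuousAt_fderiv (by simp)).tendsto.comp hq
  have hDk : Tendsto (fun i => fderiv ℝ (bE g e e') (e (x i), tr e (x i) (u i))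
      (0, tr e (x i) (h i))) l (𝓝 (fderiv ℝ (bE g e e') (e x₀, u₀) (0, h₀))) :=
    (isBoundedBilinearMap_apply.continuous.tendsto _).comp (hD.prodMk_nhds hk)
  have hG : Tendsto (fun i => g.g e' (bE g e e' (e (x i), tr e (x i) (u i)))) l
      (𝓝 (g.g e' (bE g e e' (e x₀, u₀)))) :=
    (((g.loc he').loc_contDiffAt (e'.map_source hs)).continuousAt.tendsto).comp
      (hb.continuousAt.tendsto.comp hq)
  have h1 := (isBoundedBilinearMap_apply.continuous.tendsto _).comp (hG.prodMk_nhds hDk)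
  have h2 := (isBoundedBilinearMap_apply.continuous.tendsto _).comp (h1.prodMk_nhds hDk)
  refine ⟨_, h2.sqrt.congr' ?_⟩
  filter_upwards [hu.1.eventually (e.open_source.mem_nhds hx),
    (hu.exp g).eventually (e'.open_source.mem_nhds hy)] with i hi hi'
  rw [lip_chart g he he' hi hi']
  rfl

omit [ConnectedSpace M] in
theorem lip_deriv (R : ℝ) : ∃ L > 0, ∀ x u h, nrm g x u ≤ R →
    nrm g (g.exp x u) (fderiv ℝ (chartAt E (g.exp x u) ∘ g.exp x) u h) ≤ L * nrm g x h := by
  by_contra hcon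
  have key : ∀ n : ℕ, ∃ x u h, nrm g x u ≤ R ∧ nrm g x h ≤ 1 ∧ (n : ℝ) <
      nrm g (g.exp x u) (fderiv ℝ (chartAt E (g.exp x u) ∘ g.exp x) u h) := by
    intro n
    by_contra hn
    refine hcon ⟨n + 1, by positivity, fun x u h hu => ?_⟩
    by_cases h0 : h = 0
    · rw [h0, map_zero, nrm_zero, nrm_zero, mul_zero]
    have hp : 0 < nrm g x h :=
      lt_of_le_of_ne (nrm_nonneg g x h) fun hh => h0 (nrm_eq_zero g hh.symm)
    have h1 : nrm g (g.exp x u) (fderiv ℝ (chartAt E (g.exp x u) ∘ g.exp x) u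
        ((nrm g x h)⁻¹ • h)) ≤ n := by
      by_contra h2
      refine hn ⟨x, u, (nrm g x h)⁻¹ • h, hu, ?_, not_le.1 h2⟩
      rw [nrm_smul, abs_of_pos (inv_pos.2 hp), inv_mul_cancel₀ hp.ne']
    rw [map_smul, nrm_smul, abs_of_pos (inv_pos.2 hp), inv_mul_le_iff₀ hp] at h1
    nlinarith
  choose x u h hu hh hn using key
  set l : Ultrafilter ℕ := Ultrafilter.of atTop with hl
  have hle : (l : Filter ℕ) ≤ atTop := Ultrafilter.of_le _
  obtain ⟨x₀, -, hx₀⟩ := isCompact_univ.ultrafilter_le_nhds (l.map x) (by simp)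
  have hx : Tendsto x l (𝓝 x₀) := hx₀
  obtain ⟨u₀, hu₀⟩ := TC.of_bounded g hx (Eventually.of_forall hu)
  obtain ⟨h₀, hh₀⟩ := TC.of_bounded g hx (Eventually.of_forall hh)
  obtain ⟨c, hc⟩ := lip_tendsto g hu₀ hh₀
  refine not_tendsto_atTop_of_tendsto_nhds hc ?_
  exact tendsto_atTop_mono (fun n => (hn n).le) (tendsto_natCast_atTop_atTop.mono_left hle)

theorem lip (R : ℝ) : ∃ L > 0, ∀ x a b, nrm g x a ≤ R → nrm g x b ≤ R →
    rdist g (g.exp x a) (g.exp x b) ≤ L * nrm g x (a - b) := by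
  obtain ⟨L, hL, H⟩ := lip_deriv g R
  refine ⟨L, hL, fun x a b ha hb => ?_⟩
  set σ : ℝ → E := fun s => b + s • (a - b) with hσ
  have hσd : ∀ s, HasDerivAt σ (a - b) s := fun s => by
    have := ((hasDerivAt_id s).smul_const (a - b)).const_add b
    rwa [one_smul] at this
  have hσc : ContDiff ℝ 1 σ := contDiff_const.add (contDiff_id.smul contDiff_const)
  have hγ : C1 E (g.exp x ∘ σ) := by
    refine c1_of_charts ((g.continuous_exp x).comp hσc.continuous) fun t => ?_
    refine ⟨_, chart_mem_atlas E _, mem_chart_source E _, ?_⟩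
    exact (g.contDiffAt_exp x (σ t) (chart_mem_atlas E _) (mem_chart_source E _)).comp t
      hσc.contDiffAt
  have hs : ∀ t ∈ Icc (0 : ℝ) 1, spd g (g.exp x ∘ σ) t ≤ L * nrm g x (a - b) := by
    intro t ht
    have h1 : nrm g x (σ t) ≤ R := (convex_nrm_le g x R).add_smul_sub_mem hb ha ht
    have h2 := ((g.contDiffAt_exp x (σ t) (chart_mem_atlas E _)
      (mem_chart_source E _)).differentiableAt (by simp)).hasFDerivAt.comp_hasDerivAt t (hσd t)
    have h3 : vel E (g.exp x ∘ σ) t =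
        fderiv ℝ (chartAt E (g.exp x (σ t)) ∘ g.exp x) (σ t) (a - b) := h2.deriv
    rw [spd, h3]
    exact H x _ _ h1
  have h0 : (g.exp x ∘ σ) 0 = g.exp x b := by simp [hσ]
  have h1 : (g.exp x ∘ σ) 1 = g.exp x a := by simp [hσ]
  have h2 := rdist_le_length g hγ
  rw [h0, h1, rdist_comm, length_eq] at h2
  refine h2.trans ?_
  have h3 := intervalIntegral.integral_mono_on zero_le_one
    ((continuous_spd g hγ).intervalIntegrable (μ := MeasureTheory.volume) 0 1)
    (intervalIntegrable_const (c := L * nrm g x (a - b))) hs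
  simpa using h3

end Vale.Agent.P234
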