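import Vale.Agent.P234.SC
import Vale.Agent.P234.Lip

/-!
# Corners, Hopf–Rinow, the gap estimate  (TASK)

`corner`: trivial if `V = 0` or `W = 0`.  Else with `a = |V|`, `b = |W|`, for small `μ`:
`(a+b)/2 = c(p,z)/(a+b) ≤ c(p, exp μ)/a + c(exp μ, z)/b ≤ (a+b)/2 - ip (V/a + W/b) μ + C' ip μ μ` (`cost_split`,
`sc`); take `μ = t • (V/a + W/b)`, `t` small.
`hopf_rinow`: `h = ε/2` from `short`; induction on `N` for `rdist x y ≤ N h`.  If `D = rdist x y > h`, take `z`
with `rdist x z = D - h`, `rdist z y = h` (`exists_mid`), `V` from `z` to `x` (induction, `rdist_comm`), `W` from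
`z` to `y`; by `corner` `V = -λ • W`, `λ = (D - h)/h`; so `x = geo z W (-λ)` and
`u = (1 + λ) • vel (geo z W) (-λ)` works (`geo_vel`, `nrm_vel_geo`).
`gap`: `γ = geo x s`, `p = γ τ`, `v = vel γ τ`, `y = exp x s = exp p ((1-τ) • v)`, `x = exp p (-τ • v)`, `z = exp p Z`
with `Z` minimising.  For `u = exp p μ`: `τ c(z,y) ≤ c(z,u) + τ/(1-τ) c(u,y)` (`cost_split`; trivial if `τ = 0`),
`sc` at `p` twice gives `τ c(z,y) ≤ c(z,p) + τ(1-τ)|s|²/2 - ip (Z + τ v) μ + C' ip μ μ`, `C' = C (1 + 1/(1-τ₁))`;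
`μ = κ • (Z + τ • v)` with `κ = min (1/(2C')) (ρ/(2D))`; `lip`: `rdist z x ≤ L nrm (Z + τ • v)`.  Finally
`c(x,y) = |s|²/2`, `c(x,p) = τ²|s|²/2` (`Min.smul`).
-/

namespace Vale.Agent.P234

open scoped ContDiff Topology Manifold
open Vale.Agent.P255 Set Filter

variable {E M : Type*} [NormedAddCommGroup E] [NormedSpace ℝ E] [FiniteDimensional ℝ E]
  [TopologicalSpace M] [ChartedSpace E M] [IsManifold 𝓘(ℝ, E) ∞ M] [T2Space M] [CompactSpace M]
  [ConnectedSpace M] {e e' : OpenPartialHomeomorph M E} (g : Metric E M)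

theorem corner {m : M} {V W : E}
    (h : rdist g (g.exp m V) (g.exp m W) = nrm g m V + nrm g m W) :
    nrm g m W • V + nrm g m V • W = 0 := by
  by_cases hV : V = 0
  · rw [hV, nrm_zero, smul_zero, zero_smul, add_zero]
  by_cases hW : W = 0
  · rw [hW, nrm_zero, smul_zero, zero_smul, add_zero]
  set a := nrm g m V with ha
  set b := nrm g m W with hb
  have ha0 : 0 < a := lt_of_le_of_ne (nrm_nonneg g m V) fun h0 => hV (nrm_eq_zero g h0.symm)
  have hb0 : 0 < b := lt_of_le_of_ne (nrm_nonneg g m W) fun h0 => hW (nrm_eq_zero g h0.symm)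
  obtain ⟨C, ρ, hC, hρ, hsc⟩ := sc g (a + b)
  set Y := b • V + a • W with hY
  by_contra hY0
  have hn : 0 < nrm g m Y :=
    lt_of_le_of_ne (nrm_nonneg g m Y) fun h0 => hY0 (nrm_eq_zero g h0.symm)
  have hq : 0 < g.ip m Y Y := ip_pos g m Y hY0
  set t := min (ρ / nrm g m Y) (1 / (2 * C * (a + b))) with ht
  have ht0 : 0 < t := lt_min (by positivity) (by positivity)
  have ht1 : t * nrm g m Y ≤ ρ := (le_div_iff₀ hn).1 (min_le_left _ _)
  have ht2 : t * (2 * C * (a + b)) ≤ 1 := (le_div_iff₀ (by positivity)).1 (min_le_right _ _)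
  have hμ : nrm g m (t • Y) ≤ ρ := by rwa [nrm_smul, abs_of_pos ht0]
  have h1 := hsc m V (t • Y) (by linarith) hμ
  have h2 := hsc m W (t • Y) (by linarith) hμ
  have h3 := cost_split g ha0 hb0 (g.exp m V) (g.exp m (t • Y)) (g.exp m W)
  rw [cost_comm g (g.exp m V) (g.exp m (t • Y))] at h3
  have h4 : cost g (g.exp m V) (g.exp m W) / (a + b) = (a + b) / 2 := by
    rw [cost, h]
    field_simp
  rw [← nrm_sq, ← ha] at h1
  rw [← nrm_sq, ← hb] at h2
  have e1 : g.ip m (t • Y) (t • Y) = t ^ 2 * g.ip m Y Y := g.geo2_ip_smul m t Y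
  have e2 : b * g.ip m V (t • Y) + a * g.ip m W (t • Y) = t * g.ip m Y Y := by
    have : ∀ μ, g.ip m (b • V + a • W) μ = b * g.ip m V μ + a * g.ip m W μ := by
      intro μ
      simp only [map_add, map_smul, add_apply, smul_apply, smul_eq_mul]
    rw [← this, ← hY, map_smul, smul_eq_mul]
  rw [e1] at h1 h2
  rw [h4, div_add_div _ _ ha0.ne' hb0.ne', le_div_iff₀ (by positivity)] at h3
  have h5 := mul_le_mul_of_nonneg_right h1 hb0.le
  have h6 := mul_le_mul_of_nonneg_left h2 ha0.le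
  have h7 : t * g.ip m Y Y ≤ C * (a + b) * (t ^ 2 * g.ip m Y Y) := by nlinarith
  have h8 : 0 < t * g.ip m Y Y := mul_pos ht0 hq
  nlinarith

theorem hopf_rinow (x y : M) : Ex g x y := by
  obtain ⟨ε, hε, hs⟩ := short g
  have key : ∀ N : ℕ, ∀ x y : M, rdist g x y ≤ N * (ε / 2) → Ex g x y := by
    intro N
    induction N with
    | zero => exact fun x y h => (hs x).2 y (by simp at h; linarith)
    | succ N ih =>
      intro x y h
      rcases lt_or_ge (rdist g x y) ε with hD | hD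
      · exact (hs x).2 y hD
      set D := rdist g x y with hDd
      have hD0 : 0 < D := by linarith
      obtain ⟨z, hz1, hz2⟩ := exists_mid g x y (c := (D - ε / 2) / D)
        (div_nonneg (by linarith) hD0.le) ((div_le_one hD0).2 (by linarith))
      rw [← hDd, div_mul_cancel₀ _ hD0.ne'] at hz1
      have hz3 : rdist g z y = ε / 2 := by
        rw [hz2, ← hDd]
        field_simp
        ring
      rw [rdist_comm] at hz1
      obtain ⟨V, hV1, hV2⟩ := ih z x (by push_cast at h; linarith)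
      obtain ⟨W, hW1, hW2⟩ := (hs z).2 y (by linarith)
      rw [Min, hV1, hz1] at hV2
      rw [Min, hW1, hz3] at hW2
      have hc := corner g (m := z) (V := V) (W := W) (by rw [hV1, hW1, ← hV2, ← hW2, ← hDd]; ring)
      rw [← hV2, ← hW2] at hc
      set l := (D - ε / 2) / (ε / 2) with hl
      have hl0 : 0 ≤ l := div_nonneg (by linarith) (by linarith)
      have hVW : V = (-l) • W := by
        have h1 : (ε / 2) • V = -((D - ε / 2) • W) := eq_neg_of_add_eq_zero_left hc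
        have h2 : V = (ε / 2)⁻¹ • (ε / 2) • V := by
          rw [smul_smul, inv_mul_cancel₀ (by linarith), one_smul]
        rw [h2, h1, smul_neg, smul_smul, hl, neg_smul, div_eq_inv_mul (D - ε / 2)]
      have hx : x = g.geo z W (-l) := by rw [← hV1, hVW, g.exp_smul]
      have hu : g.exp x ((1 + l) • vel E (g.geo z W) (-l)) = y := by
        rw [hx, Metric.exp, geo_vel, ← hW1, Metric.exp]
        congr 1
        ring
      refine ⟨(1 + l) • vel E (g.geo z W) (-l), hu, ?_⟩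
      rw [Min, hu, ← hDd, nrm_smul, hx, nrm_vel_geo, ← hW2, abs_of_nonneg (by linarith), hl]
      field_simp
      ring
  obtain ⟨N, hN⟩ := exists_nat_ge (rdist g x y / (ε / 2))
  exact key N x y ((div_le_iff₀ (by linarith)).1 hN)

theorem gap_real_hr {τ τ₁ C L κ Q n d A B cuz cuy czp czy : ℝ} (hτ0 : 0 ≤ τ) (hτ : τ ≤ τ₁)
    (h : τ₁ < 1) (hC : 0 < C) (hL : 0 < L) (hκ0 : 0 < κ) (hκ1 : κ * (2 * (C / (1 - τ₁))) ≤ 1)
    (hQ0 : 0 ≤ Q) (h2 : cuz ≤ czp - A + C * (κ ^ 2 * Q))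
    (h3 : cuy ≤ (1 - τ) ^ 2 * n ^ 2 / 2 - (1 - τ) * B + C * (κ ^ 2 * Q))
    (e2 : A + τ * B = κ * Q) (h5 : τ * czy ≤ cuz + τ / (1 - τ) * cuy) (h10 : d ^ 2 ≤ L ^ 2 * Q) :
    τ ^ 2 * n ^ 2 / 2 - czp + κ / (2 * L ^ 2) * d ^ 2 ≤ τ * (n ^ 2 / 2 - czy) := by
  have h1τ : 0 < 1 - τ₁ := by linarith
  have hτ1 : 0 < 1 - τ := by linarith
  set C' := C / (1 - τ₁) with hC'
  have h6 : τ / (1 - τ) * cuy ≤ τ * (1 - τ) * n ^ 2 / 2 - τ * B +
      τ / (1 - τ) * (C * (κ ^ 2 * Q)) := by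
    refine (mul_le_mul_of_nonneg_left h3 (div_nonneg hτ0 hτ1.le)).trans_eq ?_
    field_simp
  have h7 : C * (κ ^ 2 * Q) + τ / (1 - τ) * (C * (κ ^ 2 * Q)) ≤ C' * (κ ^ 2 * Q) := by
    have h8 : C + τ / (1 - τ) * C = C / (1 - τ) := by
      field_simp
      ring
    have h9 : C / (1 - τ) ≤ C' := div_le_div_of_nonneg_left hC.le h1τ (by linarith)
    have h10 := mul_le_mul_of_nonneg_right (h8.trans_le h9) (show 0 ≤ κ ^ 2 * Q by positivity)
    linarith
  have h8 : C' * (κ ^ 2 * Q) ≤ κ * Q / 2 := by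
    have := mul_le_mul_of_nonneg_right hκ1 (show 0 ≤ κ * Q by positivity)
    linarith
  have h9 : κ / (2 * L ^ 2) * d ^ 2 ≤ κ * Q / 2 := by
    refine (mul_le_mul_of_nonneg_left h10 (by positivity)).trans_eq ?_
    field_simp
  linarith

theorem gap {τ₁ : ℝ} (h : τ₁ < 1) : ∃ δ > 0, ∀ τ ∈ Icc 0 τ₁, ∀ x s z, Min g x s →
    cost g x (g.exp x (τ • s)) - cost g z (g.exp x (τ • s)) + δ * rdist g x z ^ 2 ≤
      τ * (cost g x (g.exp x s) - cost g z (g.exp x s)) := by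
  obtain ⟨D, hD, hdiam⟩ := exists_diam g
  obtain ⟨C, ρ, hC, hρ, hsc⟩ := sc g D
  obtain ⟨L, hL, hlip⟩ := lip g D
  have h1τ : 0 < 1 - τ₁ := by linarith
  set C' := C / (1 - τ₁) with hC'
  have hC'0 : 0 < C' := by positivity
  set κ := min (1 / (2 * C')) (ρ / (2 * D)) with hκ
  have hκ0 : 0 < κ := lt_min (by positivity) (by positivity)
  have hκ1 : κ * (2 * C') ≤ 1 := (le_div_iff₀ (by positivity)).1 (min_le_left _ _)
  have hκ2 : κ * (2 * D) ≤ ρ := (le_div_iff₀ (by positivity)).1 (min_le_right _ _)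
  refine ⟨κ / (2 * L ^ 2), by positivity, fun τ hτ x s z hs => ?_⟩
  have hτ0 := hτ.1
  have hτ1 : τ < 1 := lt_of_le_of_lt hτ.2 h
  have hcx : cost g x (g.exp x (τ • s)) = τ ^ 2 * nrm g x s ^ 2 / 2 := by
    rw [(min_iff_cost g).1 (hs.smul hτ0 hτ1.le), g.geo2_ip_smul, nrm_sq]
  have hcy : cost g x (g.exp x s) = nrm g x s ^ 2 / 2 := by
    rw [(min_iff_cost g).1 hs, nrm_sq]
  have hn : nrm g x s ≤ D := by
    rw [← hs]
    exact hdiam _ _
  rw [hcx, hcy, g.exp_smul]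
  set n := nrm g x s with hnd
  have hn0 : 0 ≤ n := nrm_nonneg g x s
  have hτn : τ * n ≤ n := mul_le_of_le_one_left hn0 hτ1.le
  have hv : nrm g (g.geo x s τ) (vel E (g.geo x s) τ) = n := nrm_vel_geo g x s τ
  have hy : g.exp (g.geo x s τ) ((1 - τ) • vel E (g.geo x s) τ) = g.exp x s := by
    rw [Metric.exp, geo_vel, Metric.exp]
    congr 1
    ring
  have hx : g.exp (g.geo x s τ) ((-τ) • vel E (g.geo x s) τ) = x := by
    rw [Metric.exp, geo_vel]
    have : τ + -τ * 1 = 0 := by ring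
    rw [this, g.geo_zero]
  set p := g.geo x s τ
  set v := vel E (g.geo x s) τ
  set y := g.exp x s
  obtain ⟨Z, hZ1, hZ2⟩ := hopf_rinow g p z
  have hZn : nrm g p Z ≤ D := by
    rw [← hZ2]
    exact hdiam _ _
  have hcz : cost g z p = g.ip p Z Z / 2 := by
    rw [cost_comm, ← (min_iff_cost g).1 hZ2, hZ1]
  set Y := Z + τ • v with hY
  have hYn : nrm g p Y ≤ 2 * D := by
    have := nrm_add_le g p Z (τ • v)
    rw [nrm_smul, abs_of_nonneg hτ0, hv] at this
    linarith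
  have hμ : nrm g p (κ • Y) ≤ ρ := by
    rw [nrm_smul, abs_of_pos hκ0]
    exact (mul_le_mul_of_nonneg_left hYn hκ0.le).trans hκ2
  have h2 := hsc p Z (κ • Y) hZn hμ
  have h3 := hsc p ((1 - τ) • v) (κ • Y) (by
    rw [nrm_smul, abs_of_nonneg (by linarith), hv]
    linarith [mul_nonneg hτ0 hn0]) hμ
  have h4 := hlip p Z ((-τ) • v) hZn (by
    rw [nrm_smul, abs_neg, abs_of_nonneg hτ0, hv]
    linarith)
  rw [hZ1, hx, neg_smul, sub_neg_eq_add, ← hY, rdist_comm] at h4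
  rw [hZ1, g.geo2_ip_smul, ← hcz] at h2
  rw [hy, g.geo2_ip_smul, g.geo2_ip_smul, ← nrm_sq g p v, hv] at h3
  set u := g.exp p (κ • Y)
  set Q := g.ip p Y Y with hQ
  have hQ0 : 0 ≤ Q := ip_nonneg g p Y
  have e1 : g.ip p ((1 - τ) • v) (κ • Y) = (1 - τ) * g.ip p v (κ • Y) := by
    rw [map_smul (g.ip p), smul_apply, smul_eq_mul]
  have e2 : g.ip p Z (κ • Y) + τ * g.ip p v (κ • Y) = κ * Q := by
    have : ∀ μ, g.ip p (Z + τ • v) μ = g.ip p Z μ + τ * g.ip p v μ := by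
      intro μ
      simp only [map_add, map_smul, add_apply, smul_apply, smul_eq_mul]
    rw [← this, ← hY, map_smul, smul_eq_mul]
  rw [e1] at h3
  have h5 : τ * cost g z y ≤ cost g u z + τ / (1 - τ) * cost g u y := by
    rcases hτ0.eq_or_lt with h0 | h0
    · rw [← h0]
      simpa using cost_nonneg g u z
    · have := cost_split g h0 (show 0 < 1 - τ by linarith) z u y
      rw [cost_comm g z u, add_sub_cancel, div_one] at this
      have h' := mul_le_mul_of_nonneg_left this h0.le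
      refine h'.trans_eq ?_
      field_simp
  have h10 := pow_le_pow_left₀ (rdist_nonneg g x z) h4 2
  rw [mul_pow, nrm_sq, ← hQ] at h10
  exact gap_real_hr hτ0 hτ.2 h hC hL hκ0 hκ1 hQ0 h2 h3 e2 h5 h10

end Vale.Agent.P234
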