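import Vale.Agent.P234.Blow
import Vale.Agent.P234.Sub

/-!
# Strict local minima of a branch persist

`e = chartAt x`, `a = e x`.  `F (a', ζ, u) = ct V (bE e e (a', ζ), bE e e' (a', u))` is `C⁴` at `(a, 0, w)`.
`Br.tendsto_BB`: for `λ < 1` close to `1`, `Br e e' (a, λ • w) V` (`Br.eventually`) and `Reg x (λ • w)`
(`Min.smul_inj`, `inj_reg`), so by `Br.cost_eq` `cE (a, ·, λ • w) = F (a, ·, λ • w)` near `0`; continuity of
`hess F` (`contDiffAt_hess`).
`Br.strict_min`: `peano2` for `h ζ = ct V (e (exp x ζ), b₀)`, `fderiv h 0 = -ip x w` (`Br.fderiv_ct`,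
`fderiv_bE_zero`); then every `a'` near `a` is `e (exp x ζ)` with `ζ = V₀ (a, a')` small, `V₀` a branch at `(a, 0)`
(`nc_zero`), and `ζ ≠ 0` if `a' ≠ a`.
`Br.persist`: `Φ (p, a') = p.1 * phi (e.symm a') + ct V (a', e' p.2)` is continuous near `{p₀} × closedBall a₀ r`;
on the sphere of radius `r` it exceeds its value at the centre for `p` near `p₀`
(`IsCompact.eventually_forall_of_forall_eventually`), so it has a minimum `a*` in the open ball.  Put
`z = e.symm a*`, `v = p.1⁻¹ • trI e z (V (a*, e' p.2))`; `right` gives the end point; for `ζ` the curve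
`t ↦ e (exp z (t • ζ))` has derivative `tr e z ζ` at `0` (`hasDerivAt_geo`), and `Br.fderiv_ct` gives `SubG`.
Take `r` and the neighbourhood so small that `(a', V (a', b)) ∈ N`.
-/

namespace Vale.Agent.P234

open scoped ContDiff Topology Manifold
open Vale.Agent.P255 Set Filter

variable {E M : Type*} [NormedAddCommGroup E] [NormedSpace ℝ E] [FiniteDimensional ℝ E]
  [TopologicalSpace M] [ChartedSpace E M] [IsManifold 𝓘(ℝ, E) ∞ M] [T2Space M] [CompactSpace M]
  [ConnectedSpace M] {e e' : OpenPartialHomeomorph M E} {g : Metric E M} {y : Bool → M} {α : Bool → ℝ} {V : E × E → E}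

omit [ConnectedSpace M] in
theorem pers_contDiffAt {a w : E} (hV : Br g e e' (a, w) V) :
    ContDiffAt ℝ 4 (fun z : E × E × E =>
      ct g e V (bE g e e (z.1, z.2.1), bE g e e' (z.1, z.2.2))) (a, 0, w) := by
  have c1 : ContDiffAt ℝ 4 (fun z : E × E × E => bE g e e (z.1, z.2.1)) (a, 0, w) :=
    ContDiffAt.comp (g := bE g e e) (f := fun z : E × E × E => (z.1, z.2.1)) (a, 0, w)
      (contDiffAt_bE g 4 hV.he hV.he (q := (a, 0)) hV.ha
      (by rw [expE_zero]; exact e.map_target hV.ha)) (contDiffAt_fst.prodMk contDiffAt_snd.fst)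
  have c2 : ContDiffAt ℝ 4 (fun z : E × E × E => bE g e e' (z.1, z.2.2)) (a, 0, w) :=
    ContDiffAt.comp (g := bE g e e') (f := fun z : E × E × E => (z.1, z.2.2)) (a, 0, w)
      (contDiffAt_bE g 4 hV.he hV.he' (q := (a, w)) hV.ha hV.hb)
      (contDiffAt_fst.prodMk contDiffAt_snd.snd)
  refine ContDiffAt.comp (g := ct g e V) (a, 0, w) ?_ (c1.prodMk c2)
  have := hV.contDiffAt_ct
  rwa [show bE g e e (a, 0) = a from bE_zero g hV.ha]

omit [ConnectedSpace M] in
theorem pers_tendsto (g : Metric E M) (x : M) :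
    Tendsto (fun ζ => chartAt E x (g.exp x ζ)) (𝓝 0) (𝓝 (chartAt E x x)) ∧
      ∀ᶠ ζ in 𝓝 (0 : E), g.exp x ζ ∈ (chartAt E x).source := by
  have h1 : Tendsto (g.exp x) (𝓝 0) (𝓝 x) := by
    have := (g.continuous_exp x).tendsto 0
    rwa [g.exp_zero] at this
  exact ⟨((chartAt E x).continuousAt (mem_chart_source E x)).tendsto.comp h1,
    h1.eventually ((chartAt E x).open_source.mem_nhds (mem_chart_source E x))⟩

theorem Br.tendsto_BB {x : M} {w : E} (hV : Br g (chartAt E x) e' (chartAt E x x, w) V)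
    (hm : Min g x w) : Tendsto (fun c : ℝ => BB g x (c • w)) (𝓝[<] 1)
      (𝓝 (-fderiv ℝ (fderiv ℝ fun ζ =>
        ct g (chartAt E x) V (chartAt E x (g.exp x ζ), e' (g.exp x w))) 0)) := by
  set F : E × E × E → ℝ := fun z => ct g (chartAt E x) V
    (bE g (chartAt E x) (chartAt E x) (z.1, z.2.1), bE g (chartAt E x) e' (z.1, z.2.2)) with hF
  have hFe : ∀ u, (fun ζ => F (chartAt E x x, ζ, u)) =
      fun ζ => ct g (chartAt E x) V (chartAt E x (g.exp x ζ), e' (g.exp x u)) := fun u => by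
    simp only [hF, bE, expE_self]
  have h1 : Tendsto (fun c : ℝ => (chartAt E x x, c • w)) (𝓝 1) (𝓝 (chartAt E x x, w)) := by
    have : Tendsto (fun c : ℝ => (chartAt E x x, c • w)) (𝓝 1) (𝓝 (chartAt E x x, (1 : ℝ) • w)) :=
      (continuous_const.prodMk (continuous_id.smul continuous_const)).tendsto 1
    rwa [one_smul] at this
  have h2 := (contDiffAt_hess (pers_contDiffAt hV)).neg.continuousAt.tendsto.comp h1
  rw [← hFe w]
  refine (h2.mono_left nhdsWithin_le_nhds).congr' ?_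
  filter_upwards [(h1.eventually hV.eventually).filter_mono nhdsWithin_le_nhds,
    Ioo_mem_nhdsLT one_pos] with c hc hc'
  have hb := hc.hb
  rw [expE_self] at hb
  have h3 := Br.cost_eq (x := x) (w := c • w) (by rwa [tr_self]) (mem_chart_source E x)
    (inj_reg (hm.smul_inj hc'.1.le hc'.2))
  have h4 : (fun ζ => F (chartAt E x x, ζ, c • w)) =ᶠ[𝓝 0]
      fun ζ => cE g (chartAt E x) (chartAt E x x, ζ, c • w) := by
    rw [hFe]
    filter_upwards [((pers_tendsto g x).1.prodMk_nhds tendsto_const_nhds).eventually h3,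
      (pers_tendsto g x).2] with ζ a b
    rw [← a, cE, expE_self, expE_self, (chartAt E x).left_inv b, e'.left_inv hb]
  simp only [Function.comp, BB, hess]
  rw [h4.fderiv.fderiv_eq]

omit [ConnectedSpace M] in
theorem Br.strict_min {x : M} {w : E} (hV : Br g (chartAt E x) e' (chartAt E x x, w) V)
    {f : M → ℝ} (hg : GoodB (g.ip x) (fun ζ => f (g.exp x ζ) - f x) w
      (-fderiv ℝ (fderiv ℝ fun ζ =>
        ct g (chartAt E x) V (chartAt E x (g.exp x ζ), e' (g.exp x w))) 0)) :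
    ∀ᶠ a in 𝓝[≠] (chartAt E x x), f x + ct g (chartAt E x) V (chartAt E x x, e' (g.exp x w)) <
      f ((chartAt E x).symm a) + ct g (chartAt E x) V (a, e' (g.exp x w)) := by
  have hx := mem_chart_source E x
  have he := chart_mem_atlas E x
  set h : E → ℝ := fun ζ => ct g (chartAt E x) V (chartAt E x (g.exp x ζ), e' (g.exp x w)) with hh
  have hb : bE g (chartAt E x) e' (chartAt E x x, w) = e' (g.exp x w) := by rw [bE, expE_self]
  have h0 : g.exp x 0 ∈ (chartAt E x).source := by rw [g.exp_zero]; exact hx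
  have h2 : ContDiffAt ℝ 2 h 0 := by
    have := ((pers_contDiffAt hV).comp (f := fun ζ : E => (chartAt E x x, ζ, w)) 0
      (contDiffAt_const.prodMk (contDiffAt_id.prodMk contDiffAt_const))).of_le
      (show (2 : WithTop ℕ∞) ≤ 4 by norm_num)
    simpa only [Function.comp_def, bE, expE_self] using this
  have h1 : ∀ ξ, fderiv ℝ h 0 ξ = -g.ip x w ξ := fun ξ => by
    have d1 : HasFDerivAt (chartAt E x ∘ g.exp x) (fderiv ℝ (chartAt E x ∘ g.exp x) 0) 0 :=
      ((g.contDiffAt_exp x 0 he h0).differentiableAt one_ne_zero).hasFDerivAt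
    have d2 := (hV.contDiffAt_ct.differentiableAt (by norm_num)).hasFDerivAt
    rw [hb] at d2
    have d3 := HasFDerivAt.comp (f := fun ζ => ((chartAt E x ∘ g.exp x) ζ, e' (g.exp x w))) 0
      (by simpa only [Function.comp, g.exp_zero] using d2) (d1.prodMk (hasFDerivAt_const _ _))
    have d4 := hV.fderiv_ct.self_of_nhds
    have d5 := hV.apply
    rw [hb] at d4 d5
    rw [show fderiv ℝ h 0 = _ from d3.fderiv]
    simp only [ContinuousLinearMap.comp_apply, ContinuousLinearMap.prod_apply, d4, d5,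
      zero_apply, map_zero, add_zero]
    rw [fderiv_exp_eq g he h0, fderiv_bE_zero g he (mem_chart_target E x), zero_add]
    rfl
  obtain ⟨δ, hδ, hg⟩ := hg
  have h3 : ∀ᶠ ζ in 𝓝 (0 : E), f x + h 0 + δ / 2 * ‖ζ‖ ^ 2 ≤ f (g.exp x ζ) + h ζ := by
    filter_upwards [hg, peano2 h2 (half_pos hδ)] with ζ a b
    rw [h1] at b
    simp only [neg_apply] at a
    linarith [(abs_le.1 b).1]
  obtain ⟨V₀, hV₀⟩ := (nc_zero g x).exists_br he he hx h0
  rw [map_zero] at hV₀
  have h4 := hV₀.smooth.continuousAt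
  have h5 := hV₀.right
  have h6 := hV₀.apply
  rw [bE_zero g (mem_chart_target E x)] at h4 h5 h6
  have h7 : Tendsto (fun a => (chartAt E x x, a)) (𝓝 (chartAt E x x))
      (𝓝 (chartAt E x x, chartAt E x x)) := tendsto_const_nhds.prodMk_nhds tendsto_id
  have h8 : Tendsto (fun a => V₀ (chartAt E x x, a)) (𝓝 (chartAt E x x)) (𝓝 0) := by
    have := h4.tendsto.comp h7
    rwa [h6] at this
  rw [eventually_nhdsWithin_iff]
  filter_upwards [h8.eventually h3, h7.eventually h5,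
    (chartAt E x).open_target.mem_nhds (mem_chart_target E x)] with a b c d hne
  rw [expE_self] at c
  have hz : V₀ (chartAt E x x, a) ≠ 0 := fun hz => hne (by
    rw [hz, g.exp_zero] at c
    rw [mem_singleton_iff, ← (chartAt E x).right_inv d, ← c])
  have := mul_pos (half_pos hδ) (pow_pos (norm_pos_iff.2 hz) 2)
  simp only [hh, c, g.exp_zero, (chartAt E x).right_inv d] at b
  linarith

omit [ConnectedSpace M] in
theorem pers_subG (he : e ∈ atlas E M) {f : M → ℝ} {a b : E} (ha : a ∈ e.target) {τ : ℝ}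
    (hτ : 0 < τ) (hd : DifferentiableAt ℝ (ct g e V) (a, b))
    (hd' : ∀ k, fderiv ℝ (ct g e V) (a, b) (k, 0) = -g.g e a (V (a, b)) k)
    (hm : IsLocalMin (fun a => τ * f (e.symm a) + ct g e V (a, b)) a) :
    SubG g f (e.symm a) (τ⁻¹ • trI e (e.symm a) (V (a, b))) := by
  intro ζ κ hκ
  have hz : e.symm a ∈ e.source := e.map_target ha
  have h0 : g.geo (e.symm a) ζ 0 ∈ e.source := by rw [g.geo_zero]; exact hz
  have h1 := hasDerivAt_geo g he (e.symm a) ζ h0
  rw [vel_geo_zero, g.geo_zero] at h1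
  have e0 : (e ∘ g.geo (e.symm a) ζ) 0 = a := by
    rw [Function.comp, g.geo_zero, e.right_inv ha]
  have h2 : HasDerivAt (fun t => ct g e V ((e ∘ g.geo (e.symm a) ζ) t, b))
      (-g.g e a (V (a, b)) (tr e (e.symm a) ζ)) 0 := by
    rw [← hd']
    exact HasFDerivAt.comp_hasDerivAt (f := fun t => ((e ∘ g.geo (e.symm a) ζ) t, b)) 0
      (by rw [e0]; exact hd.hasFDerivAt) (h1.prodMk (hasDerivAt_const _ _))
  have h3 := h1.continuousAt.tendsto
  rw [e0] at h3
  have h4 := (hasDerivAt_iff_isLittleO_nhds_zero.1 h2).def (mul_pos hτ hκ)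
  have h5 := ((g.continuous_geo (e.symm a) ζ).tendsto 0).eventually (e.open_source.mem_nhds h0)
  have hip : g.ip (e.symm a) (τ⁻¹ • trI e (e.symm a) (V (a, b))) ζ =
      τ⁻¹ * g.g e a (V (a, b)) (tr e (e.symm a) ζ) := by
    rw [map_smul, smul_apply, ip_eq g he hz, tr_trI he hz, e.right_inv ha, smul_eq_mul]
  filter_upwards [self_mem_nhdsWithin, nhdsWithin_le_nhds (h3.eventually hm),
    nhdsWithin_le_nhds h4, nhdsWithin_le_nhds h5] with t ht p q r
  have ht' : (0 : ℝ) < t := ht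
  simp only [zero_add, e0, smul_eq_mul, Real.norm_eq_abs, abs_of_pos ht'] at p q r
  rw [Function.comp, e.left_inv r] at p
  rw [hip, g.exp_smul, ← mul_le_mul_iff_right₀ hτ]
  have := (abs_le.1 q).2
  simp only [Function.comp] at this
  have e1 : τ * (t * (τ⁻¹ * g.g e a (V (a, b)) (tr e (e.symm a) ζ)) - κ * t) =
      t * g.g e a (V (a, b)) (tr e (e.symm a) ζ) - τ * κ * t := by field_simp
  rw [e1]
  linarith

theorem Br.persist {q₀ : E × E} (hV : Br g e e' q₀ V) {τ₀ : ℝ}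
    (hmin : ∀ᶠ a in 𝓝[≠] q₀.1, τ₀ * phi g y α (e.symm q₀.1) + ct g e V (q₀.1, bE g e e' q₀) <
      τ₀ * phi g y α (e.symm a) + ct g e V (a, bE g e e' q₀)) {N : Set (E × E)} (hN : N ∈ 𝓝 q₀) :
    ∀ᶠ p : ℝ × M in 𝓝 (τ₀, expE g e q₀.1 q₀.2), 0 < p.1 → ∃ z ∈ e.source, ∃ v ∈ Lam g y α z,
      (e z, tr e z (p.1 • v)) ∈ N ∧ g.exp z (p.1 • v) = p.2 := by
  have h1 : Tendsto (fun r : E × E => (r.1, V r)) (𝓝 (q₀.1, bE g e e' q₀)) (𝓝 q₀) := by
    have := (continuousAt_fst.prodMk hV.smooth.continuousAt).tendsto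
    rwa [hV.apply] at this
  have h2 := (((hV.contDiffAt_ct.eventually (by norm_num)).and hV.fderiv_ct).and hV.right).and
    ((h1.eventually hN).and (continuousAt_fst.eventually (e.open_target.mem_nhds hV.ha)))
  obtain ⟨ε, hε, H⟩ := Metric.eventually_nhds_iff_ball.1 h2
  obtain ⟨ε', hε', H'⟩ := Metric.eventually_nhds_iff_ball.1 (eventually_nhdsWithin_iff.1 hmin)
  set r := min ε ε' / 2 with hr
  have r0 : 0 < r := half_pos (lt_min hε hε')
  have r1 : r < ε := (half_lt_self (lt_min hε hε')).trans_le (min_le_left _ _)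
  have r2 : r < ε' := (half_lt_self (lt_min hε hε')).trans_le (min_le_right _ _)
  have hmem : ∀ a ∈ Metric.closedBall q₀.1 r, ∀ b ∈ Metric.ball (bE g e e' q₀) ε,
      (a, b) ∈ Metric.ball (q₀.1, bE g e e' q₀) ε := fun a ha b hb => by
    rw [← ball_prod_same]
    exact ⟨Metric.closedBall_subset_ball r1 ha, hb⟩
  set Φ : (ℝ × M) × E → ℝ := fun z => z.1.1 * phi g y α (e.symm z.2) + ct g e V (z.2, e' z.1.2)
    with hΦ
  have hc : ∀ p : ℝ × M, p.2 ∈ e'.source → e' p.2 ∈ Metric.ball (bE g e e' q₀) ε →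
      ∀ a ∈ Metric.closedBall q₀.1 r, ContinuousAt Φ (p, a) := fun p hp hp' a ha => by
    obtain ⟨⟨⟨c1, -⟩, -⟩, -, c2⟩ := H _ (hmem a ha _ hp')
    refine (continuousAt_fst.fst.mul ((continuous_phi g y α).continuousAt.comp
      ((e.continuousAt_symm c2).comp (f := fun z : (ℝ × M) × E => z.2) continuousAt_snd))).add ?_
    exact c1.continuousAt.comp (f := fun z : (ℝ × M) × E => (z.2, e' z.1.2))
      (continuousAt_snd.prodMk (ContinuousAt.comp (g := e') (x := (p, a))
        (f := fun z : (ℝ × M) × E => z.1.2) (e'.continuousAt hp) continuousAt_fst.snd))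
  have hc0 := hc (τ₀, expE g e q₀.1 q₀.2) hV.hb (Metric.mem_ball_self hε)
  have h3 : ∀ᶠ p : ℝ × M in 𝓝 (τ₀, expE g e q₀.1 q₀.2), ∀ a ∈ Metric.sphere q₀.1 r,
      Φ (p, q₀.1) < Φ (p, a) := by
    refine (isCompact_sphere q₀.1 r).eventually_forall_of_forall_eventually fun a ha => ?_
    have ha' := Metric.sphere_subset_closedBall ha
    refine ContinuousAt.eventually_lt (f := fun z : (ℝ × M) × E => Φ (z.1, q₀.1)) (g := Φ)
      (ContinuousAt.comp (g := Φ) (x := ((τ₀, expE g e q₀.1 q₀.2), a))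
        (f := fun z : (ℝ × M) × E => (z.1, q₀.1)) (hc0 _ (Metric.mem_closedBall_self r0.le))
        (continuousAt_fst.prodMk continuousAt_const))
      (hc0 a ha') (H' a (Metric.closedBall_subset_ball r2 ha') ?_)
    exact Metric.ne_of_mem_sphere ha r0.ne'
  have h4 : ∀ᶠ p : ℝ × M in 𝓝 (τ₀, expE g e q₀.1 q₀.2), p.2 ∈ e'.source :=
    continuousAt_snd.eventually (e'.open_source.mem_nhds hV.hb)
  have h5 : ∀ᶠ p : ℝ × M in 𝓝 (τ₀, expE g e q₀.1 q₀.2), e' p.2 ∈ Metric.ball (bE g e e' q₀) ε :=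
    ((e'.continuousAt hV.hb).comp (f := fun p : ℝ × M => p.2) continuousAt_snd).eventually
      (Metric.ball_mem_nhds _ hε)
  filter_upwards [h3, h4, h5] with p p3 p4 p5 hτ
  have hco : ContinuousOn (fun a => Φ (p, a)) (Metric.closedBall q₀.1 r) := fun a ha =>
    ((hc p p4 p5 a ha).comp (f := fun a => (p, a))
      (continuousAt_const.prodMk continuousAt_id)).continuousWithinAt
  obtain ⟨a, ha, hmin'⟩ := (isCompact_closedBall q₀.1 r).exists_isMinOn
    ⟨_, Metric.mem_closedBall_self r0.le⟩ hco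
  have hab : a ∈ Metric.ball q₀.1 r := lt_of_le_of_ne ha fun h =>
    absurd (hmin' (Metric.mem_closedBall_self r0.le)) (not_le.2 (p3 a h))
  have hloc : IsLocalMin (fun a => Φ (p, a)) a := hmin'.isLocalMin
    (mem_of_superset (Metric.isOpen_ball.mem_nhds hab) Metric.ball_subset_closedBall)
  obtain ⟨⟨⟨c1, c2⟩, c3⟩, c4, c5⟩ := H _ (hmem a ha _ p5)
  have hz : e.symm a ∈ e.source := e.map_target c5
  refine ⟨e.symm a, hz, _, (pers_subG hV.he c5 hτ (c1.differentiableAt (by norm_num))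
    (fun k => by rw [c2]; simp) hloc).mem_Lam, ?_, ?_⟩
  · rw [smul_inv_smul₀ hτ.ne', tr_trI hV.he hz, e.right_inv c5]
    exact c4
  · rw [smul_inv_smul₀ hτ.ne']
    exact c3.trans (e'.left_inv p4)

theorem exists_limit {x : M} {w : E} (hnc : NC g x w) (hm : Min g x w) :
    ∃ B, Tendsto (fun c : ℝ => BB g x (c • w)) (𝓝[<] 1) (𝓝 B) := by
  obtain ⟨V, hV⟩ := hnc.exists_br (chart_mem_atlas E x) (chart_mem_atlas E (g.exp x w))
    (mem_chart_source E x) (mem_chart_source E _)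
  rw [tr_self] at hV
  exact ⟨_, hV.tendsto_BB hm⟩

theorem pers {x : M} {w : E} {τ₀ : ℝ} (hnc : NC g x w) (hm : Min g x w) {B : E →L[ℝ] E →L[ℝ] ℝ}
    (hB : Tendsto (fun c : ℝ => BB g x (c • w)) (𝓝[<] 1) (𝓝 B))
    (hg : GoodB (g.ip x) (fun ζ => τ₀ * (phi g y α (g.exp x ζ) - phi g y α x)) w B)
    {N : Set (E × E)} (hN : N ∈ 𝓝 (chartAt E x x, w)) :
    ∀ᶠ p : ℝ × M in 𝓝 (τ₀, g.exp x w), 0 < p.1 → ∃ z ∈ (chartAt E x).source, ∃ v ∈ Lam g y α z,
      (chartAt E x z, tr (chartAt E x) z (p.1 • v)) ∈ N ∧ g.exp z (p.1 • v) = p.2 := by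
  obtain ⟨V, hV⟩ := hnc.exists_br (chart_mem_atlas E x) (chart_mem_atlas E (g.exp x w))
    (mem_chart_source E x) (mem_chart_source E _)
  rw [tr_self] at hV
  rw [tendsto_nhds_unique hB (hV.tendsto_BB hm)] at hg
  have h1 := hV.strict_min (f := fun z => τ₀ * phi g y α z) (by simpa only [mul_sub] using hg)
  have h2 := hV.persist (y := y) (α := α) (τ₀ := τ₀) (by
    simpa only [bE, expE_self, (chartAt E x).left_inv (mem_chart_source E x)] using h1) hN
  simpa only [expE_self] using h2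

end Vale.Agent.P234
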