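import Vale.Agent.P234.Short
import Vale.Agent.P234.Taylor

/-!
# The cost is smooth near regular pairs  (TASK)

`Br.cost_eq`: by contradiction take an ultrafilter `l ≤ 𝓝 r₀` on which the equation fails; for `r` choose
a minimising `u r` from `e.symm r.1` to `e'.symm r.2` (`h.ex`); `nrm` is bounded (`exists_diam`), so
`TC.of_bounded` gives a limit `u₀`, minimising (`TC.min`) with the same end point (`TC.exp`), so `u₀ = w`;
hence `(r.1, tr e _ (u r)) → (e x, tr e x w)` (`TC.chart`), `left` gives `V r = tr e _ (u r)`, and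
`ip_eq`, `min_iff_cost` give the equation.
`eventually_min`: `cost_eq` at `r = (q.1, bE q)` and `left`.
`cE` is near `(e x, 0, tr e x w)` equal to `z ↦ ct V (bE e e (z.1, z.2.1), bE e e' (z.1, z.2.2))` with
`e' = chartAt (exp x w)`; `Br.fderiv_ct`, `fderiv_bE_zero`.  Same for `cC` with `z.1 + z.2.1`.
`radial`: let `a = e x`, `u = tr e x w`, `γ = geo x w`, `v t = deriv (e ∘ γ) t`.  For small `t`,
`fderiv h (t • u) ξ = -G (e (γ t)) (V (e (γ t), b₀)) (fderiv (bE e e) (a, t • u) (0, ξ))`,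
`V (e (γ t), b₀) = (1 - t) • v t` (`left` at `(e (γ t), (1-t) • v t)`, `geo_vel`, `TC.vel_geo`), and
`first_var`, `pE_smul` give `G (e (γ t)) (v t) (fderiv .. (0, ξ)) = G a u ξ` for `t ≠ 0`.  So
`fderiv h (t • u) ξ = -(1 - t) G a u ξ` near `t = 0`; differentiate.
-/

namespace Vale.Agent.P234

open scoped ContDiff Topology Manifold
open Vale.Agent.P255 Set Filter

variable {E M : Type*} [NormedAddCommGroup E] [NormedSpace ℝ E] [FiniteDimensional ℝ E]
  [TopologicalSpace M] [ChartedSpace E M] [IsManifold 𝓘(ℝ, E) ∞ M] [T2Space M] [CompactSpace M]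
  [ConnectedSpace M] {e e' : OpenPartialHomeomorph M E} (g : Metric E M)

/-- Regular pairs. -/
structure Reg (x : M) (w : E) : Prop where
  nc : NC g x w
  min : Min g x w
  uniq : Uniq g x w
  ex : ∀ᶠ p : M × M in 𝓝 (x, g.exp x w), Ex g p.1 p.2

/-- The cost in normal coordinates. -/
noncomputable def cE (e : OpenPartialHomeomorph M E) (z : E × E × E) : ℝ :=
  cost g (expE g e z.1 z.2.1) (expE g e z.1 z.2.2)

/-- The cost in chart coordinates. -/
noncomputable def cC (e : OpenPartialHomeomorph M E) (z : E × E × E) : ℝ :=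
  cost g (e.symm (z.1 + z.2.1)) (expE g e z.1 z.2.2)

theorem reg_short : ∃ ε > 0, ∀ x u, nrm g x u < ε → Reg g x u := by
  obtain ⟨ε, hε, h⟩ := short g
  refine ⟨ε, hε, fun x u hu => ?_⟩
  obtain ⟨h1, h2, h3⟩ := (h x).1 u hu
  refine ⟨h1, h2, h3, ?_⟩
  have h4 : ∀ᶠ p : M × M in 𝓝 (x, g.exp x u), rdist g p.1 p.2 < ε :=
    (continuous_rdist g).continuousAt.eventually_lt continuousAt_const (by
      change rdist g x (g.exp x u) < ε
      rw [h2]; exact hu)
  exact h4.mono fun p hp => (h p.1).2 p.2 hp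

variable {g} {x : M} {w : E}

theorem Br.cost_eq {V : E × E → E} (hV : Br g e e' (e x, tr e x w) V) (hx : x ∈ e.source)
    (h : Reg g x w) : ∀ᶠ r : E × E in 𝓝 (e x, e' (g.exp x w)),
      cost g (e.symm r.1) (e'.symm r.2) = ct g e V r := by
  have he := hV.he
  have he' := hV.he'
  have hy : g.exp x w ∈ e'.source := by
    have h1 := hV.hb
    rwa [expE_tr g he hx] at h1
  have hxt : e x ∈ e.target := e.map_source hx
  have hyt : e' (g.exp x w) ∈ e'.target := e'.map_source hy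
  have t1 : Tendsto (fun r : E × E => e.symm r.1) (𝓝 (e x, e' (g.exp x w))) (𝓝 x) := by
    have h1 := (e.continuousAt_symm hxt).tendsto.comp
      (continuous_fst.tendsto (e x, e' (g.exp x w)))
    rwa [e.left_inv hx] at h1
  have t2 : Tendsto (fun r : E × E => e'.symm r.2) (𝓝 (e x, e' (g.exp x w))) (𝓝 (g.exp x w)) := by
    have h1 := (e'.continuousAt_symm hyt).tendsto.comp
      (continuous_snd.tendsto (e x, e' (g.exp x w)))
    rwa [e'.left_inv hy] at h1
  have hex : ∀ᶠ r : E × E in 𝓝 (e x, e' (g.exp x w)), Ex g (e.symm r.1) (e'.symm r.2) :=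
    (t1.prodMk_nhds t2) h.ex
  have hch : ∀ r : E × E, ∃ u, Ex g (e.symm r.1) (e'.symm r.2) →
      g.exp (e.symm r.1) u = e'.symm r.2 ∧ Min g (e.symm r.1) u := fun r => by
    by_cases hr : Ex g (e.symm r.1) (e'.symm r.2)
    · obtain ⟨u, hu⟩ := hr
      exact ⟨u, fun _ => hu⟩
    · exact ⟨0, fun h => (hr h).elim⟩
  choose u hu using hch
  by_contra hcon
  obtain ⟨l, hl, hne⟩ : ∃ l : Ultrafilter (E × E), (l : Filter (E × E)) ≤ 𝓝 (e x, e' (g.exp x w)) ∧
      ∀ᶠ r in (l : Filter (E × E)), ¬ cost g (e.symm r.1) (e'.symm r.2) = ct g e V r := by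
    have hfr : ∃ᶠ r : E × E in 𝓝 (e x, e' (g.exp x w)),
        ¬ cost g (e.symm r.1) (e'.symm r.2) = ct g e V r := not_eventually.1 hcon
    have := frequently_iff_neBot.1 hfr
    have h1 := Ultrafilter.of_le (𝓝 (e x, e' (g.exp x w)) ⊓
      𝓟 {r : E × E | ¬ cost g (e.symm r.1) (e'.symm r.2) = ct g e V r})
    exact ⟨_, h1.trans inf_le_left, le_principal_iff.1 (h1.trans inf_le_right)⟩
  have hu' : ∀ᶠ r in (l : Filter (E × E)),
      g.exp (e.symm r.1) (u r) = e'.symm r.2 ∧ Min g (e.symm r.1) (u r) :=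
    (hex.filter_mono hl).mono fun r hr => hu r hr
  obtain ⟨D, -, hD⟩ := exists_diam g
  obtain ⟨u₀, hT⟩ := TC.of_bounded g (u := u) (t1.mono_left hl) (R := D) (hu'.mono fun r hr => by
    rw [← hr.2]; exact hD _ _)
  have hm : Min g x u₀ := hT.min g (hu'.mono fun r hr => hr.2)
  have hxe : g.exp x u₀ = g.exp x w :=
    tendsto_nhds_unique_of_eventuallyEq (hT.exp g) (t2.mono_left hl) (hu'.mono fun r hr => hr.1)
  obtain rfl : u₀ = w := h.uniq u₀ hm hxe
  have t3 : Tendsto (fun r : E × E => (r.1, tr e (e.symm r.1) (u r))) l (𝓝 (e x, tr e x u₀)) :=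
    ((continuous_fst.tendsto (e x, e' (g.exp x u₀))).mono_left hl).prodMk_nhds (hT.chart he hx)
  have h5 : ∀ᶠ r : E × E in 𝓝 (e x, e' (g.exp x u₀)), r.1 ∈ e.target ∧ r.2 ∈ e'.target :=
    prod_mem_nhds (e.open_target.mem_nhds hxt) (e'.open_target.mem_nhds hyt)
  obtain ⟨r, h1, h2, h3, h4⟩ := ((t3.eventually hV.left).and (hu'.and (hne.and
    (h5.filter_mono hl)))).exists
  have hs := e.map_target h4.1
  have h6 : bE g e e' (r.1, tr e (e.symm r.1) (u r)) = r.2 := by
    have h7 := expE_tr g he hs (u r)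
    rw [e.right_inv h4.1] at h7
    rw [bE, h7, h2.1, e'.right_inv h4.2]
  simp only [h6] at h1
  refine h3 ?_
  rw [← h2.1, (min_iff_cost g).1 h2.2, ip_eq g he hs, e.right_inv h4.1, ct, h1]

omit [ConnectedSpace M] in
theorem reg_bE (he : e ∈ atlas E M) (hx : x ∈ e.source) :
    bE g e e' (e x, tr e x w) = e' (g.exp x w) := by
  rw [bE, expE_tr g he hx]

omit [ConnectedSpace M] in
theorem Reg.br (h : Reg g x w) (he : e ∈ atlas E M) (hx : x ∈ e.source) :
    ∃ V, Br g e (chartAt E (g.exp x w)) (e x, tr e x w) V :=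
  h.nc.exists_br he (chart_mem_atlas E _) hx (mem_chart_source E _)

theorem Reg.eventually_min (h : Reg g x w) (he : e ∈ atlas E M) (hx : x ∈ e.source) :
    ∀ᶠ q : E × E in 𝓝 (e x, tr e x w), Min g (e.symm q.1) (trI e (e.symm q.1) q.2) := by
  obtain ⟨V, hV⟩ := h.br he hx
  have he' := hV.he'
  have h1 := hV.cost_eq hx h
  have h2 : Tendsto (fun q : E × E => (q.1, bE g e (chartAt E (g.exp x w)) q)) (𝓝 (e x, tr e x w))
      (𝓝 (e x, chartAt E (g.exp x w) (g.exp x w))) := by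
    refine (continuous_fst.tendsto _).prodMk_nhds ?_
    rw [← reg_bE he hx]
    exact (contDiffAt_bE g 0 he he' hV.ha hV.hb).continuousAt
  filter_upwards [h2.eventually h1, hV.left, hV.eventually] with q q1 q2 q3
  rw [min_iff_cost, ip_trI g he q3.ha]
  rw [bE, (chartAt E (g.exp x w)).left_inv q3.hb, ct] at q1
  rw [bE] at q2
  simp only [q2] at q1
  exact q1

theorem reg_eq {V : E × E → E} (hV : Br g e e' (e x, tr e x w) V) (hx : x ∈ e.source)
    (h : Reg g x w) {φ : E × E × E → E} (hφ : ContinuousAt φ (e x, 0, tr e x w))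
    (h0 : φ (e x, 0, tr e x w) = e x) :
    (fun z : E × E × E => cost g (e.symm (φ z)) (expE g e z.1 z.2.2)) =ᶠ[𝓝 (e x, 0, tr e x w)]
      fun z => ct g e V (φ z, bE g e e' (z.1, z.2.2)) := by
  have h1 : Tendsto (fun z : E × E × E => (z.1, z.2.2)) (𝓝 (e x, 0, tr e x w))
      (𝓝 (e x, tr e x w)) :=
    (continuous_fst.prodMk (continuous_snd.comp continuous_snd)).tendsto _
  have h2 : Tendsto (fun z : E × E × E => (φ z, bE g e e' (z.1, z.2.2))) (𝓝 (e x, 0, tr e x w))
      (𝓝 (e x, e' (g.exp x w))) := by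
    refine Tendsto.prodMk_nhds (by rwa [ContinuousAt, h0] at hφ) ?_
    rw [← reg_bE hV.he hx]
    exact (contDiffAt_bE g 0 hV.he hV.he' hV.ha hV.hb).continuousAt.tendsto.comp h1
  filter_upwards [h2.eventually (hV.cost_eq hx h), h1.eventually hV.eventually] with z z1 z2
  rw [← z1, bE, e'.left_inv z2.hb]

theorem reg_smooth {V : E × E → E} (hV : Br g e e' (e x, tr e x w) V) (hx : x ∈ e.source)
    (h : Reg g x w) {φ : E × E × E → E} (hφ : ContDiffAt ℝ 4 φ (e x, 0, tr e x w))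
    (h0 : φ (e x, 0, tr e x w) = e x) : ContDiffAt ℝ 4
      (fun z : E × E × E => cost g (e.symm (φ z)) (expE g e z.1 z.2.2)) (e x, 0, tr e x w) := by
  refine ContDiffAt.congr_of_eventuallyEq ?_ (reg_eq hV hx h hφ.continuousAt h0)
  have h1 : ContDiffAt ℝ 4 (fun z : E × E × E => bE g e e' (z.1, z.2.2)) (e x, 0, tr e x w) :=
    ContDiffAt.comp (g := bE g e e') (f := fun z : E × E × E => (z.1, z.2.2)) _
      (contDiffAt_bE g 4 hV.he hV.he' hV.ha hV.hb) (by fun_prop)
  have h2 : ContDiffAt ℝ 4 (ct g e V) (φ (e x, 0, tr e x w), bE g e e' (e x, tr e x w)) := by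
    rw [h0]; exact hV.contDiffAt_ct
  exact ContDiffAt.comp (g := ct g e V)
    (f := fun z : E × E × E => (φ z, bE g e e' (z.1, z.2.2))) _ h2 (hφ.prodMk h1)

omit [ConnectedSpace M] in
theorem reg_contDiffAt_bE0 (he : e ∈ atlas E M) (hx : x ∈ e.source) (u : E) :
    ContDiffAt ℝ 4 (fun z : E × E × E => bE g e e (z.1, z.2.1)) (e x, 0, u) := by
  have h1 : expE g e (e x) 0 ∈ e.source := by rw [expE_zero, e.left_inv hx]; exact hx
  exact ContDiffAt.comp (g := bE g e e) (f := fun z : E × E × E => (z.1, z.2.1)) _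
    (contDiffAt_bE g (q := (e x, 0)) 4 he he (e.map_source hx) h1) (by fun_prop)

omit [ConnectedSpace M] in
theorem reg_cE_eq (he : e ∈ atlas E M) (hx : x ∈ e.source) (u : E) :
    cE g e =ᶠ[𝓝 (e x, 0, u)]
      fun z : E × E × E => cost g (e.symm (bE g e e (z.1, z.2.1))) (expE g e z.1 z.2.2) := by
  have h1 : expE g e (e x) 0 ∈ e.source := by rw [expE_zero, e.left_inv hx]; exact hx
  have h2 : Tendsto (fun z : E × E × E => (z.1, z.2.1)) (𝓝 (e x, 0, u)) (𝓝 (e x, 0)) :=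
    (continuous_fst.prodMk (continuous_fst.comp continuous_snd)).tendsto _
  have h3 := (continuousAt_expE g he (p := (e x, 0)) (e.map_source hx)).tendsto.comp h2
  filter_upwards [h3.eventually (e.open_source.mem_nhds h1)] with z hz
  have hz' : expE g e z.1 z.2.1 ∈ e.source := hz
  rw [cE, bE, e.left_inv hz']

/-- The cost as a function of the first point, for a fixed second point. -/
theorem reg_slice {V : E × E → E} (hV : Br g e e' (e x, tr e x w) V) (hx : x ∈ e.source)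
    (h : Reg g x w) {φ : E → E} (hφ : ContinuousAt φ 0) (h0 : φ 0 = e x) :
    (fun ζ => cost g (e.symm (φ ζ)) (expE g e (e x) (tr e x w))) =ᶠ[𝓝 0]
      fun ζ => ct g e V (φ ζ, e' (g.exp x w)) := by
  have h1 : Tendsto (fun ζ : E => (e x, ζ, tr e x w)) (𝓝 0) (𝓝 (e x, 0, tr e x w)) :=
    (continuous_const.prodMk (continuous_id.prodMk continuous_const)).tendsto _
  have h2 := h1.eventually (reg_eq hV hx h (φ := fun z => φ z.2.1)
    (ContinuousAt.comp (g := φ) (f := fun z : E × E × E => z.2.1) hφ (by fun_prop)) h0)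
  simp only [reg_bE hV.he hx] at h2
  exact h2

theorem reg_fderiv {V : E × E → E} (hV : Br g e e' (e x, tr e x w) V) (hx : x ∈ e.source)
    (h : Reg g x w) {φ : E → E} (hφ : ContinuousAt φ 0) (h0 : φ 0 = e x) :
    ∀ᶠ ζ in 𝓝 (0 : E), DifferentiableAt ℝ φ ζ → ∀ ξ,
      fderiv ℝ (fun ζ => cost g (e.symm (φ ζ)) (expE g e (e x) (tr e x w))) ζ ξ =
        -g.g e (φ ζ) (V (φ ζ, e' (g.exp x w))) (fderiv ℝ φ ζ ξ) := by
  have h1 := hV.fderiv_ct
  have h2 := hV.contDiffAt_ct.eventually (by simp)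
  simp only [reg_bE hV.he hx] at h1 h2
  have h3 : Tendsto (fun ζ => (φ ζ, e' (g.exp x w))) (𝓝 0) (𝓝 (e x, e' (g.exp x w))) :=
    Tendsto.prodMk_nhds (by rw [← h0]; exact hφ) tendsto_const_nhds
  filter_upwards [h3.eventually h1, h3.eventually h2,
    (reg_slice hV hx h hφ h0).eventuallyEq_nhds] with ζ z1 z2 z3 hd ξ
  have h4 := (z2.differentiableAt (by simp)).hasFDerivAt.comp ζ
    (hd.hasFDerivAt.prodMk (hasFDerivAt_const (e' (g.exp x w)) ζ))
  rw [z3.fderiv_eq]
  have h5 := h4.fderiv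
  change fderiv ℝ (fun ζ => ct g e V (φ ζ, e' (g.exp x w))) ζ = _ at h5
  rw [h5, ContinuousLinearMap.comp_apply, z1]
  simp

theorem Reg.contDiffAt_cE (h : Reg g x w) (he : e ∈ atlas E M) (hx : x ∈ e.source) :
    ContDiffAt ℝ 4 (cE g e) (e x, 0, tr e x w) := by
  obtain ⟨V, hV⟩ := h.br he hx
  have h1 := reg_contDiffAt_bE0 (g := g) he hx (tr e x w)
  refine (reg_smooth hV hx h h1 (bE_zero g (e.map_source hx))).congr_of_eventuallyEq ?_
  exact reg_cE_eq he hx _

theorem Min.cE_zero (h : Min g x w) (he : e ∈ atlas E M) (hx : x ∈ e.source) :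
    cE g e (e x, 0, tr e x w) = g.g e (e x) (tr e x w) (tr e x w) / 2 := by
  rw [cE, expE_zero, e.left_inv hx, expE_tr g he hx, (min_iff_cost g).1 h, ip_eq g he hx]

theorem reg_fderiv_cE {V : E × E → E} (hV : Br g e e' (e x, tr e x w) V) (hx : x ∈ e.source)
    (h : Reg g x w) : ∀ᶠ ζ in 𝓝 (0 : E), ∀ ξ,
      fderiv ℝ (fun ζ => cE g e (e x, ζ, tr e x w)) ζ ξ =
        -g.g e (bE g e e (e x, ζ)) (V (bE g e e (e x, ζ), e' (g.exp x w)))
          (fderiv ℝ (bE g e e) (e x, ζ) (0, ξ)) := by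
  have he := hV.he
  have hs : expE g e (e x) 0 ∈ e.source := by rw [expE_zero, e.left_inv hx]; exact hx
  have h0 := contDiffAt_bE g (q := (e x, 0)) 1 he he (e.map_source hx) hs
  have h1 : Tendsto (fun ζ : E => (e x, ζ, tr e x w)) (𝓝 0) (𝓝 (e x, 0, tr e x w)) :=
    (continuous_const.prodMk (continuous_id.prodMk continuous_const)).tendsto _
  have h2 : Tendsto (fun ζ : E => (e x, ζ)) (𝓝 0) (𝓝 (e x, 0)) :=
    (continuous_const.prodMk continuous_id).tendsto _
  have h3 : (fun ζ => cE g e (e x, ζ, tr e x w)) =ᶠ[𝓝 0]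
      fun ζ => cost g (e.symm (bE g e e (e x, ζ))) (expE g e (e x) (tr e x w)) :=
    h1.eventually (reg_cE_eq he hx (tr e x w))
  have h4 := reg_fderiv hV hx h (φ := fun ζ => bE g e e (e x, ζ))
    (h0.continuousAt.tendsto.comp h2) (bE_zero g (e.map_source hx))
  filter_upwards [h3.eventuallyEq_nhds, h4, h2.eventually (h0.eventually (by simp))]
    with ζ z1 z2 z3 ξ
  have h5 := (z3.differentiableAt (by simp)).hasFDerivAt.comp ζ
    (hasFDerivAt_prodMk_right (𝕜 := ℝ) (e x) ζ)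
  have h6 := h5.fderiv
  change fderiv ℝ (fun ζ => bE g e e (e x, ζ)) ζ = _ at h6
  rw [z1.fderiv_eq, z2 h5.differentiableAt, h6]
  rfl

theorem Reg.fderiv_cE (h : Reg g x w) (he : e ∈ atlas E M) (hx : x ∈ e.source) (ξ : E) :
    fderiv ℝ (fun ζ => cE g e (e x, ζ, tr e x w)) 0 ξ = -g.g e (e x) (tr e x w) ξ := by
  obtain ⟨V, hV⟩ := h.br he hx
  have h1 := (reg_fderiv_cE hV hx h).self_of_nhds ξ
  have h2 := hV.apply
  rw [reg_bE he hx] at h2
  rw [h1, bE_zero g (e.map_source hx), h2, fderiv_bE_zero g he (e.map_source hx), zero_add]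

omit [FiniteDimensional ℝ E] in
theorem reg_calc {F : E → ℝ} (hs : ContDiffAt ℝ 4 F 0) {u ξ : E} {c : ℝ}
    (key : (fun t : ℝ => fderiv ℝ F (t • u) ξ) =ᶠ[𝓝 0] fun t => -((1 - t) * c)) :
    fderiv ℝ (fderiv ℝ F) 0 u ξ = c := by
  have hd : HasFDerivAt (fderiv ℝ F) (fderiv ℝ (fderiv ℝ F) 0) 0 :=
    ((hs.fderiv_right (m := 1) (by norm_num)).differentiableAt (by simp)).hasFDerivAt
  have d0 : HasDerivAt (fun t : ℝ => t • u) u 0 := by
    simpa using (hasDerivAt_id (0 : ℝ)).smul_const u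
  have d3 : HasDerivAt (fun t : ℝ => fderiv ℝ F (t • u)) (fderiv ℝ (fderiv ℝ F) 0 u) 0 :=
    hd.comp_hasDerivAt_of_eq (0 : ℝ) d0 (zero_smul ℝ u).symm
  have d1 : HasDerivAt (fun t : ℝ => fderiv ℝ F (t • u) ξ) (fderiv ℝ (fderiv ℝ F) 0 u ξ) 0 := by
    have h1 := d3.clm_apply (hasDerivAt_const (0 : ℝ) ξ)
    rwa [map_zero, add_zero] at h1
  have d2 : HasDerivAt (fun t : ℝ => -((1 - t) * c)) c 0 := by
    have h1 : HasDerivAt (fun t : ℝ => -((1 - t) * c)) (-(-1 * c)) 0 :=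
      (((hasDerivAt_id' (0 : ℝ)).const_sub 1).mul_const c).fun_neg
    rwa [neg_one_mul, neg_neg] at h1
  exact d1.unique (d2.congr_of_eventuallyEq key)

omit [ConnectedSpace M] in
theorem reg_gauss (he : e ∈ atlas E M) (hx : x ∈ e.source) (ξ : E) {t : ℝ}
    (t3 : g.geo x w t ∈ e.source) :
    g.g e (e (g.geo x w t)) (tr e (g.geo x w t) (vel E (g.geo x w) t))
      (fderiv ℝ (bE g e e) (e x, t • tr e x w) (0, ξ)) = g.g e (e x) (tr e x w) ξ := by
  have b1 : expE g e (e x) (t • tr e x w) = g.geo x w t := by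
    rw [← map_smul, expE_tr g he hx, g.exp_smul]
  have b2 : bE g e e (e x, t • tr e x w) = e (g.geo x w t) := by rw [bE, b1]
  rcases eq_or_ne t 0 with rfl | ht
  · rw [zero_smul, fderiv_bE_zero g he (e.map_source hx), vel_geo_zero, g.geo_zero, zero_add]
  · have h1 := first_var g he he (q := (e x, t • tr e x w)) (e.map_source hx)
      (by rw [b1]; exact t3) (0, ξ)
    rw [pE_smul, geoE_tr g he hx, (hasDerivAt_geo g he x w t3).deriv, b2] at h1
    simp only [map_zero, map_smul, smul_apply, zero_apply, smul_eq_mul, zero_div, zero_add,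
      mul_zero] at h1
    exact mul_left_cancel₀ ht h1

theorem reg_key (h : Reg g x w) (he : e ∈ atlas E M) (hx : x ∈ e.source) (ξ : E) :
    (fun t : ℝ => fderiv ℝ (fun ζ => cE g e (e x, ζ, tr e x w)) (t • tr e x w) ξ) =ᶠ[𝓝 0]
      fun t => -((1 - t) * g.g e (e x) (tr e x w) ξ) := by
  obtain ⟨V, hV⟩ := h.br he hx
  have hc : ContinuousAt (g.geo x w) 0 := (g.continuous_geo x w).continuousAt
  have hx0 : g.geo x w 0 ∈ e.source := by rw [g.geo_zero]; exact hx
  have hl : Tendsto (fun t : ℝ => t • tr e x w) (𝓝 0) (𝓝 0) := by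
    have h1 : Continuous fun t : ℝ => t • tr e x w := by fun_prop
    simpa using h1.tendsto 0
  have hq : Tendsto (fun t : ℝ => (e (g.geo x w t),
      tr e (g.geo x w t) ((1 - t) • vel E (g.geo x w) t))) (𝓝 0) (𝓝 (e x, tr e x w)) := by
    have h1 : Tendsto (fun t : ℝ => 1 - t) (𝓝 0) (𝓝 1) := by
      have h1 : Continuous fun t : ℝ => 1 - t := by fun_prop
      simpa using h1.tendsto 0
    have h2 := ((TC.vel_geo g x w 0).smul h1).chart he hx0
    have h3 := (e.continuousAt hx0).tendsto.comp hc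
    rw [vel_geo_zero, one_smul] at h2
    rw [g.geo_zero] at h2 h3
    exact h3.prodMk_nhds h2
  filter_upwards [hl.eventually (reg_fderiv_cE hV hx h), hq.eventually hV.left,
    hc.eventually (e.open_source.mem_nhds hx0)] with t t1 t2 t3
  have b2 : bE g e e (e x, t • tr e x w) = e (g.geo x w t) := by
    rw [← map_smul, reg_bE he hx, g.exp_smul]
  have b3 : bE g e (chartAt E (g.exp x w)) (e (g.geo x w t),
      tr e (g.geo x w t) ((1 - t) • vel E (g.geo x w) t)) =
      chartAt E (g.exp x w) (g.exp x w) := by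
    have h1 := geo_vel g x w t (1 - t) 1
    rw [mul_one, add_sub_cancel] at h1
    rw [reg_bE he t3]
    exact congrArg _ h1
  simp only [b3] at t2
  rw [t1, b2, t2, map_smul, map_smul, smul_apply, reg_gauss he hx ξ t3, smul_eq_mul]

theorem Reg.radial (h : Reg g x w) (he : e ∈ atlas E M) (hx : x ∈ e.source) (ξ : E) :
    hess (cE g e) (e x) (tr e x w) (tr e x w) ξ = g.g e (e x) (tr e x w) ξ := by
  have hs : ContDiffAt ℝ 4 (fun ζ => cE g e (e x, ζ, tr e x w)) 0 :=
    ContDiffAt.comp (g := cE g e) (f := fun ζ : E => (e x, ζ, tr e x w)) _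
      (h.contDiffAt_cE he hx) (by fun_prop)
  exact reg_calc hs (reg_key h he hx ξ)

theorem Reg.contDiffAt_cC (h : Reg g x w) (he : e ∈ atlas E M) (hx : x ∈ e.source) :
    ContDiffAt ℝ 4 (cC g e) (e x, 0, tr e x w) := by
  obtain ⟨V, hV⟩ := h.br he hx
  exact reg_smooth hV hx h (φ := fun z => z.1 + z.2.1) (by fun_prop) (add_zero _)

theorem Min.cC_zero (h : Min g x w) (he : e ∈ atlas E M) (hx : x ∈ e.source) :
    cC g e (e x, 0, tr e x w) = g.g e (e x) (tr e x w) (tr e x w) / 2 := by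
  rw [cC, add_zero, e.left_inv hx, expE_tr g he hx, (min_iff_cost g).1 h, ip_eq g he hx]

theorem Reg.fderiv_cC (h : Reg g x w) (he : e ∈ atlas E M) (hx : x ∈ e.source) (ξ : E) :
    fderiv ℝ (fun ζ => cC g e (e x, ζ, tr e x w)) 0 ξ = -g.g e (e x) (tr e x w) ξ := by
  obtain ⟨V, hV⟩ := h.br he hx
  have h1 := (reg_fderiv hV hx h (φ := fun ζ => e x + ζ) (by fun_prop)
    (add_zero _)).self_of_nhds (by fun_prop) ξ
  have h2 := hV.apply
  rw [reg_bE he hx] at h2
  rw [add_zero, h2, fderiv_const_add, fderiv_fun_id] at h1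
  exact h1

end Vale.Agent.P234
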