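import Vale.Agent.P234.Reg

/-!
# Semiconcavity of the cost  (TASK)

Let `ε` be given by `reg_short`.  Near `a₀ ∈ e.target` take `K = {(a,u) | a ∈ closedBall a₀ r, G a u u ≤ (ε/2)²}`
(compact: closed, bounded by `exists_chart_bounds`); on `K` the pair `(e.symm a, trI e _ u)` is regular, so
`taylor2` applies to `cE` and to `cC` (`tr_trI`, `ip_trI`).  For a long vector `u` take a fixed `h ∈ (0, 1/2]`
with `h • u` short and use `cost_split` with `h`, `1 - h` through the point `exp (h • u)`, `cost_geo_le`,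
`exp_smul`.  `sc` follows from the local statement by `unif_of_local` with `C = 1/κ`, `ρ = κ`.
`sc2`: split at `m = exp x (u/2) = expE e' b (-(1/2) • p)` (`geoE_pE`), `cost_split` with `1/2, 1/2`,
`sc` at `x`, `sc_chart` at `b`, `pE_speed`; continuity of `bE`, `pE`.
-/

namespace Vale.Agent.P234

open scoped ContDiff Topology Manifold
open Vale.Agent.P255 Set Filter

variable {E M : Type*} [NormedAddCommGroup E] [NormedSpace ℝ E] [FiniteDimensional ℝ E]
  [TopologicalSpace M] [ChartedSpace E M] [IsManifold 𝓘(ℝ, E) ∞ M] [T2Space M] [CompactSpace M]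
  [ConnectedSpace M] {e e' : OpenPartialHomeomorph M E} (g : Metric E M)

theorem sc_gen (he : e ∈ atlas E M) {a₀ : E} (ha : a₀ ∈ e.target) (R : ℝ) (P : E → E → M)
    {f : E × E × E → ℝ} (hf : ∀ a β u, f (a, β, u) = cost g (P a β) (expE g e a u))
    (hP : ∀ x w, Reg g x w → x ∈ e.source → ContDiffAt ℝ 4 f (e x, 0, tr e x w) ∧
      f (e x, 0, tr e x w) = g.g e (e x) (tr e x w) (tr e x w) / 2 ∧
      ∀ ξ, fderiv ℝ (fun ζ => f (e x, ζ, tr e x w)) 0 ξ = -g.g e (e x) (tr e x w) ξ) :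
    ∃ C ρ : ℝ, 0 < C ∧ 0 < ρ ∧ ∀ᶠ a in 𝓝 a₀, ∀ u β, g.g e a u u ≤ R → ‖β‖ ≤ ρ →
      cost g (P a β) (expE g e a u) ≤ g.g e a u u / 2 - g.g e a u β + C * ‖β‖ ^ 2 := by
  obtain ⟨ε, hε, hreg⟩ := reg_short g
  obtain ⟨c, D, hc, hD, hb⟩ := exists_chart_bounds g he ha
  obtain ⟨r, hr, hb⟩ := Metric.nhds_basis_closedBall.eventually_iff.1 hb
  have hs : 0 < ε / (D + 1) := by positivity
  have key : ∀ p ∈ Metric.closedBall a₀ r ×ˢ Metric.closedBall (0 : E) (ε / (D + 1)),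
      ContDiffAt ℝ 4 f (p.1, 0, p.2) ∧ f (p.1, 0, p.2) = g.g e p.1 p.2 p.2 / 2 ∧
      ∀ ξ, fderiv ℝ (fun ζ => f (p.1, ζ, p.2)) 0 ξ = -g.g e p.1 p.2 ξ := by
    rintro ⟨a, u⟩ ⟨h1, h2⟩
    obtain ⟨h3, h4⟩ := hb h1
    have h5 := hP (e.symm a) (trI e (e.symm a) u) (hreg _ _ ?_) (e.map_target h3)
    · rwa [tr_trI he (e.map_target h3), e.right_inv h3] at h5
    · refine lt_of_pow_lt_pow_left₀ 2 hε.le ?_
      rw [nrm_sq, ip_trI g he h3]
      have h6 : ‖u‖ * (D + 1) ≤ ε := (le_div_iff₀ (by positivity)).1 (mem_closedBall_zero_iff.1 h2)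
      have h7 := pow_le_pow_left₀ (by positivity) h6 2
      rcases eq_or_ne u 0 with rfl | hu
      · simpa using pow_pos hε 2
      · have h8 := pow_pos (norm_pos_iff.2 hu) 2
        nlinarith [(h4 u).2, mul_pos h8 hD, mul_pos h8 (mul_pos hD hD)]
  obtain ⟨C, ρ, hC, hρ, hT⟩ := taylor2
    ((isCompact_closedBall a₀ r).prod (isCompact_closedBall (0 : E) (ε / (D + 1))))
    fun p hp => (key p hp).1.of_le (by norm_num)
  obtain ⟨h, h0, h1, h2⟩ : ∃ h : ℝ, 0 < h ∧ h ≤ 1 / 2 ∧ h * (|R| / c + 1) ≤ ε / (D + 1) :=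
    ⟨min (1 / 2) (ε / (D + 1) / (|R| / c + 1)), by positivity, min_le_left _ _,
      (le_div_iff₀ (by positivity)).1 (min_le_right _ _)⟩
  refine ⟨C / h, ρ, by positivity, hρ, ?_⟩
  filter_upwards [Metric.closedBall_mem_nhds a₀ hr] with a h3 u β hu hβ
  obtain ⟨h4, h5⟩ := hb h3
  have h6 : ‖u‖ ≤ |R| / c + 1 := by
    have h7 : ‖u‖ ^ 2 ≤ |R| / c := by
      rw [le_div_iff₀' hc]
      exact (h5 u).1.trans (hu.trans (le_abs_self R))
    nlinarith [sq_nonneg (‖u‖ - 1), norm_nonneg u, sq_nonneg ‖u‖]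
  have hK : (a, h • u) ∈ Metric.closedBall a₀ r ×ˢ Metric.closedBall (0 : E) (ε / (D + 1)) := by
    refine ⟨h3, mem_closedBall_zero_iff.2 (le_trans ?_ h2)⟩
    rw [norm_smul, Real.norm_of_nonneg h0.le]
    exact mul_le_mul_of_nonneg_left h6 h0.le
  have h7 := (abs_le.1 (hT _ hK β hβ)).2
  rw [(key _ hK).2.1, (key _ hK).2.2, hf] at h7
  simp only [map_smul, smul_apply, smul_eq_mul] at h7
  have h8 := cost_split g h0 (sub_pos.2 (by linarith : h < 1)) (P a β) (expE g e a (h • u))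
    (expE g e a u)
  have h9 : cost g (expE g e a (h • u)) (expE g e a u) ≤ (1 - h) ^ 2 * g.g e a u u / 2 := by
    rw [expE, geoE_smul, mul_one, ← ip_trI g he h4]
    exact cost_geo_le g _ _ h 1
  rw [add_sub_cancel, div_one] at h8
  refine h8.trans ?_
  have h10 : cost g (P a β) (expE g e a (h • u)) / h ≤
      h * g.g e a u u / 2 - g.g e a u β + C / h * ‖β‖ ^ 2 := by
    rw [div_le_iff₀ h0]
    have : C / h * ‖β‖ ^ 2 * h = C * ‖β‖ ^ 2 := by field_simp
    nlinarith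
  have h11 : cost g (expE g e a (h • u)) (expE g e a u) / (1 - h) ≤ (1 - h) * g.g e a u u / 2 := by
    rw [div_le_iff₀ (by linarith)]
    exact h9.trans_eq (by ring)
  linarith

theorem sc (R : ℝ) : ∃ C ρ : ℝ, 0 < C ∧ 0 < ρ ∧ ∀ x u μ, nrm g x u ≤ R → nrm g x μ ≤ ρ →
    cost g (g.exp x μ) (g.exp x u) ≤ g.ip x u u / 2 - g.ip x u μ + C * g.ip x μ μ := by
  obtain ⟨κ, hκ, H⟩ := unif_of_local (M := M) (P := fun x κ => ∀ u μ, nrm g x u ≤ R →
      nrm g x μ ≤ κ → cost g (g.exp x μ) (g.exp x u) ≤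
        g.ip x u u / 2 - g.ip x u μ + κ⁻¹ * g.ip x μ μ)
    (fun x κ κ' h0 h1 h u μ hu hμ => (h u μ hu (hμ.trans h1)).trans (add_le_add_right
      (mul_le_mul_of_nonneg_right (inv_anti₀ h0 h1) (ip_nonneg g x μ)) _)) fun x₀ => by
      have he := chart_mem_atlas E x₀
      have hx := mem_chart_source E x₀
      have ha := (chartAt E x₀).map_source hx
      obtain ⟨C, ρ, hC, hρ, h1⟩ := sc_gen g he ha (R ^ 2) (expE g (chartAt E x₀))
        (f := cE g (chartAt E x₀)) (fun _ _ _ => rfl) fun x w h hx =>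
          ⟨h.contDiffAt_cE he hx, h.min.cE_zero he hx, h.fderiv_cE he hx⟩
      obtain ⟨c, D, hc, -, h2⟩ := exists_chart_bounds g he ha
      refine ⟨min (c / C) (√c * ρ), by positivity, ?_⟩
      filter_upwards [((chartAt E x₀).continuousAt hx).eventually (h1.and h2),
        (chartAt E x₀).open_source.mem_nhds hx] with x ⟨h3, _, h4⟩ hx u μ hu hμ
      have h5 := (h4 (tr (chartAt E x₀) x μ)).1
      rw [← ip_eq g he hx] at h5
      have h6 := h3 (tr (chartAt E x₀) x u) (tr (chartAt E x₀) x μ) ?_ ?_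
      · rw [expE_tr g he hx, expE_tr g he hx, ← ip_eq g he hx, ← ip_eq g he hx] at h6
        refine h6.trans (add_le_add_right (le_trans ?_ (mul_le_mul_of_nonneg_right
          (inv_anti₀ (by positivity) (min_le_left _ _)) (ip_nonneg g x μ))) _)
        rw [inv_div, div_mul_eq_mul_div, mul_div_assoc]
        exact mul_le_mul_of_nonneg_left ((le_div_iff₀' hc).2 h5) hC.le
      · rw [← ip_eq g he hx, ← nrm_sq]
        exact pow_le_pow_left₀ (nrm_nonneg g x u) hu 2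
      · have h7 := pow_le_pow_left₀ (nrm_nonneg g x μ) (hμ.trans (min_le_right _ _)) 2
        rw [nrm_sq, mul_pow, Real.sq_sqrt hc.le] at h7
        exact le_of_pow_le_pow_left₀ two_ne_zero hρ.le (le_of_mul_le_mul_left (h5.trans h7) hc)
  exact ⟨κ⁻¹, κ, inv_pos.2 hκ, hκ, H⟩

theorem sc_chart (he : e ∈ atlas E M) {a₀ : E} (ha : a₀ ∈ e.target) (R : ℝ) :
    ∃ C ρ : ℝ, 0 < C ∧ 0 < ρ ∧ ∀ᶠ a in 𝓝 a₀, ∀ u β, g.g e a u u ≤ R → ‖β‖ ≤ ρ →
      cost g (e.symm (a + β)) (expE g e a u) ≤ g.g e a u u / 2 - g.g e a u β + C * ‖β‖ ^ 2 := by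
  exact sc_gen g he ha R (fun a β => e.symm (a + β)) (f := cC g e) (fun _ _ _ => rfl)
    fun x w h hx => ⟨h.contDiffAt_cC he hx, h.min.cC_zero he hx, h.fderiv_cC he hx⟩

theorem sc2 (x : M) (w : E) (he' : e' ∈ atlas E M) (hy : g.exp x w ∈ e'.source) :
    ∃ C : ℝ, ∀ᶠ z : E × E × E in 𝓝 (w, 0, 0),
      cost g (g.exp x z.2.1) (e'.symm (bE g (chartAt E x) e' (chartAt E x x, z.1) + z.2.2)) ≤
        g.ip x z.1 z.1 / 2 - g.ip x z.1 z.2.1 +
          g.g e' (bE g (chartAt E x) e' (chartAt E x x, z.1))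
            (pE g (chartAt E x) e' (chartAt E x x, z.1)) z.2.2 +
          C * (‖z.2.1‖ ^ 2 + ‖z.2.2‖ ^ 2) := by
  have he := chart_mem_atlas E x
  have ha := (chartAt E x).map_source (mem_chart_source E x)
  have hy' : expE g (chartAt E x) (chartAt E x x) w ∈ e'.source := by rwa [expE_self]
  obtain ⟨C₁, ρ₁, hC₁, hρ₁, h1⟩ := sc g (nrm g x w + 1)
  obtain ⟨C₂, ρ₂, hC₂, hρ₂, h2⟩ := sc_chart g he' (e'.map_source hy') (g.ip x w w + 1)
  obtain ⟨c, D, -, hD, h3⟩ := exists_ip_bounds g x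
  have t1 : Tendsto (fun z : E × E × E => z.1) (𝓝 (w, 0, 0)) (𝓝 w) := continuous_fst.tendsto _
  have t2 : Tendsto (fun z : E × E × E => z.2.1) (𝓝 (w, 0, 0)) (𝓝 0) :=
    continuous_snd.fst.tendsto _
  have t3 : Tendsto (fun z : E × E × E => ‖z.2.2‖) (𝓝 (w, 0, 0)) (𝓝 0) :=
    continuous_snd.snd.norm.tendsto' _ _ norm_zero
  have t4 : Tendsto (fun z : E × E × E => (chartAt E x x, z.1)) (𝓝 (w, 0, 0))
      (𝓝 (chartAt E x x, w)) := tendsto_const_nhds.prodMk_nhds t1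
  have t5 := (TC.const_base.2 t2 : TC _ (fun _ => x) _ x (0 : E)).nrm g
  rw [nrm_zero] at t5
  have t6 : TC _ (fun _ => x) _ x w := TC.const_base.2 t1
  refine ⟨2 * (C₁ * D + C₂), ?_⟩
  filter_upwards [(t6.nrm g).eventually_le_const (lt_add_one _),
    (t6.ip g t6).eventually_le_const (lt_add_one _), t5.eventually_le_const hρ₁,
    t3.eventually_le_const hρ₂,
    ((continuousAt_expE g he (p := (chartAt E x x, w)) ha).tendsto.comp t4).eventually
      (e'.open_source.mem_nhds hy'),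
    ((contDiffAt_bE g 0 he he' (q := (chartAt E x x, w)) ha hy').continuousAt.tendsto.comp
      t4).eventually h2] with ⟨u, μ, β⟩ h4 h5 h6 h7 h8 h9
  have h10 := pE_speed g he he' (q := (chartAt E x x, u)) ha h8
  have h11 := geoE_pE g he' (q := (chartAt E x x, u)) h8 (-(1 / 2)) 1
  have h12 := h1 x ((1 / 2 : ℝ) • u) μ (by
    rw [nrm_smul, abs_of_pos one_half_pos]
    linarith [nrm_nonneg g x u]) h6
  change g.g e' _ _ _ = g.ip x u u at h10
  have h13 := h9 ((-(1 / 2) : ℝ) • pE g (chartAt E x) e' (chartAt E x x, u)) β (by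
    simp only [map_smul, smul_apply, smul_eq_mul, Function.comp_apply, h10]
    linarith [ip_nonneg g x u]) h7
  simp only [Function.comp_apply] at h13
  rw [expE, h11, geoE_self, cost_comm, show (1 + -(1 / 2) * 1 : ℝ) = 1 / 2 by norm_num,
    ← g.exp_smul] at h13
  have h14 := cost_split g one_half_pos one_half_pos (g.exp x μ) (g.exp x ((1 / 2 : ℝ) • u))
    (e'.symm (bE g (chartAt E x) e' (chartAt E x x, u) + β))
  simp only [map_smul, smul_apply, smul_eq_mul, h10] at h12 h13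
  have h15 := mul_le_mul_of_nonneg_left (h3 μ).2 hC₁.le
  have h16 : 0 ≤ C₁ * D * ‖β‖ ^ 2 := by positivity
  have h17 : 0 ≤ C₂ * ‖μ‖ ^ 2 := by positivity
  linarith

end Vale.Agent.P234
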