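import Vale.Agent.P234.Branch
import Vale.Agent.P234.Dist

/-!
# Short geodesics minimise  (TASK)

`short_local`: `e = chartAt x₀`, `a₀ = e x₀`, `V` a branch at `(a₀, 0)` with `e' = e` (`nc_zero`,
`bE_zero`).  Choose `r` with: for `a, b ∈ ball a₀ r`: `b ∈ e.target`, `expE e a (V (a,b)) = e.symm b`,
`ct V` is differentiable at `(a,b)` with the formula `Br.fderiv_ct`, and `expE e a (V (a,b)) ∈ e.source`;
choose `r' ≤ r/2`, `ρ` with: for `a ∈ ball a₀ r'`, `‖w‖ < ρ`: `Br e e (a,w) V`, `expE e a w ∈ e.source` and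
`bE (a,w) ∈ ball a₀ (r/2)`; take `ε` with `G a w w < ε² → ‖w‖ < ρ` (`exists_chart_bounds`).
Curve lemma: let `γ` be `C¹`, `γ 0 = e.symm a`, `length γ < ε`.  While `γ t ∈ e.symm '' ball a₀ r`,
`N t = ct V (a, e (γ t))` has `N' = G(b)(p, (e∘γ)') ≤ √(2N) spd` (`sq_le`, `pE_speed`, `spd_chart`), so
`√(2 N t + κ²) ≤ κ + ∫₀ᵗ spd`, so `√(2 N t) < ε` and `γ t` lies in the compact set
`e.symm '' closedBall a₀ (r/2)`; hence (supremum argument) this holds up to `t = 1`, and
`√(2 ct V (a, e (γ 1))) ≤ length γ`.  So for `rdist x y < ε`: `y = expE e a (V (a, e y))` and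
`√(2 ct) ≤ rdist`, with equality by `rdist_exp_le`.
`tendsto_rdist`: `rdist x₀ y ≤ √(2 ct V (a₀, e y)) → 0`.
`exists_mid`: for a curve of length `< d + κ`, the intermediate value theorem for `t ↦ rdist x (γ t)`
and `rdist_le_integral`; then compactness (minimise `z ↦ rdist z y` over the closed set
`{z | rdist x z = λ d}`).
-/

namespace Vale.Agent.P234

open scoped ContDiff Topology Manifold
open Vale.Agent.P255 Set Filter

variable {E M : Type*} [NormedAddCommGroup E] [NormedSpace ℝ E] [FiniteDimensional ℝ E]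
  [TopologicalSpace M] [ChartedSpace E M] [IsManifold 𝓘(ℝ, E) ∞ M] [T2Space M] [CompactSpace M]
  [ConnectedSpace M] (g : Metric E M)

theorem sh_real {N N' s : ℝ → ℝ} {T : ℝ} (hT : 0 ≤ T) (hs : Continuous s) (hs0 : ∀ t, 0 ≤ s t)
    (h0 : N 0 = 0) (hN : ∀ t ∈ Icc 0 T, 0 ≤ N t) (hd : ∀ t ∈ Icc 0 T, HasDerivAt N (N' t) t)
    (hb : ∀ t ∈ Icc 0 T, N' t ≤ √(2 * N t) * s t) : √(2 * N T) ≤ ∫ t in (0 : ℝ)..T, s t := by
  refine le_of_forall_pos_le_add fun κ hκ => ?_
  have hp : ∀ t ∈ Icc 0 T, 0 < 2 * N t + κ ^ 2 := fun t ht => by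
    have := hN t ht
    positivity
  have hf : ∀ t ∈ Icc 0 T, HasDerivAt (fun t => √(2 * N t + κ ^ 2))
      (2 * N' t / (2 * √(2 * N t + κ ^ 2))) t := fun t ht =>
    (((hd t ht).const_mul 2).add_const (κ ^ 2)).sqrt (hp t ht).ne'
  have hB : ∀ t, HasDerivAt (fun t => (∫ t in (0 : ℝ)..t, s t) + κ) (s t) t := fun t =>
    (hs.integral_hasStrictDerivAt 0 t).hasDerivAt.add_const κ
  have h := image_le_of_deriv_right_le_deriv_boundary (a := 0) (b := T)
    (fun t ht => (hf t ht).continuousAt.continuousWithinAt)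
    (fun t ht => (hf t (Ico_subset_Icc_self ht)).hasDerivWithinAt)
    (B := fun t => (∫ t in (0 : ℝ)..t, s t) + κ) (B' := s)
    (by simp [h0, Real.sqrt_sq hκ.le]) (fun t _ => (hB t).continuousAt.continuousWithinAt)
    (fun t _ => (hB t).hasDerivWithinAt) (fun t ht => by
      have ht' := Ico_subset_Icc_self ht
      have h1 : 0 < √(2 * N t + κ ^ 2) := Real.sqrt_pos.2 (hp t ht')
      rw [mul_div_mul_left _ _ two_ne_zero, div_le_iff₀' h1]
      exact (hb t ht').trans (mul_le_mul_of_nonneg_right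
        (Real.sqrt_le_sqrt (le_add_of_nonneg_right (sq_nonneg κ))) (hs0 t)))
    (right_mem_Icc.2 hT)
  exact (Real.sqrt_le_sqrt (le_add_of_nonneg_right (sq_nonneg κ))).trans h

/-- Properties of a branch at a pair of points of a chart. -/
structure ShGood (e : OpenPartialHomeomorph M E) (V : E × E → E) (a b : E) : Prop where
  ha : a ∈ e.target
  hb : b ∈ e.target
  right : expE g e a (V (a, b)) = e.symm b
  diff : DifferentiableAt ℝ (ct g e V) (a, b)
  fd : ∀ δ : E × E, fderiv ℝ (ct g e V) (a, b) δ =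
    -g.g e a (V (a, b)) δ.1 + g.g e b (pE g e e (a, V (a, b))) δ.2

omit [ConnectedSpace M] in
theorem ShGood.bE_eq {e : OpenPartialHomeomorph M E} {V : E × E → E} {a b : E}
    (h : ShGood g e V a b) : bE g e e (a, V (a, b)) = b := by
  rw [bE, h.right, e.right_inv h.hb]

omit [ConnectedSpace M] in
theorem sh_est {e : OpenPartialHomeomorph M E} (he : e ∈ atlas E M) {V : E × E → E} {a : E}
    {γ : ℝ → M} (hγ : C1 E γ) (h0 : V (a, e (γ 0)) = 0) {T : ℝ} (hT : 0 ≤ T)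
    (hU : ∀ t ∈ Icc 0 T, γ t ∈ e.source ∧ ShGood g e V a (e (γ t))) :
    √(2 * ct g e V (a, e (γ T))) ≤ ∫ t in (0 : ℝ)..T, spd g γ t := by
  refine sh_real (N := fun t => ct g e V (a, e (γ t)))
    (N' := fun t => g.g e (e (γ t)) (pE g e e (a, V (a, e (γ t)))) (deriv (e ∘ γ) t)) hT
    (continuous_spd g hγ) (spd_nonneg g γ) (by simp [ct, h0]) (fun t ht => ?_) (fun t ht => ?_)
    (fun t ht => ?_)
  · exact div_nonneg ((g.loc he).nonneg (hU t ht).2.ha _) zero_le_two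
  · obtain ⟨h1, h2⟩ := hU t ht
    have h3 : HasDerivAt (e ∘ γ) (deriv (e ∘ γ) t) t :=
      ((c1_chart hγ he h1).differentiableAt one_ne_zero).hasDerivAt
    have h4 := h2.diff.hasFDerivAt.comp_hasDerivAt t ((hasDerivAt_const t a).prodMk h3)
    rw [h2.fd, map_zero, neg_zero, zero_add] at h4
    exact h4
  · obtain ⟨h1, h2⟩ := hU t ht
    have h3 := pE_speed g he he (q := (a, V (a, e (γ t)))) h2.ha
      (by rw [h2.right]; exact e.map_target h2.hb)
    rw [h2.bE_eq] at h3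
    have h4 := (g.loc he).sq_le h2.hb (pE g e e (a, V (a, e (γ t)))) (deriv (e ∘ γ) t)
    rw [h3] at h4
    have h5 : 2 * ct g e V (a, e (γ t)) = g.g e a (V (a, e (γ t))) (V (a, e (γ t))) := by
      rw [ct]; ring
    rw [spd_chart g hγ he h1, h5, ← Real.sqrt_mul ((g.loc he).nonneg h2.ha _)]
    exact Real.le_sqrt_of_sq_le h4

omit [ConnectedSpace M] in
theorem sh_curve {e : OpenPartialHomeomorph M E} (he : e ∈ atlas E M) {V : E × E → E}
    {a a₀ : E} {r ε : ℝ} (hr : 0 < r) (hg : ∀ b ∈ Metric.ball a₀ r, ShGood g e V a b)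
    (ha : a ∈ Metric.closedBall a₀ (r / 2)) (hV : V (a, a) = 0)
    (hw : ∀ w, √(g.g e a w w) < ε → bE g e e (a, w) ∈ Metric.closedBall a₀ (r / 2))
    {γ : ℝ → M} (hγ : C1 E γ) (h0 : γ 0 = e.symm a) (hL : length g γ < ε) :
    γ 1 ∈ e.source ∧ ShGood g e V a (e (γ 1)) ∧ √(2 * ct g e V (a, e (γ 1))) ≤ length g γ := by
  have hsub : Metric.closedBall a₀ (r / 2) ⊆ Metric.ball a₀ r :=
    Metric.closedBall_subset_ball (half_lt_self hr)
  have hat : a ∈ e.target := (hg a (hsub ha)).ha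
  have hK : IsCompact (e.symm '' Metric.closedBall a₀ (r / 2)) :=
    (isCompact_closedBall a₀ _).image_of_continuousOn
      (e.continuousOn_symm.mono fun b hb => (hg b (hsub hb)).hb)
  have hUo : IsOpen (e.source ∩ e ⁻¹' Metric.ball a₀ r) :=
    e.isOpen_inter_preimage Metric.isOpen_ball
  have hKU : e.symm '' Metric.closedBall a₀ (r / 2) ⊆ e.source ∩ e ⁻¹' Metric.ball a₀ r := by
    rintro _ ⟨b, hb, rfl⟩
    have hbt := (hg b (hsub hb)).hb
    refine ⟨e.map_target hbt, ?_⟩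
    rw [mem_preimage, e.right_inv hbt]
    exact hsub hb
  have hc : Continuous γ := hγ.continuous
  have h0' : V (a, e (γ 0)) = 0 := by rw [h0, e.right_inv hat, hV]
  have hint : ∀ T ∈ Icc (0 : ℝ) 1, ∫ t in (0 : ℝ)..T, spd g γ t ≤ length g γ := fun T hT =>
    intervalIntegral.integral_mono_interval le_rfl hT.1 hT.2
      (Eventually.of_forall fun t => spd_nonneg g γ t) ((continuous_spd g hγ).intervalIntegrable _ _)
  have hall : Icc (0 : ℝ) 1 ⊆ γ ⁻¹' (e.symm '' Metric.closedBall a₀ (r / 2)) := by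
    refine IsClosed.Icc_subset_of_forall_mem_nhdsGT_of_Icc_subset
      ((hK.isClosed.preimage hc).inter isClosed_Icc) ⟨a, ha, h0.symm⟩ fun t ht hIcc => ?_
    have h1 : γ ⁻¹' (e.source ∩ e ⁻¹' Metric.ball a₀ r) ∈ 𝓝 t :=
      (hUo.preimage hc).mem_nhds (hKU (hIcc (right_mem_Icc.2 ht.1)))
    obtain ⟨δ, hδ, h2⟩ := Metric.mem_nhds_iff.1 h1
    filter_upwards [Ioo_mem_nhdsGT (lt_min ht.2 (lt_add_of_pos_right t hδ))] with T hT
    have hT1 : T ∈ Icc (0 : ℝ) 1 := ⟨ht.1.trans hT.1.le, (hT.2.trans_le (min_le_left _ _)).le⟩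
    have h3 : ∀ s ∈ Icc 0 T, γ s ∈ e.source ∧ ShGood g e V a (e (γ s)) := by
      intro s hs
      have h4 : γ s ∈ e.source ∩ e ⁻¹' Metric.ball a₀ r := by
        rcases le_total s t with h | h
        · exact hKU (hIcc ⟨hs.1, h⟩)
        · refine h2 ?_
          rw [Metric.mem_ball, Real.dist_eq, abs_of_nonneg (sub_nonneg.2 h)]
          have := hT.2.trans_le (min_le_right _ _)
          linarith [hs.2]
      exact ⟨h4.1, hg _ h4.2⟩
    have h5 := ((sh_est g he hγ h0' hT1.1 h3).trans (hint T hT1)).trans_lt hL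
    obtain ⟨h6, h7⟩ := h3 T (right_mem_Icc.2 hT1.1)
    have h8 := hw (V (a, e (γ T))) (by
      refine lt_of_eq_of_lt ?_ h5
      rw [ct]; congr 1; ring)
    rw [h7.bE_eq] at h8
    exact ⟨_, h8, e.left_inv h6⟩
  have h3 : ∀ s ∈ Icc (0 : ℝ) 1, γ s ∈ e.source ∧ ShGood g e V a (e (γ s)) := fun s hs =>
    ⟨(hKU (hall hs)).1, hg _ (hKU (hall hs)).2⟩
  exact ⟨(h3 1 (right_mem_Icc.2 zero_le_one)).1, (h3 1 (right_mem_Icc.2 zero_le_one)).2,
    sh_est g he hγ h0' zero_le_one h3⟩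

omit [ConnectedSpace M] in
theorem sh_br (x₀ : M) : ∃ V, Br g (chartAt E x₀) (chartAt E x₀) (chartAt E x₀ x₀, 0) V := by
  have h := (nc_zero g x₀).exists_br (chart_mem_atlas E x₀) (chart_mem_atlas E x₀)
    (mem_chart_source E x₀) (by rw [g.exp_zero]; exact mem_chart_source E x₀)
  rwa [map_zero] at h

theorem sh_core (x₀ : M) : ∃ (V : E × E → E) (ε : ℝ), 0 < ε ∧ ∀ᶠ x in 𝓝 x₀,
    x ∈ (chartAt E x₀).source ∧
    (∀ w, √(g.g (chartAt E x₀) (chartAt E x₀ x) w w) < ε →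
      Br g (chartAt E x₀) (chartAt E x₀) (chartAt E x₀ x, w) V) ∧
    ∀ y, rdist g x y < ε →
      expE g (chartAt E x₀) (chartAt E x₀ x) (V (chartAt E x₀ x, chartAt E x₀ y)) = y ∧
      √(2 * ct g (chartAt E x₀) V (chartAt E x₀ x, chartAt E x₀ y)) ≤ rdist g x y := by
  obtain ⟨V, hV⟩ := sh_br g x₀
  have he := chart_mem_atlas E x₀
  have hx₀ := mem_chart_source E x₀
  generalize chartAt E x₀ = e at *
  have ha₀ : e x₀ ∈ e.target := e.map_source hx₀
  have hb0 : bE g e e (e x₀, 0) = e x₀ := bE_zero g ha₀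
  have hgood : ∀ᶠ p : E × E in 𝓝 (e x₀, e x₀), ShGood g e V p.1 p.2 := by
    have h1 := hV.right
    have h2 := hV.contDiffAt_ct.eventually (by simp)
    have h3 := hV.fderiv_ct
    simp only [hb0] at h1 h2 h3
    have h4 : e.target ∈ 𝓝 (e x₀) := e.open_target.mem_nhds ha₀
    filter_upwards [h1, h2, h3, prod_mem_nhds h4 h4] with p p1 p2 p3 p4
    exact ⟨p4.1, p4.2, p1, p2.differentiableAt (by simp), p3⟩
  obtain ⟨r, hr, hgood⟩ := Metric.eventually_nhds_iff_ball.1 hgood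
  have hnear : ∀ᶠ q : E × E in 𝓝 (e x₀, 0),
      Br g e e q V ∧ bE g e e q ∈ Metric.closedBall (e x₀) (r / 2) := by
    refine hV.eventually.and ?_
    have h1 := (contDiffAt_bE g 0 he he (q := (e x₀, 0)) ha₀ hV.hb).continuousAt
    rw [ContinuousAt, hb0] at h1
    exact h1 (Metric.closedBall_mem_nhds _ (half_pos hr))
  obtain ⟨ρ, hρ, hnear⟩ := Metric.eventually_nhds_iff_ball.1 hnear
  obtain ⟨c, C, hc, -, hbd⟩ := exists_chart_bounds g he ha₀
  have hcx : ContinuousAt e x₀ := e.continuousAt hx₀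
  refine ⟨V, √c * ρ, by positivity, ?_⟩
  filter_upwards [e.open_source.mem_nhds hx₀, hcx hbd, hcx (Metric.ball_mem_nhds _ hρ),
    hcx (Metric.closedBall_mem_nhds _ (half_pos hr))] with x hx hbd hxρ hxr
  have hw : ∀ w, √(g.g e (e x) w w) < √c * ρ →
      Br g e e (e x, w) V ∧ bE g e e (e x, w) ∈ Metric.closedBall (e x₀) (r / 2) := by
    intro w hw
    refine hnear _ ?_
    rw [← ball_prod_same]
    refine ⟨hxρ, mem_ball_zero_iff.2 ?_⟩
    have h1 := Real.sqrt_le_sqrt (hbd.2 w).1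
    rw [Real.sqrt_mul hc.le, Real.sqrt_sq (norm_nonneg w)] at h1
    exact lt_of_mul_lt_mul_left (h1.trans_lt hw) (Real.sqrt_nonneg c)
  have hg : ∀ b ∈ Metric.ball (e x₀) r, ShGood g e V (e x) b := fun b hb =>
    hgood (e x, b) (by
      rw [← ball_prod_same]
      exact ⟨Metric.closedBall_subset_ball (half_lt_self hr) hxr, hb⟩)
  have hV0 : V (e x, e x) = 0 := by
    have h1 := (hw 0 (by simp only [map_zero, Real.sqrt_zero]; positivity)).1.apply
    rwa [bE_zero g (e.map_source hx)] at h1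
  refine ⟨hx, fun w h => (hw w h).1, fun y hy => ?_⟩
  have key : ∀ L, rdist g x y < L → L ≤ √c * ρ → y ∈ e.source ∧ ShGood g e V (e x) (e y) ∧
      √(2 * ct g e V (e x, e y)) < L := by
    intro L h1 h2
    obtain ⟨γ, hγ, g0, g1, hL⟩ := exists_curve_lt g h1
    have h3 := sh_curve g he hr hg hxr hV0 (fun w h => (hw w h).2) hγ
      (by rw [g0, e.left_inv hx]) (hL.trans_le h2)
    rw [g1] at h3
    exact ⟨h3.1, h3.2.1, h3.2.2.trans_lt hL⟩
  obtain ⟨h1, h2, -⟩ := key _ hy le_rfl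
  refine ⟨by rw [h2.right, e.left_inv h1], le_of_forall_gt_imp_ge_of_dense fun L hL => ?_⟩
  exact ((key (min L (√c * ρ)) (lt_min hL hy) (min_le_right _ _)).2.2.trans_le
    (min_le_left _ _)).le

theorem short_local (x₀ : M) : ∃ ε > 0, ∀ᶠ x in 𝓝 x₀,
    (∀ u, nrm g x u < ε → NC g x u ∧ Min g x u ∧
      ∀ u', nrm g x u' < ε → g.exp x u' = g.exp x u → u' = u) ∧
    ∀ y, rdist g x y < ε → Ex g x y := by
  obtain ⟨V, ε, hε, h⟩ := sh_core g x₀
  have he := chart_mem_atlas E x₀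
  generalize chartAt E x₀ = e at *
  refine ⟨ε, hε, h.mono fun x ⟨hx, hbr, hy⟩ => ?_⟩
  have hn : ∀ u, nrm g x u = √(g.g e (e x) (tr e x u) (tr e x u)) := fun u => by
    rw [nrm, ipr_eq, ip_eq g he hx]
  have hct : ∀ b, √(2 * ct g e V (e x, b)) = √(g.g e (e x) (V (e x, b)) (V (e x, b))) := fun b => by
    rw [ct]; congr 1; ring
  have hV : ∀ u, nrm g x u < ε → V (e x, e (g.exp x u)) = tr e x u := fun u hu => by
    have h1 := (hbr (tr e x u) (by rwa [← hn])).apply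
    rwa [bE, expE_tr g he hx] at h1
  refine ⟨fun u hu => ⟨?_, ?_, fun u' hu' h' => ?_⟩, fun y hxy => ?_⟩
  · have h1 := hbr (tr e x u) (by rwa [← hn])
    have h2 := h1.hb
    rw [expE_tr g he hx] at h2
    exact (nc_iff g he he hx h2).2 fun k hk => h1.inj hk
  · refine (rdist_exp_le g x u).antisymm ?_
    have h1 := (hy _ ((rdist_exp_le g x u).trans_lt hu)).2
    rwa [hct, hV u hu, ← hn] at h1
  · have h1 := hV u' hu'
    rw [h', hV u hu] at h1
    rw [← trI_tr he hx u, h1, trI_tr he hx]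
  · obtain ⟨h1, h2⟩ := hy y hxy
    have h3 : g.exp x (trI e x (V (e x, e y))) = y := by
      rw [← expE_tr g he hx, tr_trI he hx, h1]
    refine ⟨_, h3, (rdist_exp_le g x _).antisymm ?_⟩
    rwa [h3, hn, tr_trI he hx, ← hct]

theorem short : ∃ ε > 0, ∀ x,
    (∀ u, nrm g x u < ε → NC g x u ∧ Min g x u ∧ Uniq g x u) ∧ ∀ y, rdist g x y < ε → Ex g x y := by
  obtain ⟨ε, hε, h⟩ := unif_of_local (P := fun x ε =>
    (∀ u, nrm g x u < ε → NC g x u ∧ Min g x u ∧
      ∀ u', nrm g x u' < ε → g.exp x u' = g.exp x u → u' = u) ∧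
    ∀ y, rdist g x y < ε → Ex g x y) (fun x κ κ' _ hκ h =>
      ⟨fun u hu => ⟨(h.1 u (hu.trans_le hκ)).1, (h.1 u (hu.trans_le hκ)).2.1, fun u' hu' =>
        (h.1 u (hu.trans_le hκ)).2.2 u' (hu'.trans_le hκ)⟩, fun y hy => h.2 y (hy.trans_le hκ)⟩)
    (short_local g)
  refine ⟨ε, hε, fun x => ⟨fun u hu => ?_, (h x).2⟩⟩
  obtain ⟨h1, h2, h3⟩ := (h x).1 u hu
  refine ⟨h1, h2, fun u' hu' h' => h3 u' ?_ h'⟩
  rw [Min] at hu' h2
  rwa [← hu', h', h2]

theorem tendsto_rdist (x₀ : M) : Tendsto (rdist g x₀) (𝓝 x₀) (𝓝 0) := by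
  obtain ⟨V, hV⟩ := sh_br g x₀
  have hx₀ := mem_chart_source E x₀
  have hb0 := bE_zero g ((chartAt E x₀).map_source hx₀)
  have h1 := hV.right
  have h2 := hV.smooth.continuousAt
  have h3 := hV.apply
  simp only [hb0] at h1 h2 h3
  have h4 : Tendsto (fun y => (chartAt E x₀ x₀, chartAt E x₀ y)) (𝓝 x₀)
      (𝓝 (chartAt E x₀ x₀, chartAt E x₀ x₀)) :=
    tendsto_const_nhds.prodMk_nhds ((chartAt E x₀).continuousAt hx₀)
  have h5 := h2.tendsto.comp h4
  rw [h3] at h5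
  have h6 := TC.nrm g ((TC.const_base (x₀ := x₀)).2 h5)
  rw [nrm_zero] at h6
  refine squeeze_zero' (Eventually.of_forall fun y => rdist_nonneg g _ _) ?_ h6
  filter_upwards [h4 h1, (chartAt E x₀).open_source.mem_nhds hx₀] with y hy hy'
  have h7 : g.exp x₀ (V (chartAt E x₀ x₀, chartAt E x₀ y)) = y := by
    rw [← expE_self]
    exact hy.trans ((chartAt E x₀).left_inv hy')
  have h8 := rdist_exp_le g x₀ (V (chartAt E x₀ x₀, chartAt E x₀ y))
  rwa [h7] at h8

theorem continuous_rdist : Continuous fun p : M × M => rdist g p.1 p.2 := by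
  refine continuous_iff_continuousAt.2 fun p => tendsto_iff_dist_tendsto_zero.2 ?_
  have h1 := ((tendsto_rdist g p.1).comp (continuous_fst.tendsto p)).add
    ((tendsto_rdist g p.2).comp (continuous_snd.tendsto p))
  rw [add_zero] at h1
  refine squeeze_zero (fun q => dist_nonneg) (fun q => ?_) h1
  have h2 := rdist_triangle g q.1 p.1 q.2
  have h3 := rdist_triangle g p.1 p.2 q.2
  have h4 := rdist_triangle g p.1 q.1 p.2
  have h5 := rdist_triangle g q.1 q.2 p.2
  rw [rdist_comm g q.1 p.1] at h2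
  rw [rdist_comm g q.2 p.2] at h5
  simp only [Real.dist_eq, Function.comp, abs_le]
  constructor <;> linarith

theorem continuous_cost : Continuous fun p : M × M => cost g p.1 p.2 := by
  exact ((continuous_rdist g).pow 2).div_const 2

theorem eq_of_rdist {x y : M} (h : rdist g x y = 0) : x = y := by
  obtain ⟨ε, hε, hs⟩ := short g
  obtain ⟨u, h1, h2⟩ := (hs x).2 y (h.trans_lt hε)
  rw [Min, h1, h] at h2
  rw [← h1, nrm_eq_zero g h2.symm, g.exp_zero]

theorem exists_diam : ∃ D > 0, ∀ x y, rdist g x y ≤ D := by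
  obtain ⟨D, hD⟩ := (isCompact_range (continuous_rdist g)).bddAbove
  exact ⟨max D 1, by positivity, fun x y => (hD ⟨(x, y), rfl⟩).trans (le_max_left _ _)⟩

theorem exists_mid (x y : M) {c : ℝ} (h0 : 0 ≤ c) (h1 : c ≤ 1) :
    ∃ z, rdist g x z = c * rdist g x y ∧ rdist g z y = (1 - c) * rdist g x y := by
  have hd := rdist_nonneg g x y
  have hc1 : Continuous (rdist g x) := (continuous_rdist g).comp (Continuous.prodMk_right x)
  have hc2 : Continuous fun z => rdist g z y :=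
    (continuous_rdist g).comp (Continuous.prodMk_left y)
  have key : ∀ κ > 0, ∃ z, rdist g x z = c * rdist g x y ∧
      rdist g z y ≤ (1 - c) * rdist g x y + κ := by
    intro κ hκ
    obtain ⟨γ, hγ, g0, g1, hL⟩ := exists_curve_lt g (lt_add_of_pos_right (rdist g x y) hκ)
    obtain ⟨t, ht, h2⟩ := intermediate_value_Icc zero_le_one
      (hc1.comp hγ.continuous).continuousOn
      (show c * rdist g x y ∈ Icc (rdist g x (γ 0)) (rdist g x (γ 1)) by
        rw [g0, g1, rdist_self]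
        exact ⟨mul_nonneg h0 hd, mul_le_of_le_one_left hd h1⟩)
    refine ⟨γ t, h2, ?_⟩
    have h3 := rdist_le_integral g hγ 0 t
    have h4 := rdist_le_integral g hγ t 1
    rw [abs_of_nonneg (intervalIntegral.integral_nonneg ht.1 fun s _ => spd_nonneg g γ s), g0] at h3
    rw [abs_of_nonneg (intervalIntegral.integral_nonneg ht.2 fun s _ => spd_nonneg g γ s), g1] at h4
    have h5 := intervalIntegral.integral_add_adjacent_intervals (μ := MeasureTheory.volume)
      ((continuous_spd g hγ).intervalIntegrable 0 t) ((continuous_spd g hγ).intervalIntegrable t 1)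
    rw [length_eq] at hL
    simp only [Function.comp] at h2
    linarith
  obtain ⟨z₀, hz₀, -⟩ := key 1 one_pos
  obtain ⟨z, hz, hmin⟩ := (isClosed_eq hc1 continuous_const).isCompact.exists_isMinOn
    (s := {z | rdist g x z = c * rdist g x y}) ⟨z₀, hz₀⟩ hc2.continuousOn
  refine ⟨z, hz, le_antisymm (le_of_forall_pos_le_add fun κ hκ => ?_) ?_⟩
  · obtain ⟨z', h2, h3⟩ := key κ hκ
    exact (hmin h2).trans h3
  · have h2 := rdist_triangle g x z y
    rw [hz] at h2
    linarith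

theorem TC.min {ι : Type*} {l : Filter ι} [l.NeBot] {x : ι → M} {u : ι → E} {x₀ : M} {u₀ : E}
    (h : TC l x u x₀ u₀) (hm : ∀ᶠ i in l, Min g (x i) (u i)) : Min g x₀ u₀ := by
  have h1 := ((continuous_rdist g).tendsto (x₀, g.exp x₀ u₀)).comp (h.1.prodMk_nhds (h.exp g))
  exact tendsto_nhds_unique_of_eventuallyEq h1 (h.nrm g) hm

end Vale.Agent.P234
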